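import Vale.Agent.P146.Tail.Low

/-!
Raising the small exponents of a path costs at most a multiple of their fifth power.
-/

noncomputable section

open MeasureTheory ProbabilityTheory Filter Set
open scoped Topology BigOperators

namespace Vale.Agent.P146.Tail

open Vale.Agent.P157.Parisi (Path layer tilt level down down_zero down_succ level_castSucc
  level_cons_zero)
open Vale.Agent.P157.Parisi.Up (Lip1)
open Vale.Agent.P157.Parisi.Full (logCosh)
open Vale.Agent.P157.Parisi.Full.Concave (good_logCosh)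
open Vale.Agent.P146.Div.Simpson (ExpBd)
open Vale.Agent.P146.Div.Min (val box)

/-! ### A small exponent hardly moves a Lipschitz mean -/

/-- A Gaussian moment. -/
def gMom (B : ℝ) : ℝ := ∫ g, Real.exp ((2 + Real.sqrt B) * |g|) ∂gaussianReal 0 1

lemma one_le_gMom (B : ℝ) : 1 ≤ gMom B := by
  calc (1 : ℝ) = ∫ _, (1 : ℝ) ∂gaussianReal 0 1 := by simp
    _ ≤ _ := integral_mono (integrable_const 1)
        (Vale.Agent.P157.Parisi.Site.integrable_exp_abs _)
        fun g => Real.one_le_exp (by positivity)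

/-- The constant of `tilt_near`. -/
def nearC (B : ℝ) : ℝ := gMom B ^ 2 * (1 + gMom B)

lemma tilt_near {m s B K : ℝ} {F H : ℝ → ℝ} (hm : 0 ≤ m) (hm1 : m ≤ 1) (hsB : s ≤ B)
    (hs : 0 ≤ s) (hF : Lip1 F) (hH : Cb H) (hK : 0 ≤ K) (hl : ∀ y z, |H y - H z| ≤ K * |y - z|)
    (x : ℝ) : |tilt m s F H x - tilt 0 s logCosh H x| ≤ m * s * K * nearC B := by
  have hFc := hF.continuous
  have hHc := hH.1
  set a := Real.sqrt s with ha
  have ha0 : 0 ≤ a := Real.sqrt_nonneg s
  have haB : a ≤ Real.sqrt B := Real.sqrt_le_sqrt hsB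
  set M := gMom B
  have hM1 : 1 ≤ M := one_le_gMom B
  set e : ℝ → ℝ := fun g => Real.exp ((2 + Real.sqrt B) * |g|) with he
  have ie : Integrable e (gaussianReal 0 1) := Vale.Agent.P157.Parisi.Site.integrable_exp_abs _
  set w : ℝ → ℝ := fun g => Real.exp (m * (F (x + a * g) - F x)) with hw
  set d : ℝ → ℝ := fun g => H (x + a * g) - H x with hd
  have hu : ∀ g, |m * (F (x + a * g) - F x)| ≤ m * a * |g| := fun g => by
    have h1 : |F (x + a * g) - F x| ≤ |a * g| := by
      have p := hF (x + a * g) x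
      have p' := hF x (x + a * g)
      rw [add_sub_cancel_left] at p
      rw [sub_add_cancel_left, abs_neg] at p'
      exact abs_le.2 ⟨by linarith, by linarith⟩
    rw [abs_mul, abs_of_nonneg hm, mul_assoc]
    refine mul_le_mul_of_nonneg_left (h1.trans_eq ?_) hm
    rw [abs_mul, abs_of_nonneg ha0]
  have hu' : ∀ g, m * a * |g| ≤ Real.sqrt B * |g| := fun g =>
    mul_le_mul_of_nonneg_right ((mul_le_of_le_one_left ha0 hm1).trans haB) (abs_nonneg g)
  have hwe : ∀ g, 1 / e g ≤ w g ∧ w g ≤ e g := fun g => by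
    have := hu g
    have := hu' g
    have := abs_nonneg g
    constructor
    · rw [one_div, ← Real.exp_neg]
      exact Real.exp_le_exp.2 (by linarith [neg_abs_le (m * (F (x + a * g) - F x))])
    · exact Real.exp_le_exp.2 (by linarith [le_abs_self (m * (F (x + a * g) - F x))])
  have hg1 : ∀ g, |g| ≤ e g := fun g => (Vale.Agent.P157.Parisi.Full.Deriv.abs_le_exp_abs g).trans
    (Real.exp_le_exp.2 (le_mul_of_one_le_left (abs_nonneg g) (by linarith [Real.sqrt_nonneg B])))
  have hw1 : ∀ g, |w g - 1| ≤ m * a * (|g| * Real.exp (Real.sqrt B * |g|)) := fun g => by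
    set u := m * (F (x + a * g) - F x)
    have e1 : |Real.exp u - 1| ≤ |u| * Real.exp |u| := by
      have p := Real.add_one_le_exp u
      have q := Real.add_one_le_exp (-u)
      have q' : Real.exp u * (1 - u) ≤ 1 := by
        calc Real.exp u * (1 - u) ≤ Real.exp u * Real.exp (-u) :=
              mul_le_mul_of_nonneg_left (by linarith) (Real.exp_pos _).le
          _ = 1 := by rw [← Real.exp_add, add_neg_cancel, Real.exp_zero]
      rcases le_total 0 u with hu0 | hu0
      · rw [abs_of_nonneg hu0, abs_of_nonneg (by linarith)]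
        linarith
      · rw [abs_of_nonpos hu0, abs_of_nonpos (by linarith [Real.exp_le_one_iff.2 hu0])]
        linarith [le_mul_of_one_le_right (neg_nonneg.2 hu0) (Real.one_le_exp (neg_nonneg.2 hu0))]
    refine e1.trans ?_
    calc |u| * Real.exp |u| ≤ (m * a * |g|) * Real.exp (Real.sqrt B * |g|) :=
          mul_le_mul (hu g) (Real.exp_le_exp.2 ((hu g).trans (hu' g))) (Real.exp_pos _).le
            (by positivity)
      _ = _ := by ring
  have hge : ∀ g, |g| * Real.exp (Real.sqrt B * |g|) ≤ e g ∧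
      |g| * (|g| * Real.exp (Real.sqrt B * |g|)) ≤ e g := fun g => by
    have p := Vale.Agent.P157.Parisi.Full.Deriv.abs_le_exp_abs g
    have ee : e g = Real.exp |g| * (Real.exp |g| * Real.exp (Real.sqrt B * |g|)) := by
      rw [he, ← Real.exp_add, ← Real.exp_add]; ring_nf
    rw [ee]
    exact ⟨(mul_le_mul_of_nonneg_right p (Real.exp_pos _).le).trans
      (le_mul_of_one_le_left (by positivity) (Real.one_le_exp (abs_nonneg g))),
      mul_le_mul p (mul_le_mul_of_nonneg_right p (Real.exp_pos _).le) (by positivity)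
        (Real.exp_pos _).le⟩
  have hd1 : ∀ g, |d g| ≤ K * a * |g| := fun g => by
    refine (hl _ _).trans_eq ?_
    rw [add_sub_cancel_left, abs_mul, abs_of_nonneg ha0, mul_assoc]
  have iw : Integrable w (gaussianReal 0 1) :=
    ie.mono' (by fun_prop : Continuous w).aestronglyMeasurable
      (ae_of_all _ fun g => by rw [Real.norm_eq_abs, hw, Real.abs_exp]; exact (hwe g).2)
  have id' : Integrable d (gaussianReal 0 1) :=
    (ie.const_mul (K * a)).mono' (by fun_prop : Continuous d).aestronglyMeasurable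
      (ae_of_all _ fun g => by
        rw [Real.norm_eq_abs]
        exact (hd1 g).trans (mul_le_mul_of_nonneg_left (hg1 g) (mul_nonneg hK ha0)))
  have hb : ∀ g, |(w g - 1) * d g| ≤ m * s * K * e g := fun g => by
    rw [abs_mul]
    calc |w g - 1| * |d g|
        ≤ (m * a * (|g| * Real.exp (Real.sqrt B * |g|))) * (K * a * |g|) :=
          mul_le_mul (hw1 g) (hd1 g) (abs_nonneg _) (by positivity)
      _ = m * (a * a) * K * (|g| * (|g| * Real.exp (Real.sqrt B * |g|))) := by ring
      _ ≤ _ := by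
          rw [ha, Real.mul_self_sqrt hs]
          exact mul_le_mul_of_nonneg_left (hge g).2 (by positivity)
  have iwd : Integrable (fun g => (w g - 1) * d g) (gaussianReal 0 1) :=
    (ie.const_mul _).mono' (by fun_prop : Continuous _).aestronglyMeasurable (ae_of_all _ hb)
  have bN : |∫ g, (w g - 1) * d g ∂gaussianReal 0 1| ≤ m * s * K * M := by
    refine abs_integral_le_integral_abs.trans ?_
    rw [show m * s * K * M = ∫ g, m * s * K * e g ∂gaussianReal 0 1 from
      (integral_const_mul _ _).symm]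
    exact integral_mono iwd.abs (ie.const_mul _) hb
  have bE : |∫ g, d g ∂gaussianReal 0 1| ≤ K * a * M := by
    refine abs_integral_le_integral_abs.trans ?_
    rw [show K * a * M = ∫ g, K * a * e g ∂gaussianReal 0 1 from (integral_const_mul _ _).symm]
    exact integral_mono id'.abs (ie.const_mul _)
      fun g => (hd1 g).trans (mul_le_mul_of_nonneg_left (hg1 g) (mul_nonneg hK ha0))
  have bZ : |(∫ g, w g ∂gaussianReal 0 1) - 1| ≤ m * a * M := by
    rw [show (∫ g, w g ∂gaussianReal 0 1) - 1 = ∫ g, (w g - 1) ∂gaussianReal 0 1 by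
      rw [integral_sub iw (integrable_const 1)]; simp]
    refine abs_integral_le_integral_abs.trans ?_
    rw [show m * a * M = ∫ g, m * a * e g ∂gaussianReal 0 1 from (integral_const_mul _ _).symm]
    exact integral_mono (iw.sub (integrable_const 1)).abs (ie.const_mul _)
      fun g => (hw1 g).trans (mul_le_mul_of_nonneg_left (hge g).1 (mul_nonneg hm ha0))
  set Z := ∫ g, w g ∂gaussianReal 0 1
  set E := ∫ g, d g ∂gaussianReal 0 1
  set N := ∫ g, (w g - 1) * d g ∂gaussianReal 0 1
  have hZ : 1 / M ≤ Z := by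
    have hpt : ∀ g, 2 / M - e g / M ^ 2 ≤ w g := fun g => by
      refine le_trans ?_ (hwe g).1
      have he0 : 0 < e g := Real.exp_pos _
      field_simp
      nlinarith [sq_nonneg (e g - M)]
    have := integral_mono ((integrable_const (2 / M)).sub (ie.div_const _)) iw hpt
    simp only [Pi.sub_apply] at this
    rw [integral_sub (integrable_const _) (ie.div_const _)] at this
    simp only [integral_const, probReal_univ, one_smul] at this
    rw [integral_div] at this
    refine le_trans (le_of_eq ?_) this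
    show 1 / M = 2 / M - M / M ^ 2
    field_simp
    ring
  have hZ0 : 0 < Z := lt_of_lt_of_le (by positivity) hZ
  have eT : tilt m s F H x = H x + (N + E) / Z := by
    have e1 : ∀ g, Real.exp (m * F (x + a * g)) = Real.exp (m * F x) * w g := fun g => by
      rw [hw, ← Real.exp_add]; ring_nf
    simp only [tilt, ← ha, e1, mul_assoc, integral_const_mul]
    rw [mul_div_mul_left _ _ (Real.exp_pos _).ne',
      show (fun g => w g * H (x + a * g)) = fun g => ((w g - 1) * d g + d g) + H x * w g from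
        funext fun g => by simp only [hd]; ring,
      integral_add (f := fun g => (w g - 1) * d g + d g) (g := fun g => H x * w g)
        (iwd.add id') (iw.const_mul _),
      integral_add (f := fun g => (w g - 1) * d g) (g := d) iwd id', integral_const_mul]
    change (N + E + H x * Z) / Z = _
    field_simp
    ring
  have eP : tilt 0 s logCosh H x = H x + E := by
    simp only [tilt, ← ha, zero_mul, Real.exp_zero, one_mul, integral_const, probReal_univ,
      one_smul, div_one]
    rw [show (fun g => H (x + a * g)) = fun g => H x + d g from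
      funext fun g => by simp only [hd]; ring, integral_add (integrable_const _) id']
    simp [E]
  rw [eT, eP, show H x + (N + E) / Z - (H x + E) = (N + E * (1 - Z)) / Z by field_simp; ring,
    abs_div, abs_of_pos hZ0]
  calc |N + E * (1 - Z)| / Z ≤ (m * s * K * M + K * a * M * (m * a * M)) / (1 / M) := by
        refine div_le_div₀ (by positivity) ((abs_add_le _ _).trans (add_le_add bN ?_))
          (by positivity) hZ
        rw [abs_mul, abs_sub_comm (1 : ℝ)]
        exact mul_le_mul bE bZ (abs_nonneg _) (by positivity)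
    _ = m * (a * a) * K * M ^ 3 + m * s * K * M ^ 2 := by field_simp; ring
    _ = m * s * K * nearC B := by rw [ha, Real.mul_self_sqrt hs, nearC]; ring

/-! ### The curvature at the root when small exponents move -/

/-- The rate of `exists_near`. -/
def pinC (B : ℝ) : ℝ := 1 + Kap B * nearC B

lemma level_d2_lip {B : ℝ} {r : ℕ} {m : Fin r → ℝ} {ρ : Fin (r + 1) → ℝ} (hm : ∀ i, 0 < m i)
    (hm1 : ∀ i, m i ≤ 1) (hρ : Monotone ρ) (hB : ρ (Fin.last r) - ρ 0 ≤ B) :
    Cb (deriv (deriv (level m ρ logCosh 0))) ∧ ∀ y z,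
      |deriv (deriv (level m ρ logCosh 0)) y - deriv (deriv (level m ρ logCosh 0)) z| ≤
        Kap B * |y - z| := by
  obtain ⟨κ, K, hS, -, hK⟩ := level_shape3 hm hm1 hρ hB 0
  have hK0 : K ≤ Kap B := by
    refine le_trans (by linarith : K ≤ K + 1) (hK.trans ?_)
    have hr : 0 ≤ rate B := by rw [rate]; positivity
    have hd : 0 ≤ ρ (Fin.last r) - ρ 0 := sub_nonneg.2 (hρ (Fin.zero_le _))
    rw [Kap]
    gcongr
    nlinarith [mul_le_mul_of_nonneg_left hB hr, mul_nonneg hr (hd.trans hB)]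
  refine ⟨Cb.mk (differentiable_d2 hS.shape).continuous hS.abs_d2, fun y z => ?_⟩
  have hb : ∀ v, |deriv (deriv (deriv (level m ρ logCosh 0))) v| ≤ Kap B := fun v => by
    refine le_trans ?_ hK0
    refine abs_le_of_sq_le_sq ((hS.d3_sq v).2.trans ?_) hS.nn.2
    exact mul_le_of_le_one_right (sq_nonneg K) (Vale.Agent.P157.Parisi.Full.sq_tanh_le_one v)
  have := convex_univ.norm_image_sub_le_of_norm_hasDerivWithin_le
    (fun v _ => ((differentiable_d2 hS.shape) v).hasDerivAt.hasDerivWithinAt) (fun v _ => hb v)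
    (mem_univ z) (mem_univ y)
  simpa [Real.norm_eq_abs] using this

/-- The vectors agreeing with `m` outside `D` and at most `μ` on it. -/
def Free {r : ℕ} (D : Fin r → Prop) (μ : ℝ) (m m' : Fin r → ℝ) : Prop :=
  ∀ i, 0 < m' i ∧ m' i ≤ 1 ∧ (D i → m' i ≤ μ) ∧ (¬D i → m' i = m i)

/-- The curvature at the root is pinned, up to `O (μ S)`, by the exponents outside `D`. -/
lemma exists_near {B μ S : ℝ} (hμ : 0 ≤ μ) : ∀ {r : ℕ} (D : Fin r → Prop)
    (m : Fin r → ℝ) {ρ : Fin (r + 1) → ℝ}, (∀ i, 0 < m i) → (∀ i, m i ≤ 1) → StrictMono ρ →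
    ρ (Fin.last r) - ρ 0 ≤ B → (∀ i j, j ≤ i → D i → D j) → (∀ i, D i → ρ i.succ ≤ S) →
      ∃ Q, Cb Q ∧ (∀ y z, |Q y - Q z| ≤ Kap B * |y - z|) ∧ ∀ m', Free D μ m m' → ∀ x,
        |deriv (deriv (level m' ρ logCosh 0)) x - Q x| ≤ μ * pinC B * max 0 (S - ρ 0) := by
  have hC : 0 ≤ pinC B := by
    have := one_le_gMom B
    rw [pinC, nearC, Kap]
    positivity
  have stop : ∀ {r : ℕ} (D : Fin r → Prop) (m : Fin r → ℝ) {ρ : Fin (r + 1) → ℝ},
      (∀ i, 0 < m i) → (∀ i, m i ≤ 1) → StrictMono ρ → ρ (Fin.last r) - ρ 0 ≤ B → (∀ i, ¬D i) →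
      ∃ Q, Cb Q ∧ (∀ y z, |Q y - Q z| ≤ Kap B * |y - z|) ∧ ∀ m', Free D μ m m' → ∀ x,
        |deriv (deriv (level m' ρ logCosh 0)) x - Q x| ≤ μ * pinC B * max 0 (S - ρ 0) := by
    intro r D m ρ hm hm1 hρ hB hD
    obtain ⟨h1, h2⟩ := level_d2_lip hm hm1 hρ.monotone hB
    refine ⟨_, h1, h2, fun m' hm' x => ?_⟩
    rw [show m' = m from funext fun i => (hm' i).2.2.2 (hD i), sub_self, abs_zero]
    positivity
  intro r
  induction r with
  | zero => exact fun D m _ hm hm1 hρ hB _ _ => stop D m hm hm1 hρ hB fun i => i.elim0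
  | succ r ih =>
    intro D m ρ hm hm1 hρ hB hdc hS
    by_cases h0 : D 0
    swap
    · exact stop D m hm hm1 hρ hB fun i hi => h0 (hdc i 0 (Fin.zero_le i) hi)
    have h1 : Fin.tail ρ 0 = ρ 1 := congrArg ρ Fin.succ_zero_eq_one
    have hl : Fin.tail ρ (Fin.last r) = ρ (Fin.last (r + 1)) := by rw [Fin.tail, Fin.succ_last]
    have hs : 0 < ρ 1 - ρ 0 := sub_pos.2 (hρ (by simp))
    have hsB : ρ 1 - ρ 0 ≤ B := by linarith [hρ.monotone (Fin.le_last (1 : Fin (r + 2)))]
    have hρ' : StrictMono (Fin.tail ρ) := hρ.comp Fin.strictMono_succ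
    obtain ⟨Q, hQ, hQl, hQb⟩ := ih (fun i => D i.succ) (Fin.tail m) (ρ := Fin.tail ρ)
      (fun i => hm i.succ) (fun i => hm1 i.succ) hρ' (by rw [h1, hl]; linarith)
      (fun i j hji => hdc i.succ j.succ (Fin.succ_le_succ_iff.2 hji)) (fun i => hS i.succ)
    set s := ρ 1 - ρ 0 with hsd
    have h1S : ρ 1 ≤ S := by simpa using hS 0 h0
    refine ⟨tilt 0 s logCosh Q, Cb.tilt le_rfl good_logCosh.lip hQ, fun y z => ?_,
      fun m' hm' x => ?_⟩
    · have hi : ∀ v, Integrable (fun g => Q (v + Real.sqrt s * g)) (gaussianReal 0 1) := fun v =>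
        (integrable_weight (m := 0) (δ := s) le_rfl good_logCosh.lip hQ.expBd v).congr
          (ae_of_all _ fun g => by simp)
      simp only [tilt, zero_mul, Real.exp_zero, one_mul, integral_const, probReal_univ, one_smul,
        div_one]
      rw [← integral_sub (hi y) (hi z)]
      refine abs_integral_le_integral_abs.trans ?_
      calc ∫ g, |Q (y + Real.sqrt s * g) - Q (z + Real.sqrt s * g)| ∂gaussianReal 0 1
          ≤ ∫ _, Kap B * |y - z| ∂gaussianReal 0 1 :=
            integral_mono ((hi y).sub (hi z)).abs (integrable_const _) fun g =>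
              (hQl _ _).trans_eq (by rw [add_sub_add_right_eq_sub])
        _ = _ := by simp
    · obtain ⟨κ, K, hT, -, -⟩ := level_shape3 (m := Fin.tail m') (ρ := Fin.tail ρ)
        (fun i => (hm' i.succ).1) (fun i => (hm' i.succ).2.1) hρ'.monotone le_rfl 0
      obtain ⟨p0, p1, p2, -⟩ := hm' 0
      have hmμ := p2 h0
      set F := level (Fin.tail m') (Fin.tail ρ) logCosh 0
      have a1 := jump_d2 p0 p1 hs hT x
      have a2 : |tilt (m' 0) s F (deriv (deriv F)) x - tilt (m' 0) s F Q x| ≤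
          μ * pinC B * (S - ρ 1) := by
        have hD := hQb (Fin.tail m') (fun i => hm' i.succ)
        rw [h1, max_eq_right (sub_nonneg.2 h1S)] at hD
        have hd2 : Cb (deriv (deriv F)) := Cb.mk (differentiable_d2 hT.shape).continuous hT.abs_d2
        have := tilt_abs_le (δ := s) p0.le hT.good.lip (hd2.comb hQ 1 (-1)) (fun y => by
          rw [one_mul, neg_one_mul, ← sub_eq_add_neg]; exact hD y) x
        rwa [tilt_comb p0.le hT.good.lip hd2.expBd hQ.expBd, one_mul, neg_one_mul,
          ← sub_eq_add_neg] at this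
      have a3 := tilt_near p0.le p1 hsB hs.le hT.good.lip hQ (by rw [Kap]; positivity) hQl x
      rw [max_eq_right (by linarith : (0:ℝ) ≤ S - ρ 0), level_cons_zero]
      refine (abs_sub_le _ _ _).trans ((add_le_add a1 ((abs_sub_le _ _ _).trans
        (add_le_add a2 a3))).trans ?_)
      have b1 := mul_le_mul_of_nonneg_right hmμ hs.le
      have b2 : m' 0 * s * Kap B * nearC B ≤ μ * s * Kap B * nearC B := by
        have := one_le_gMom B
        rw [nearC, Kap]
        gcongr
      simp only [pinC, hsd] at b1 b2 ⊢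
      linarith

/-! ### Means of the first square along small exponents -/

/-- The rate of the expansion of the mean square slope. -/
def expC (B : ℝ) : ℝ := 3 * Kap B ^ 2 + 2

lemma slope_expand {B μ : ℝ} (hμ : 0 ≤ μ) {r : ℕ} {m : Fin r → ℝ} {ρ : Fin (r + 1) → ℝ}
    (hm : ∀ i, 0 < m i) (hm1 : ∀ i, m i ≤ 1) (hρ : StrictMono ρ) (h0 : ρ 0 = 0)
    (hB : ρ (Fin.last r) ≤ B) :
    ∀ p : Fin (r + 1), (∀ j : Fin r, j.succ ≤ p → m j ≤ μ) →
      |down m ρ logCosh p (fun y => deriv (deriv (level m ρ logCosh p)) y ^ 2) 0 -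
          deriv (deriv (level m ρ logCosh 0)) 0 ^ 2| ≤ expC B * (ρ p + μ) * ρ p ∧
      |slopeAt m ρ p - deriv (deriv (level m ρ logCosh 0)) 0 ^ 2 * ρ p| ≤
        expC B * (ρ p + μ) * ρ p ^ 2 := by
  intro p
  induction p using Fin.induction with
  | zero =>
    intro _
    constructor
    · simp [down_zero, h0]
    · simp [slopeAt_zero hm, h0]
  | succ i ih =>
    intro hle
    obtain ⟨iH, iG⟩ := ih fun j hj => hle j (hj.trans (Fin.castSucc_le_succ i))
    obtain ⟨κ, K, hS, -, -⟩ := level_shape3 hm hm1 hρ.monotone le_rfl i.succ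
    have hs : 0 < ρ i.succ - ρ i.castSucc := sub_pos.2 (hρ (Fin.castSucc_lt_succ (i := i)))
    have hmi := hle i le_rfl
    have hB' : ρ (Fin.last r) - ρ 0 ≤ B := by rw [h0, sub_zero]; exact hB
    have hd3 := d3_level (B := B) hm hm1 hρ hB' i
    obtain ⟨-, -, hT⟩ := down_test (B := B) hm hm1 hρ hB' i.castSucc 0
    rw [Real.tanh_zero, h0, sub_zero, zero_pow two_ne_zero, zero_add] at hT
    set s := ρ i.succ - ρ i.castSucc with hsd
    set F := level m ρ logCosh i.succ with hF
    set c := deriv (deriv (level m ρ logCosh 0)) 0 ^ 2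
    set E := expC B
    have hr0 : 0 ≤ ρ i.castSucc := h0 ▸ hρ.monotone (Fin.zero_le i.castSucc)
    have hsum : ρ i.succ = ρ i.castSucc + s := by rw [hsd]; ring
    have hA : Cb fun y => deriv (deriv (level m ρ logCosh i.castSucc)) y ^ 2 := by
      obtain ⟨κ', K', hS', -, -⟩ := level_shape3 hm hm1 hρ.monotone le_rfl i.castSucc
      exact Cb.mk ((differentiable_d2 hS'.shape).continuous.pow 2) (C := 1) fun y => by
        rw [abs_pow]; exact pow_le_one₀ (abs_nonneg _) (hS'.abs_d2 y)
    have hAT : Cb (tilt (m i) s F fun z => deriv (deriv F) z ^ 2) :=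
      Cb.tilt (hm i).le hS.good.lip (Cb.mk ((differentiable_d2 hS.shape).continuous.pow 2) (C := 1)
        fun y => by rw [abs_pow]; exact pow_le_one₀ (abs_nonneg _) (hS.abs_d2 y))
    have hG := cb_levelSq hm hm1 hρ.monotone i.castSucc
    have hGT : Cb (tilt (m i) s F fun z => deriv F z ^ 2) :=
      Cb.tilt (hm i).le hS.good.lip (cb_levelSq hm hm1 hρ.monotone i.succ)
    have bnd : ∀ a, 0 ≤ a → ∀ {h : ℝ → ℝ}, Cb h →
        (∀ y, |h y| ≤ a * (Kap B ^ 2 * (Real.tanh y ^ 2 + 3 * s) + 2 * m i)) →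
        |down m ρ logCosh i.castSucc h 0| ≤ a * (E * (ρ i.succ + μ)) := fun a ha h hh hb => by
      have h' := down_abs_le (ρ := ρ) hm i.castSucc hh
        (cb_tanhSq.comb (Cb.const 1) (a * Kap B ^ 2) (a * (Kap B ^ 2 * (3 * s) + 2 * m i)))
        (fun y => (hb y).trans_eq (by ring)) 0
      rw [down_comb hm _ cb_tanhSq (Cb.const 1), down_const hm] at h'
      refine h'.trans ?_
      have i1 := mul_le_mul_of_nonneg_left hT (mul_nonneg ha (sq_nonneg (Kap B)))
      have i2 := mul_le_mul_of_nonneg_left hmi ha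
      have i3 : 0 ≤ a * Kap B ^ 2 * μ := by positivity
      have i4 : 0 ≤ a * ρ i.succ := mul_nonneg ha (by linarith)
      simp only [E, expC]
      rw [hsum] at i4 ⊢
      linarith
    have jH := bnd s hs.le (hAT.comb hA 1 (-1)) fun y => by
      have := jump_H (hm i) (hm1 i) hs hS hd3 y
      rw [level_castSucc, one_mul, neg_one_mul, ← sub_eq_add_neg, ← hsd, ← hF]
      exact this
    have jG := bnd (s ^ 2) (sq_nonneg s) ((hGT.comb hG 1 (-1)).comb hA 1 (-s)) fun y => by
      refine le_trans (le_of_eq ?_) (jump_G (hm i) (hm1 i) hs hS hd3 y)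
      rw [level_castSucc]
      congr 1
      simp only [hF, hsd]
      ring
    rw [down_comb hm _ hAT hA] at jH
    rw [down_comb hm _ (hGT.comb hG 1 (-1)) hA, down_comb hm _ hGT hG] at jG
    rw [down_succ m ρ i, ← hsd, ← hF]
    have eG : slopeAt m ρ i.succ =
        down m ρ logCosh i.castSucc (tilt (m i) s F fun z => deriv F z ^ 2) 0 := by
      rw [slopeAt, down_succ m ρ i]
    rw [eG]
    unfold slopeAt at iG
    set H' := down m ρ logCosh i.castSucc (tilt (m i) s F fun z => deriv (deriv F) z ^ 2) 0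
    set H := down m ρ logCosh i.castSucc
      (fun y => deriv (deriv (level m ρ logCosh i.castSucc)) y ^ 2) 0
    set G' := down m ρ logCosh i.castSucc (tilt (m i) s F fun z => deriv F z ^ 2) 0
    set G := down m ρ logCosh i.castSucc
      (fun y => deriv (level m ρ logCosh i.castSucc) y ^ 2) 0
    have hE : 0 ≤ E := by simp only [E, expC]; positivity
    have k1 : E * (ρ i.castSucc + μ) ≤ E * (ρ i.succ + μ) :=
      mul_le_mul_of_nonneg_left (by linarith) hE
    have k2 := mul_le_mul_of_nonneg_right k1 hr0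
    rw [hsum] at jH jG k1 k2 ⊢
    constructor
    · rw [abs_le] at jH iH ⊢
      constructor <;> linarith
    · rw [abs_le] at jG iH iG ⊢
      have k3 := mul_le_mul_of_nonneg_right k2 hr0
      have k4 := mul_le_mul_of_nonneg_right k2 hs.le
      have k5 : 0 ≤ E * (ρ i.castSucc + s + μ) * (ρ i.castSucc * s) := by positivity
      have i1 := mul_le_mul_of_nonneg_left iH.2 hs.le
      have i2 := mul_le_mul_of_nonneg_left iH.1 hs.le
      constructor <;> linarith

/-! ### Raising the exponents -/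

lemma sum_min_le {r : ℕ} {ρ : Fin (r + 1) → ℝ} (h0 : ρ 0 = 0) {S : ℝ} (hS : 0 ≤ S) :
    ∑ i : Fin r, (min (ρ i.succ) S - min (ρ i.castSucc) S) ≤ S := by
  rw [Vale.Agent.P146.Div.Min.sum_succ_sub fun p => min (ρ p) S, h0, min_eq_left hS, sub_zero]
  exact min_le_right _ _

/-- The ratio of the changed part of the path to the exponent. -/
def spanC (β : ℝ) : ℝ := β ^ 2 / lowC β

/-- The rate of the derivative along the segment. -/
def slopeC (β : ℝ) : ℝ :=
  spanC β * (2 * pinC (β ^ 2) * spanC β + expC (β ^ 2) * (spanC β + 1) * spanC β) +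
    spanC β ^ 2 / 12

/-- Below every path, up to `C μ⁵`, there is one with all exponents at least `μ`. -/
theorem raise : RaiseStmt := by
  intro β hβ
  have hβ0 : β ≠ 0 := by linarith
  set B := β ^ 2 with hBd
  have hB0 : 0 < B := by positivity
  set l := spanC β with hld
  have hl : 0 < l := div_pos hB0 (lowC_pos hβ0)
  have hP : 0 ≤ pinC B := by
    have := one_le_gMom B
    rw [pinC, nearC, Kap]
    positivity
  have hE : 0 ≤ expC B := by rw [expC]; positivity
  have hC : 0 ≤ slopeC β := by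
    rw [slopeC, ← hBd, ← hld]
    positivity
  refine ⟨slopeC β * l, by positivity, fun ξ hξ μ hμ hμ1 => ?_⟩
  obtain ⟨r₀, m₀, q₀, hp₀⟩ := ξ
  simp only at hξ
  obtain ⟨η, hη, hη4, hηm⟩ : ∃ η : ℝ, 0 < η ∧ η ≤ 1 / 4 ∧ ∀ i, η ≤ m₀ i ∧ η ≤ 1 - m₀ i := by
    have h : ∀ᶠ η in 𝓝[>] (0 : ℝ), η ≤ 1 / 4 ∧ ∀ i, η ≤ m₀ i ∧ η ≤ 1 - m₀ i := by
      refine Filter.Eventually.filter_mono nhdsWithin_le_nhds ?_
      exact (eventually_le_nhds (by norm_num)).and (eventually_all.2 fun i =>
        (eventually_le_nhds (hp₀.pos i)).and (eventually_le_nhds (sub_pos.2 (hp₀.lt_one i))))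
    obtain ⟨η, h1, h2⟩ := (Eventually.and (self_mem_nhdsWithin (s := Set.Ioi (0 : ℝ))) h).exists
    exact ⟨η, h1, h2⟩
  have hx : (m₀, q₀) ∈ box η r₀ :=
    ⟨hp₀.strictMono.monotone, hp₀.mono, hξ, fun i => ⟨(hηm i).1, by linarith [(hηm i).2]⟩,
      fun p => ⟨hp₀.nonneg.trans (hp₀.mono (Fin.zero_le p)),
        (hp₀.mono (Fin.le_last p)).trans hp₀.le_one⟩⟩
  obtain ⟨r, ⟨m, q⟩, hy, hsm, hq, hle, hmin⟩ :=
    Vale.Agent.P146.Div.Min.exists_strict (β := β) hη hx
  obtain ⟨-, hqm, h0, hmb, hqb⟩ := id hy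
  simp only at hsm hq hle hmin hqm h0 hmb hqb
  have hpos : ∀ i, 0 < m i := fun i => hη.trans_le (hmb i).1
  have hlt1 : ∀ i, m i < 1 := fun i => by linarith [(hmb i).2]
  set δ : Fin r → ℝ := fun i => max (m i) μ - m i with hδ
  set ρ := fun p => B * q p with hρd
  have hρ : StrictMono ρ := fun a b h => mul_lt_mul_of_pos_left (hq h) hB0
  have hρ0 : ρ 0 = 0 := by simp [hρd, h0]
  have hρB : ρ (Fin.last r) ≤ B := mul_le_of_le_one_right hB0.le (hqb _).2
  set S := l * μ with hSd
  have hS : ∀ i, m i < μ → ρ i.succ ≤ S := fun i hi => by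
    have h := exponent_low hβ0 hη hη4 hy hsm hq hmin i
    have h' : q i.succ ≤ μ / lowC β := by
      rw [le_div_iff₀ (lowC_pos hβ0)]
      linarith
    calc ρ i.succ ≤ B * (μ / lowC β) := mul_le_mul_of_nonneg_left h' hB0.le
      _ = S := by rw [hSd, hld, spanC]; ring
  have hδ0 : ∀ i, μ ≤ m i → δ i = 0 := fun i hi => by
    rw [hδ]; simp [max_eq_left hi]
  have hmθ : ∀ θ ∈ Icc (0 : ℝ) 1, ∀ i, m i + θ * δ i ∈ Ioo (0 : ℝ) 1 ∧
      (m i < μ → m i + θ * δ i ≤ μ) ∧ (μ ≤ m i → m i + θ * δ i = m i) := fun θ hθ i => by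
    have d0 : 0 ≤ δ i := sub_nonneg.2 (le_max_left _ _)
    have d1 : θ * δ i ≤ δ i := mul_le_of_le_one_left d0 hθ.2
    have d2 : 0 ≤ θ * δ i := mul_nonneg hθ.1 d0
    have d3 : m i + δ i = max (m i) μ := by rw [hδ]; ring
    have d4 : max (m i) μ < 1 := max_lt (hlt1 i) hμ1
    exact ⟨⟨by linarith [hpos i], by linarith⟩,
      fun hi => by linarith [max_eq_right hi.le], fun hi => by rw [hδ0 i hi]; ring⟩
  obtain ⟨Q, -, -, hQ⟩ := exists_near (B := B) (μ := μ) (S := S) hμ.le
    (fun i => m i < μ) m (ρ := ρ) hpos (fun i => (hlt1 i).le) hρ (by rw [hρ0, sub_zero]; exact hρB)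
    (fun i j hji hi => (hsm.monotone hji).trans_lt hi) hS
  have hd : ∀ θ ∈ Icc (0 : ℝ) 1, HasDerivAt (fun t => val β (fun i => m i + t * δ i) q)
      (∑ i, δ i * (expSlope (fun i => m i + θ * δ i) ρ i 0 -
        B / 4 * (q i.succ ^ 2 - q i.castSucc ^ 2))) θ := fun θ hθ =>
    hasDerivAt_val hβ0 hq δ fun i => (hmθ θ hθ i).1
  have hder : ∀ θ ∈ Icc (0 : ℝ) 1, (∑ i, δ i * (expSlope (fun i => m i + θ * δ i) ρ i 0 -
      B / 4 * (q i.succ ^ 2 - q i.castSucc ^ 2))) ≤ slopeC β * l * μ ^ 5 := by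
    intro θ hθ
    set m' : Fin r → ℝ := fun i => m i + θ * δ i with hm'
    have hS0 : 0 ≤ S := by positivity
    have hterm : ∀ i, δ i * (expSlope m' ρ i 0 - B / 4 * (q i.succ ^ 2 - q i.castSucc ^ 2)) ≤
        slopeC β * μ ^ 4 * (min (ρ i.succ) S - min (ρ i.castSucc) S) := by
      intro i
      rcases le_or_gt μ (m i) with hi | hi
      · rw [hδ0 i hi, zero_mul]
        exact mul_nonneg (by positivity)
          (sub_nonneg.2 (min_le_min_right _ (hρ.monotone (Fin.castSucc_le_succ i))))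
      have h1S := hS i hi
      have hρi := hρ.monotone (Fin.castSucc_le_succ i)
      rw [min_eq_left h1S, min_eq_left (hρi.trans h1S)]
      set s := ρ i.succ - ρ i.castSucc with hsd
      have hs : 0 < s := sub_pos.2 (hρ (Fin.castSucc_lt_succ (i := i)))
      have hpre : ∀ j, j.succ ≤ i.succ → m j < μ := fun j hj =>
        (hsm.monotone (Fin.succ_le_succ_iff.1 hj)).trans_lt hi
      have hp' : ∀ j, 0 < m' j := fun j => (hmθ θ hθ j).1.1
      have hu' : ∀ j, m' j ≤ 1 := fun j => (hmθ θ hθ j).1.2.le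
      have hG := fun p hp => (slope_expand (B := B) hμ.le hp' hu' hρ hρ0 hρB p hp).2
      have hG0 := (slope_expand (B := B) (m := m) hμ.le hpos (fun j => (hlt1 j).le) hρ hρ0 hρB i.succ
        fun j hj => (hpre j hj).le).2
      rw [slope_min hβ0 hη hy hsm hq hmin] at hG0
      set c := deriv (deriv (level m' ρ logCosh 0)) 0 with hcd
      set c₀ := deriv (deriv (level m ρ logCosh 0)) 0 with hc₀d
      have hρi0 : 0 < ρ i.succ := hρ0 ▸ hρ (Fin.succ_pos i)
      have hpin0 : c₀ ^ 2 ≤ 1 / B + expC B * (S + μ) * S := by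
        have h1 : q i.succ = ρ i.succ / B := by
          simp only [hρd]
          rw [mul_div_cancel_left₀ _ hB0.ne']
        rw [h1, abs_le] at hG0
        have h2 : c₀ ^ 2 * ρ i.succ ≤ (1 / B + expC B * (S + μ) * S) * ρ i.succ := by
          have h3 : expC B * (ρ i.succ + μ) * ρ i.succ ≤ expC B * (S + μ) * S :=
            mul_le_mul (mul_le_mul_of_nonneg_left (by linarith) hE) h1S hρi0.le (by positivity)
          have h4 := mul_le_mul_of_nonneg_right h3 hρi0.le
          rw [add_mul, one_div_mul_eq_div]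
          linarith [hG0.1]
        exact le_of_mul_le_mul_right h2 hρi0
      have hpin : c ^ 2 ≤ c₀ ^ 2 + 4 * pinC B * μ * S := by
        have hf : Free (fun j => m j < μ) μ m m' := fun j =>
          ⟨hp' j, hu' j, (hmθ θ hθ j).2.1, fun hj => (hmθ θ hθ j).2.2 (not_lt.1 hj)⟩
        have hf0 : Free (fun j => m j < μ) μ m m := fun j =>
          ⟨hpos j, (hlt1 j).le, fun hj => hj.le, fun _ => rfl⟩
        have e1 := hQ m' hf 0
        have e2 := hQ m hf0 0
        rw [hρ0, sub_zero, max_eq_right hS0, ← hcd] at e1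
        rw [hρ0, sub_zero, max_eq_right hS0, ← hc₀d] at e2
        rw [abs_le] at e1 e2
        obtain ⟨κ, K, hT, -, -⟩ := level_shape3 hp' hu' hρ.monotone le_rfl 0
        obtain ⟨κ₀, K₀, hT₀, -, -⟩ :=
          level_shape3 hpos (fun j => (hlt1 j).le) hρ.monotone le_rfl 0
        have u0 := hT.shape.nonneg 0
        have u1 := hT.le_one 0
        have v0 := hT₀.shape.nonneg 0
        have v1 := hT₀.le_one 0
        rw [← hcd] at u0 u1
        rw [← hc₀d] at v0 v1
        have w : (c - c₀) * (c + c₀) ≤ (2 * (μ * pinC B * S)) * 2 :=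
          mul_le_mul (by linarith) (by linarith) (by linarith) (by positivity)
        linarith [show (c - c₀) * (c + c₀) = c ^ 2 - c₀ ^ 2 by ring]
      set X := 4 * pinC B * μ * S + expC B * (S + μ) * S with hX
      have hGle : ∀ p : Fin (r + 1), p ≤ i.succ →
          slopeAt m' ρ p ≤ ρ p / B + X * S + expC B * (S + μ) * S ^ 2 := fun p hp => by
        have h := hG p fun j hj => (hmθ θ hθ j).2.1 (hpre j (hj.trans hp))
        rw [abs_le] at h
        have hp1 : ρ p ≤ S := (hρ.monotone hp).trans h1S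
        have hp0 : 0 ≤ ρ p := hρ0 ▸ hρ.monotone (Fin.zero_le p)
        have i1 : c ^ 2 * ρ p ≤ (1 / B + X) * ρ p :=
          mul_le_mul_of_nonneg_right (by rw [hX]; linarith) hp0
        have i2 : expC B * (ρ p + μ) * ρ p ^ 2 ≤ expC B * (S + μ) * S ^ 2 :=
          mul_le_mul (mul_le_mul_of_nonneg_left (by linarith) hE) (pow_le_pow_left₀ hp0 hp1 2)
            (sq_nonneg _) (by positivity)
        have i3 : X * ρ p ≤ X * S := mul_le_mul_of_nonneg_left hp1 (by positivity)
        rw [add_mul, one_div_mul_eq_div] at i1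
        linarith [h.2]
      have hup := expSlope_le hp' hu' hρ hρ0 hρB i
      rw [← hsd] at hup
      have g1 := mul_le_mul_of_nonneg_left
        (add_le_add (hGle i.castSucc (Fin.castSucc_le_succ i)) (hGle i.succ le_rfl))
        (show 0 ≤ s / 4 by positivity)
      have g2 : m' i * s ^ 3 / 12 ≤ μ * S ^ 2 * s / 12 := by
        have e1 : m' i ≤ μ := (hmθ θ hθ i).2.1 hi
        have e2 : s ^ 2 ≤ S ^ 2 := pow_le_pow_left₀ hs.le
          (by linarith [hρ0 ▸ hρ.monotone (Fin.zero_le i.castSucc)]) 2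
        have e3 := mul_le_mul_of_nonneg_right (mul_le_mul e1 e2 (sq_nonneg s) hμ.le) hs.le
        linarith [show m' i * s ^ 2 * s = m' i * s ^ 3 by ring]
      have g3 : 0 ≤ s ^ 3 * kap B ^ 2 * Real.exp (-(38 * B)) / 96 * ρ i.succ := by positivity
      have g4 : s / 4 * (ρ i.castSucc / B + ρ i.succ / B) =
          B / 4 * (q i.succ ^ 2 - q i.castSucc ^ 2) := by
        rw [hsd]
        simp only [hρd]
        field_simp
        ring
      have hval : expSlope m' ρ i 0 - B / 4 * (q i.succ ^ 2 - q i.castSucc ^ 2) ≤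
          slopeC β * μ ^ 3 * s := by
        have : slopeC β * μ ^ 3 * s =
            s / 2 * (X * S + expC B * (S + μ) * S ^ 2) + μ * S ^ 2 * s / 12 := by
          rw [slopeC, ← hBd, ← hld, hX, hSd]
          ring
        linarith
      have d0 : 0 ≤ δ i := sub_nonneg.2 (le_max_left _ _)
      have d1 : δ i ≤ μ := by
        rw [hδ]
        simp only [max_eq_right hi.le]
        linarith [hpos i]
      calc δ i * (expSlope m' ρ i 0 - B / 4 * (q i.succ ^ 2 - q i.castSucc ^ 2))
          ≤ δ i * (slopeC β * μ ^ 3 * s) := mul_le_mul_of_nonneg_left hval d0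
        _ ≤ μ * (slopeC β * μ ^ 3 * s) := mul_le_mul_of_nonneg_right d1 (by positivity)
        _ = _ := by rw [hsd]; ring
    refine (Finset.sum_le_sum fun i _ => hterm i).trans ?_
    rw [← Finset.mul_sum]
    calc slopeC β * μ ^ 4 * ∑ i : Fin r, (min (ρ i.succ) S - min (ρ i.castSucc) S)
        ≤ slopeC β * μ ^ 4 * S := mul_le_mul_of_nonneg_left (sum_min_le hρ0 hS0) (by positivity)
      _ = _ := by rw [hSd]; ring
  obtain ⟨θ, hθ, hθe⟩ := exists_hasDerivAt_eq_slope _ _ zero_lt_one
    (fun θ hθ => (hd θ hθ).continuousAt.continuousWithinAt)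
    fun θ hθ => hd θ (Ioo_subset_Icc_self hθ)
  have hmove := hder θ (Ioo_subset_Icc_self hθ)
  rw [hθe, sub_zero, div_one] at hmove
  simp only [zero_mul, add_zero, one_mul] at hmove
  have hend : (fun i => m i + δ i) = fun i => max (m i) μ := funext fun i => by rw [hδ]; ring
  rw [hend] at hmove
  refine ⟨r, fun i => max (m i) μ, q, ⟨fun a b h => max_le_max_right μ (hsm.monotone h),
    fun i => le_max_right _ _, fun i => max_le (hlt1 i).le hμ1.le, hqm, h0, (hqb _).2⟩, ?_⟩
  rw [Vale.Agent.P146.Div.Min.skVal_eq β ⟨r₀, m₀, q₀, hp₀⟩ hξ]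
  show val β (fun i => max (m i) μ) q ≤ val β m₀ q₀ + slopeC β * l * μ ^ 5
  linarith

end Vale.Agent.P146.Tail
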