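import Vale.Agent.P146.Tail.Gap

/-!
The recursion as a function of all its exponents.
-/

noncomputable section

open MeasureTheory ProbabilityTheory Filter Set
open scoped Topology BigOperators

namespace Vale.Agent.P146.Tail

open Vale.Agent.P157.Parisi (layer tilt level down level_cons_zero level_cons_succ down_cons_zero
  down_cons_succ)
open Vale.Agent.P157.Parisi.Up (Lip1)
open Vale.Agent.P157.Parisi.Full (logCosh)
open Vale.Agent.P157.Parisi.Full.Concave (den den_pos exp_lip_le integrable_den)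
open Vale.Agent.P146.Div.Simpson (ExpBd)

variable {m δ : ℝ} {F : ℝ → ℝ}

lemma continuous_tilt_expBd (hm : 0 ≤ m) (hF : Lip1 F) {k : ℝ → ℝ} (hk : ExpBd k) :
    Continuous (tilt m δ F k) := by
  obtain ⟨kc, C, c, hC, hc, hb⟩ := hk
  have hFc := hF.continuous
  have hnum : ∀ k : ℝ → ℝ, Continuous k → ∀ C c, 0 ≤ C → 0 ≤ c →
      (∀ y, |k y| ≤ C * Real.exp (c * |y|)) → Continuous fun x =>
      ∫ g, Real.exp (m * F (x + Real.sqrt δ * g)) * k (x + Real.sqrt δ * g) ∂gaussianReal 0 1 := by
    intro k kc C c hC hc hb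
    refine continuous_iff_continuousAt.2 fun x₀ => continuousAt_of_dominated
      (bound := fun g => Real.exp (m * |F 0|) * C * Real.exp ((m + c) * (|x₀| + 1)) *
        Real.exp ((m + c) * Real.sqrt δ * |g|)) ?_ ?_
      ((Vale.Agent.P157.Parisi.Site.integrable_exp_abs _).const_mul _) (ae_of_all _ fun g => ?_)
    · exact Eventually.of_forall fun x => (by fun_prop : Continuous _).aestronglyMeasurable
    · filter_upwards [Metric.ball_mem_nhds x₀ one_pos] with x hx
      refine ae_of_all _ fun g => ?_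
      rw [Metric.mem_ball, Real.dist_eq] at hx
      rw [Real.norm_eq_abs, abs_mul, Real.abs_exp]
      have hy : |x + Real.sqrt δ * g| ≤ |x₀| + 1 + Real.sqrt δ * |g| := by
        refine (abs_add_le _ _).trans ?_
        rw [abs_mul, abs_of_nonneg (Real.sqrt_nonneg δ)]
        linarith [abs_sub_abs_le_abs_sub x x₀]
      calc Real.exp (m * F (x + Real.sqrt δ * g)) * |k (x + Real.sqrt δ * g)|
          ≤ Real.exp (m * |F 0|) * Real.exp (m * |x + Real.sqrt δ * g|) *
              (C * Real.exp (c * |x + Real.sqrt δ * g|)) :=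
            mul_le_mul (exp_lip_le hm hF _) (hb _) (abs_nonneg _) (by positivity)
        _ = Real.exp (m * |F 0|) * C * Real.exp ((m + c) * |x + Real.sqrt δ * g|) := by
            rw [add_mul m c, Real.exp_add]; ring
        _ ≤ Real.exp (m * |F 0|) * C *
            Real.exp ((m + c) * (|x₀| + 1) + (m + c) * Real.sqrt δ * |g|) := by
            refine mul_le_mul_of_nonneg_left (Real.exp_le_exp.2 ?_) (by positivity)
            linarith [mul_le_mul_of_nonneg_left hy (add_nonneg hm hc)]
        _ = _ := by rw [Real.exp_add]; ring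
    · fun_prop
  have h1 := hnum (fun _ => 1) continuous_const 1 0 zero_le_one le_rfl fun y => by simp
  simp only [mul_one] at h1
  exact (hnum k kc C c hC hc hb).div h1 fun x => (den_pos hm hF x).ne'

lemma expBd_lip (hF : Lip1 F) : ExpBd F := by
  refine ⟨hF.continuous, |F 0| + 1, 1, by positivity, zero_le_one, fun x => ?_⟩
  have h1 := hF x 0
  have h2 := hF 0 x
  rw [sub_zero] at h1
  rw [zero_sub, abs_neg] at h2
  have e1 := Real.one_le_exp (abs_nonneg x)
  have e2 := Vale.Agent.P157.Parisi.Full.Deriv.abs_le_exp_abs x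
  rw [one_mul, abs_le]
  constructor <;> nlinarith [le_abs_self (F 0), neg_abs_le (F 0), abs_nonneg (F 0)]

lemma cb_gain {m s κ K : ℝ} (hm : 0 < m) (hm1 : m ≤ 1) (hs : 0 < s) (h : Shape3 κ K F) :
    Cb (gain m s F) := by
  refine Cb.mk (((continuous_tilt_expBd hm.le h.good.lip (expBd_lip h.good.lip)).sub
    ((shapeStep_continuous hm hm1 hs.le h))).div_const m) (C := s / 2) fun x => ?_
  obtain ⟨a, b⟩ := gain_bounds hm hm1 hs h x
  exact abs_le.2 ⟨by linarith, b⟩
where
  shapeStep_continuous {m s κ K : ℝ} {F : ℝ → ℝ} (hm : 0 < m) (hm1 : m ≤ 1) (hs : 0 ≤ s)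
      (h : Shape3 κ K F) : Continuous (layer m s F) :=
    (Vale.Agent.P146.Div.shapeStep m s F hm hm1 hs h.shape).smooth.continuous

/-- The steps of a path with its exponents. -/
def gainAt {r : ℕ} (m : Fin r → ℝ) (ρ : Fin (r + 1) → ℝ) (i : Fin r) : ℝ → ℝ :=
  gain (m i) (ρ i.succ - ρ i.castSucc) (level m ρ logCosh i.succ)

/-- The derivative of the recursion in the exponent `i`. -/
def expSlope {r : ℕ} (m : Fin r → ℝ) (ρ : Fin (r + 1) → ℝ) (i : Fin r) : ℝ → ℝ :=
  down m ρ logCosh i.castSucc (gainAt m ρ i)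

section
variable {r : ℕ} {m : Fin r → ℝ} {ρ : Fin (r + 1) → ℝ} (hm : ∀ i, 0 < m i) (hm1 : ∀ i, m i ≤ 1)
  (hρ : StrictMono ρ)

include hm hm1 hρ

lemma gainAt_bounds (i : Fin r) :
    Cb (gainAt m ρ i) ∧ ∀ x, 0 ≤ gainAt m ρ i x ∧
      gainAt m ρ i x ≤ (ρ i.succ - ρ i.castSucc) / 2 := by
  obtain ⟨κ, K, hS, -, -⟩ := level_shape3 hm hm1 hρ.monotone le_rfl i.succ
  have hs := sub_pos.2 (hρ (Fin.castSucc_lt_succ (i := i)))
  exact ⟨cb_gain (hm i) (hm1 i) hs hS, gain_bounds (hm i) (hm1 i) hs hS⟩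

lemma expSlope_bounds (i : Fin r) :
    Cb (expSlope m ρ i) ∧ ∀ x, |expSlope m ρ i x| ≤ (ρ i.succ - ρ i.castSucc) / 2 := by
  obtain ⟨hc, hb⟩ := gainAt_bounds hm hm1 hρ i
  refine ⟨Cb.down hm _ hc, fun x => ?_⟩
  have := down_abs_le (ρ := ρ) hm i.castSucc hc (Cb.const ((ρ i.succ - ρ i.castSucc) / 2))
    (fun y => by rw [abs_of_nonneg (hb y).1]; exact (hb y).2) x
  rwa [down_const hm] at this

end

lemma tilt_finset_sum {ι : Type*} (hm : 0 ≤ m) (hF : Lip1 F) (S : Finset ι) (c : ι → ℝ)
    (h : ι → ℝ → ℝ) (hh : ∀ i, Cb (h i)) (x : ℝ) :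
    Cb (fun y => ∑ i ∈ S, c i * h i y) ∧
      tilt m δ F (fun y => ∑ i ∈ S, c i * h i y) x = ∑ i ∈ S, c i * tilt m δ F (h i) x := by
  classical
  induction S using Finset.induction_on with
  | empty => exact ⟨by simpa using Cb.const 0, by simpa using tilt_const hm hF 0 x⟩
  | insert a S ha ih =>
    obtain ⟨h1, h2⟩ := ih
    have e : (fun y => ∑ i ∈ insert a S, c i * h i y) =
        fun y => c a * h a y + 1 * ∑ i ∈ S, c i * h i y := funext fun y => by
      rw [Finset.sum_insert ha, one_mul]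
    refine ⟨e ▸ (hh a).comb h1 (c a) 1, ?_⟩
    rw [e, tilt_comb hm hF (hh a).expBd h1.expBd, h2, one_mul, Finset.sum_insert ha]

/-- The recursion moved along a segment of exponents. -/
theorem hasDerivAt_level : ∀ {r : ℕ} (m δ : Fin r → ℝ) {ρ : Fin (r + 1) → ℝ}, StrictMono ρ →
    ∀ {θ : ℝ}, (∀ i, m i + θ * δ i ∈ Ioo (0 : ℝ) 1) → ∀ x,
      HasDerivAt (fun t => level (fun i => m i + t * δ i) ρ logCosh 0 x)
        (∑ i, δ i * expSlope (fun i => m i + θ * δ i) ρ i x) θ := by
  intro r
  induction r with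
  | zero =>
    intro m δ ρ _ θ _ x
    simpa [level] using hasDerivAt_const θ (logCosh x)
  | succ r ih =>
    intro m δ ρ hρ θ hθ x
    set s := ρ 1 - ρ 0 with hs
    set M : ℝ → Fin (r + 1) → ℝ := fun t i => m i + t * δ i with hM
    set G : ℝ → ℝ → ℝ := fun t => level (Fin.tail (M t)) (Fin.tail ρ) logCosh 0 with hG
    set G' : ℝ → ℝ → ℝ := fun t y =>
      ∑ i, Fin.tail δ i * expSlope (Fin.tail (M t)) (Fin.tail ρ) i y with hG'
    have hρ' : StrictMono (Fin.tail ρ) := hρ.comp Fin.strictMono_succ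
    obtain ⟨ε, hε, hball⟩ : ∃ ε > 0, ∀ t ∈ Metric.ball θ ε, ∀ i, M t i ∈ Ioo (0 : ℝ) 1 := by
      have hev : ∀ᶠ t in 𝓝 θ, ∀ i, M t i ∈ Ioo (0 : ℝ) 1 := eventually_all.2 fun i =>
        (by fun_prop : Continuous fun t : ℝ => m i + t * δ i).continuousAt.preimage_mem_nhds
          (isOpen_Ioo.mem_nhds (hθ i))
      obtain ⟨ε, hε, h⟩ := Metric.eventually_nhds_iff_ball.1 hev
      exact ⟨ε, hε, h⟩
    set B := ∑ i : Fin r, |Fin.tail δ i| * ((Fin.tail ρ i.succ - Fin.tail ρ i.castSucc) / 2) with hB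
    have hB0 : 0 ≤ B := Finset.sum_nonneg fun i _ =>
      mul_nonneg (abs_nonneg _) (by linarith [hρ' (Fin.castSucc_lt_succ (i := i))])
    have hd : ∀ t ∈ Metric.ball θ ε, ∀ y, HasDerivAt (fun t => G t y) (G' t y) t ∧ |G' t y| ≤ B :=
      fun t ht y => by
        have hp : ∀ i, Fin.tail (M t) i ∈ Ioo (0 : ℝ) 1 := fun i => hball t ht i.succ
        refine ⟨ih (Fin.tail m) (Fin.tail δ) hρ' hp y,
          (Finset.abs_sum_le_sum_abs _ _).trans (Finset.sum_le_sum fun i _ => ?_)⟩
        rw [abs_mul]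
        exact mul_le_mul_of_nonneg_left ((expSlope_bounds (fun i => (hp i).1) (fun i => (hp i).2.le)
          hρ' i).2 y) (abs_nonneg _)
    have hθb : θ ∈ Metric.ball θ ε := Metric.mem_ball_self hε
    have hL : ∀ t ∈ Metric.ball θ ε, Lip1 (G t) := fun t ht =>
      lip_level (m := Fin.tail (M t)) (fun i => (hball t ht i.succ).1) (Fin.tail ρ) 0
    have hGc := (hL θ hθb).continuous
    have hG'c : Continuous (G' θ) := continuous_finsetSum _ fun i _ => continuous_const.mul
      (expSlope_bounds (m := Fin.tail (M θ)) (fun i : Fin r => (hθ i.succ).1) (fun i : Fin r => (hθ i.succ).2.le)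
        hρ' i).1.1
    set y : ℝ → ℝ := fun g => x + Real.sqrt s * g with hy
    set u : ℝ → ℝ := fun g => |G θ 0| + |x| + Real.sqrt s * |g| + B * ε with hu
    have hu0 : ∀ g, 0 ≤ u g := fun g => by positivity
    have hgrow : ∀ t ∈ Metric.ball θ ε, ∀ g, |G t (y g)| ≤ u g := fun t ht g => by
      have h1 := (convex_ball θ ε).norm_image_sub_le_of_norm_hasDerivWithin_le
        (fun v hv => (hd v hv (y g)).1.hasDerivWithinAt) (fun v hv => (hd v hv (y g)).2) hθb ht
      rw [Real.norm_eq_abs, Real.norm_eq_abs] at h1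
      rw [Metric.mem_ball, Real.dist_eq] at ht
      have h2 := hL θ hθb (y g) 0
      have h3 := hL θ hθb 0 (y g)
      rw [sub_zero] at h2
      rw [zero_sub, abs_neg] at h3
      have h4 : |y g| ≤ |x| + Real.sqrt s * |g| := (abs_add_le _ _).trans
        (by rw [abs_mul, abs_of_nonneg (Real.sqrt_nonneg _)])
      have h5 := abs_sub_abs_le_abs_sub (G t (y g)) (G θ (y g))
      have h6 : |G θ (y g)| ≤ |G θ 0| + |y g| := by
        rw [abs_le]
        constructor <;> linarith [le_abs_self (G θ 0), neg_abs_le (G θ 0)]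
      linarith [mul_le_mul_of_nonneg_left ht.le hB0]
    obtain ⟨-, hI⟩ := hasDerivAt_integral_of_dominated_loc_of_deriv_le (μ := gaussianReal 0 1)
      (x₀ := θ) (F := fun t g => Real.exp (M t 0 * G t (y g)))
      (F' := fun t g => (δ 0 * G t (y g) + M t 0 * G' t (y g)) * Real.exp (M t 0 * G t (y g)))
      (bound := fun g => (|δ 0| + B) * Real.exp (2 * u g)) (Metric.ball_mem_nhds θ hε)
      (by
        filter_upwards [Metric.ball_mem_nhds θ hε] with t ht
        exact ((continuous_const.mul ((hL t ht).continuous.comp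
          (by fun_prop : Continuous y))).rexp).aestronglyMeasurable)
      (integrable_den (δ := s) (hθ 0).1.le (hL θ hθb) x)
      (by
        have := hG'c
        exact (by fun_prop : Continuous _).aestronglyMeasurable)
      (ae_of_all _ fun g t ht => by
        obtain ⟨m0, m1⟩ := hball t ht 0
        have hg := hgrow t ht g
        have hd' := (hd t ht (y g)).2
        rw [Real.norm_eq_abs, abs_mul, Real.abs_exp]
        calc |δ 0 * G t (y g) + M t 0 * G' t (y g)| * Real.exp (M t 0 * G t (y g))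
            ≤ ((|δ 0| + B) * Real.exp (u g)) * Real.exp (u g) := by
              refine mul_le_mul ((abs_add_le _ _).trans ?_) (Real.exp_le_exp.2 ?_)
                (Real.exp_pos _).le (by positivity)
              · rw [abs_mul, abs_mul, abs_of_pos m0, add_mul |δ 0|]
                have e1 : u g ≤ Real.exp (u g) :=
                  le_trans (by linarith) (Real.add_one_le_exp (u g))
                exact add_le_add (mul_le_mul_of_nonneg_left (hg.trans e1) (abs_nonneg _))
                  (((mul_le_of_le_one_left (abs_nonneg _) m1.le).trans hd').trans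
                    (le_mul_of_one_le_right hB0 (Real.one_le_exp (hu0 g))))
              · exact (le_abs_self _).trans (by
                  rw [abs_mul, abs_of_pos m0]
                  exact (mul_le_of_le_one_left (abs_nonneg _) m1.le).trans hg)
          _ = _ := by rw [mul_assoc, ← Real.exp_add, two_mul])
      (by
        have e : (fun g => (|δ 0| + B) * Real.exp (2 * u g)) = fun g =>
            (|δ 0| + B) * Real.exp (2 * (|G θ 0| + |x| + B * ε)) *
              Real.exp (2 * Real.sqrt s * |g|) := funext fun g => by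
          rw [hu, mul_assoc _ (Real.exp _), ← Real.exp_add]; ring_nf
        rw [e]
        exact (Vale.Agent.P157.Parisi.Site.integrable_exp_abs _).const_mul _)
      (ae_of_all _ fun g t ht => by
        refine ((((hasDerivAt_id' t).mul_const (δ 0)).const_add (m 0)).mul
          (hd t ht (y g)).1).exp.congr_deriv ?_
        simp only [hM, Pi.mul_apply]
        ring)
    have hZ := den_pos (δ := s) (hθ 0).1.le (hL θ hθb) x
    have hμ : HasDerivAt (fun t => M t 0) (δ 0) θ := by
      simpa [hM] using ((hasDerivAt_id' θ).mul_const (δ 0)).const_add (m 0)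
    have hlay := (hI.log hZ.ne').div hμ (hθ 0).1.ne'
    have efun : (fun t => level (M t) ρ logCosh 0 x) =
        fun t => Real.log (∫ g, Real.exp (M t 0 * G t (y g)) ∂gaussianReal 0 1) / M t 0 :=
      funext fun t => by rw [level_cons_zero, layer, one_div_mul_eq_div]
    show HasDerivAt (fun t => level (M t) ρ logCosh 0 x) _ θ
    rw [efun]
    refine hlay.congr_deriv ?_
    have hEF : tilt (M θ 0) s (G θ) (fun z => δ 0 * G θ z + M θ 0 * G' θ z) x =
        δ 0 * tilt (M θ 0) s (G θ) (G θ) x + M θ 0 * tilt (M θ 0) s (G θ) (G' θ) x :=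
      tilt_comb (hθ 0).1.le (hL θ hθb) (expBd_lip (hL θ hθb))
        (Cb.mk hG'c fun z => (hd θ hθb z).2).expBd _ _ x
    have hsum : tilt (M θ 0) s (G θ) (G' θ) x =
        ∑ i, Fin.tail δ i * tilt (M θ 0) s (G θ) (expSlope (Fin.tail (M θ)) (Fin.tail ρ) i) x :=
      (tilt_finset_sum (hθ 0).1.le (hL θ hθb) _ _ _ (fun i => (expSlope_bounds
        (m := Fin.tail (M θ)) (fun i : Fin r => (hθ i.succ).1) (fun i : Fin r => (hθ i.succ).2.le) hρ' i).1) x).2
    have hnum : ∫ g, (δ 0 * G θ (y g) + M θ 0 * G' θ (y g)) * Real.exp (M θ 0 * G θ (y g))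
          ∂gaussianReal 0 1 =
        tilt (M θ 0) s (G θ) (fun z => δ 0 * G θ z + M θ 0 * G' θ z) x *
          den (M θ 0) s (G θ) x := by
      rw [Vale.Agent.P157.Parisi.Full.Concave.tilt_eq_div, div_mul_cancel₀ _ hZ.ne']
      exact integral_congr_ae (ae_of_all _ fun g => by
        simp only [Vale.Agent.P157.Parisi.Full.Concave.wfun, hy]; ring)
    rw [hnum, hEF, hsum, Fin.sum_univ_succ]
    have h0 : expSlope (M θ) ρ 0 x =
        (tilt (M θ 0) s (G θ) (G θ) x - layer (M θ 0) s (G θ) x) / M θ 0 := by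
      show gain (M θ 0) (ρ (Fin.succ 0) - ρ 0) (level (M θ) ρ logCosh (Fin.succ 0)) x = _
      rw [gain, level_cons_succ, Fin.succ_zero_eq_one]
    have hsucc : ∀ i : Fin r, expSlope (M θ) ρ i.succ x =
        tilt (M θ 0) s (G θ) (expSlope (Fin.tail (M θ)) (Fin.tail ρ) i) x := fun i => by
      unfold expSlope gainAt
      rw [← Fin.succ_castSucc, down_cons_succ, level_cons_succ]
      rfl
    show _ = δ 0 * expSlope (M θ) ρ 0 x + ∑ i : Fin r, δ i.succ * expSlope (M θ) ρ i.succ x
    simp only [hsucc, h0, layer, den, Fin.tail, hy]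
    have hne : M θ 0 ≠ 0 := (hθ 0).1.ne'
    change 0 < ∫ g, Real.exp (M θ 0 * G θ (x + Real.sqrt s * g)) ∂gaussianReal 0 1 at hZ
    have := hZ.ne'
    field_simp
    ring

end Vale.Agent.P146.Tail
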