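import Vale.Agent.P146.Tail.Final.Limit

/-!
The upper tail of the free energy at low temperature, from Guerra's bound and the raising of
exponents.
-/

noncomputable section

open MeasureTheory ProbabilityTheory Filter
open scoped BigOperators Topology

namespace Vale.Agent.P146.Tail

open Final

/-- Module D: the exponential moments, the upper tail and the one-sided mean fluctuations. -/
theorem upper_tail_of (hG : GuerraStmt) (hR : RaiseStmt) : ∀ β : ℝ, 1 < β → ∃ P C c : ℝ, 0 < c ∧
    Tendsto (fun n : ℕ => (∫ g, freeEnergy n β g ∂disorder n) / n) atTop (𝓝 P) ∧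
    (∀ n : ℕ, 1 ≤ n → ∀ μ : ℝ, 0 < μ → μ < 1 →
      Integrable (fun g => Real.exp (μ * freeEnergy n β g)) (disorder n) ∧
        Real.log (∫ g, Real.exp (μ * freeEnergy n β g) ∂disorder n) ≤ n * μ * P + C * n * μ ^ 6) ∧
    (∀ n : ℕ, 1 ≤ n → ∀ x : ℝ, 0 ≤ x →
      (disorder n).real {g | (n : ℝ) * P + x ≤ freeEnergy n β g} ≤
        Real.exp (-(c * x ^ (6 / 5 : ℝ) / (n : ℝ) ^ (1 / 5 : ℝ)))) ∧
    (∀ n : ℕ, 1 ≤ n →
      ∫ g, max (freeEnergy n β g - n * P) 0 ∂disorder n ≤ C * (n : ℝ) ^ (1 / 6 : ℝ)) ∧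
    (∀ n : ℕ, 1 ≤ n → ∫ g, |freeEnergy n β g - ∫ g', freeEnergy n β g' ∂disorder n| ∂disorder n ≤
        2 * (n * P - ∫ g', freeEnergy n β g' ∂disorder n) + C * (n : ℝ) ^ (1 / 6 : ℝ)) := by
  intro β hβ
  obtain ⟨A, hA0, hA⟩ := hR β hβ
  have hβ0 : 0 < β := by linarith
  set P := pval β with hP
  have mom : ∀ n : ℕ, 1 ≤ n → ∀ μ : ℝ, 0 < μ → μ < 1 → _ := fun n hn μ hμ hμ1 =>
    moment_le (n := n) (β := β) hG hA hn (μ := μ) hμ hμ1
  set a : ℝ := max (max (β ^ 2) (2 * |Real.log 2 - P|)) 1 with ha
  have ha1 : 1 ≤ a := le_max_right _ _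
  have haβ : β ^ 2 ≤ a := (le_max_left _ _).trans (le_max_left _ _)
  have haP : 2 * |Real.log 2 - P| ≤ a := (le_max_right _ _).trans (le_max_left _ _)
  set κ : ℝ := 1 / (2 * (a + A)) with hκ
  have hκ0 : 0 < κ := by positivity
  have hκmul : κ * (a + A) = 1 / 2 := by rw [hκ]; field_simp
  have hκa : κ * a ≤ 1 / 2 := by nlinarith
  have hκA : κ * A ≤ 1 / 2 := by nlinarith
  have hκ1 : κ ≤ 1 := by nlinarith
  have hκ5 : A * κ ^ 5 ≤ 1 / 2 :=
    le_trans (mul_le_mul_of_nonneg_left
      (pow_le_of_le_one hκ0.le hκ1 (by norm_num)) hA0) (by linarith)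
  set C : ℝ := max A (4 * Real.exp (A / 64)) with hC
  -- the mean positive part
  have plus : ∀ n : ℕ, 1 ≤ n → ∫ g, max (freeEnergy n β g - n * P) 0 ∂disorder n ≤
      2 * Real.exp (A / 64) * (n : ℝ) ^ (1 / 6 : ℝ) := by
    intro n hn
    have hn' : (1 : ℝ) ≤ n := by exact_mod_cast hn
    set z := (n : ℝ) ^ (1 / 6 : ℝ) with hz
    have hz1 : 1 ≤ z := Real.one_le_rpow hn' (by norm_num)
    have hz6 : z ^ 6 = n := by
      rw [hz, ← Real.rpow_mul_natCast (by linarith)]; norm_num
    set μ := 1 / (2 * z) with hμdef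
    have hμ : 0 < μ := by positivity
    have hμ1 : μ < 1 := by rw [hμdef, div_lt_one (by positivity)]; linarith
    obtain ⟨hi, hb⟩ := mom n hn μ hμ hμ1
    have hint := hi.const_mul (Real.exp (-(μ * (n * P))) / μ)
    refine (integral_mono_of_nonneg (.of_forall fun g => le_max_right _ _) hint
      (.of_forall fun g => ?_)).trans ?_
    · show max (freeEnergy n β g - n * P) 0 ≤
        Real.exp (-(μ * (n * P))) / μ * Real.exp (μ * freeEnergy n β g)
      rw [div_mul_eq_mul_div, ← Real.exp_add, le_div_iff₀ hμ]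
      rcases le_total (freeEnergy n β g - n * P) 0 with h | h
      · rw [max_eq_right h, zero_mul]; positivity
      · rw [max_eq_left h]
        linarith [Real.add_one_le_exp (-(μ * (n * P)) + μ * freeEnergy n β g)]
    · rw [integral_const_mul]
      calc Real.exp (-(μ * (n * P))) / μ * ∫ g, Real.exp (μ * freeEnergy n β g) ∂disorder n
          ≤ Real.exp (-(μ * (n * P))) / μ * Real.exp (n * μ * P + A * n * μ ^ 6) :=
            mul_le_mul_of_nonneg_left hb (by positivity)
        _ = Real.exp (A * (z ^ 6) * μ ^ 6) / μ := by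
            rw [div_mul_eq_mul_div, ← Real.exp_add, hz6]
            congr 2
            ring
        _ = 2 * Real.exp (A / 64) * z := by
            rw [hμdef]
            field_simp
            norm_num
  refine ⟨P, C, min (κ / 2) (1 / (4 * β ^ 2)), lt_min (by positivity) (by positivity),
    tendsto_pval hG hβ0, fun n hn μ hμ hμ1 => ?_, fun n hn x hx => ?_, fun n hn => ?_,
    fun n hn => ?_⟩
  · obtain ⟨hi, hb⟩ := mom n hn μ hμ hμ1
    refine ⟨hi, (Real.log_le_iff_le_exp (lt_of_lt_of_le (Real.exp_pos _) (exp_integral_le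
      ((integrable_freeEnergy hn β).const_mul μ) hi))).2 (hb.trans (Real.exp_le_exp.2 ?_))⟩
    have h : A ≤ C := le_max_left _ _
    have : 0 ≤ (n : ℝ) * μ ^ 6 := by positivity
    nlinarith
  · -- the tail
    rcases hx.eq_or_lt with rfl | hx0
    · simp [measureReal_le_one]
    have hn' : (0 : ℝ) < n := by exact_mod_cast hn
    set y := (x / n) ^ (1 / 5 : ℝ) with hy
    have hy0 : 0 < y := by positivity
    have hy5 : y ^ 5 = x / n := by
      rw [hy, ← Real.rpow_mul_natCast (by positivity)]; norm_num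
    have hxy : x * y = x ^ (6 / 5 : ℝ) / (n : ℝ) ^ (1 / 5 : ℝ) := by
      rw [hy, Real.div_rpow hx hn'.le, show (6 / 5 : ℝ) = 1 + 1 / 5 by norm_num,
        Real.rpow_add hx0, Real.rpow_one]
      ring
    rw [mul_div_assoc, ← hxy]
    suffices h : ∃ μ : ℝ, 0 ≤ μ ∧ ∃ B : ℝ,
        (Integrable (fun g => Real.exp (μ * freeEnergy n β g)) (disorder n) ∧
          ∫ g, Real.exp (μ * freeEnergy n β g) ∂disorder n ≤ Real.exp B) ∧
        -μ * ((n : ℝ) * P + x) + B ≤ -(min (κ / 2) (1 / (4 * β ^ 2)) * (x * y)) by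
      obtain ⟨μ, hμ, B, ⟨hi, hb⟩, hexp⟩ := h
      refine ((measure_ge_le_exp_mul_mgf _ hμ hi).trans ?_).trans (Real.exp_le_exp.2 hexp)
      rw [Real.exp_add]
      exact mul_le_mul_of_nonneg_left hb (Real.exp_pos _).le
    rcases lt_or_ge (x / n) a with hlt | hge
    · have hya : y < a := by
        by_contra hcon
        rw [not_lt] at hcon
        have := (le_self_pow₀ ha1 (by norm_num : (5 : ℕ) ≠ 0)).trans
          (pow_le_pow_left₀ (by linarith) hcon 5)
        linarith
      have hμ1 : κ * y < 1 := by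
        have := mul_lt_mul_of_pos_left hya hκ0
        linarith
      refine ⟨κ * y, by positivity, _, mom n hn (κ * y) (by positivity) hμ1, ?_⟩
      have e : A * (n : ℝ) * (κ * y) ^ 6 = A * κ ^ 5 * (κ * (x * y)) := by
        have : (n : ℝ) * y ^ 5 = x := by rw [hy5]; field_simp
        calc A * (n : ℝ) * (κ * y) ^ 6 = A * κ ^ 5 * (κ * (((n : ℝ) * y ^ 5) * y)) := by ring
          _ = _ := by rw [this]
      rw [e]
      have h0 : 0 ≤ κ * (x * y) := by positivity
      have h1 := mul_le_mul_of_nonneg_right hκ5 h0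
      have h2 := mul_le_mul_of_nonneg_right
        (min_le_left (κ / 2) (1 / (4 * β ^ 2))) (by positivity : 0 ≤ x * y)
      nlinarith
    · have hμ1 : 1 ≤ x / n / β ^ 2 := by rw [le_div_iff₀ (by positivity)]; linarith
      refine ⟨x / n / β ^ 2, by positivity, _, annealed β hn hμ1, ?_⟩
      have hyle : y ≤ x / n := by
        rw [← hy5]
        refine le_self_pow₀ ?_ (by norm_num)
        exact Real.one_le_rpow (ha1.trans hge) (by norm_num)
      have hP2 : (n : ℝ) * (Real.log 2 - P) ≤ x / 2 := by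
        have h1 : a * n ≤ x := (le_div_iff₀ hn').1 hge
        have h2 : (n : ℝ) * (Real.log 2 - P) ≤ n * |Real.log 2 - P| :=
          mul_le_mul_of_nonneg_left (le_abs_self _) hn'.le
        nlinarith
      set μ := x / n / β ^ 2 with hμdef
      have e1 : μ ^ 2 * β ^ 2 * n = μ * x := by rw [hμdef]; field_simp
      have e2 : 1 / (4 * β ^ 2) * (x * (x / n)) = μ * x / 4 := by rw [hμdef]; field_simp
      have h3 : min (κ / 2) (1 / (4 * β ^ 2)) * (x * y) ≤ μ * x / 4 :=
        (mul_le_mul (min_le_right _ _) (mul_le_mul_of_nonneg_left hyle hx)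
          (by positivity) (by positivity)).trans e2.le
      have h4 := mul_le_mul_of_nonneg_left hP2 (by linarith : (0 : ℝ) ≤ μ)
      rw [e1]
      nlinarith
  · refine (plus n hn).trans (mul_le_mul_of_nonneg_right ?_ (by positivity))
    have : 4 * Real.exp (A / 64) ≤ C := le_max_right _ _
    linarith [Real.exp_pos (A / 64)]
  · -- the absolute fluctuations
    set E := ∫ g', freeEnergy n β g' ∂disorder n with hE
    have hFi := integrable_freeEnergy hn β
    have hmax : Integrable (fun g => max (freeEnergy n β g - n * P) 0) (disorder n) :=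
      (hFi.sub (integrable_const _)).pos_part
    have hd : E ≤ n * P := mean_le_pval hG β hn
    have hpt : ∀ g, |freeEnergy n β g - E| ≤
        2 * max (freeEnergy n β g - n * P) 0 + 2 * (n * P - E) - (freeEnergy n β g - E) := fun g => by
      rw [abs_le]
      constructor <;>
        linarith [le_max_left (freeEnergy n β g - n * P) 0,
          le_max_right (freeEnergy n β g - n * P) 0]
    have hi1 : Integrable (fun g => 2 * max (freeEnergy n β g - n * P) 0 + 2 * (n * P - E))
        (disorder n) := (hmax.const_mul 2).add (integrable_const _)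
    have hi2 : Integrable (fun g => freeEnergy n β g - E) (disorder n) :=
      hFi.sub (integrable_const _)
    refine (integral_mono hi2.abs (hi1.sub' hi2) hpt).trans ?_
    rw [integral_sub hi1 hi2, integral_add (hmax.const_mul 2) (integrable_const _),
      integral_const_mul, integral_sub hFi (integrable_const _)]
    simp only [integral_const, probReal_univ, one_smul, ← hE, sub_self, sub_zero]
    have h1 := plus n hn
    have h2 : 4 * Real.exp (A / 64) ≤ C := le_max_right _ _
    have h3 : 0 ≤ (n : ℝ) ^ (1 / 6 : ℝ) := by positivity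
    nlinarith

end Vale.Agent.P146.Tail
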