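import Vale.Agent.P146.Div.Statements
import Vale.Agent.P146.Div.Min.Basic

/-!
Interfaces for the upper tail of the free energy at low temperature.
-/

noncomputable section

open MeasureTheory ProbabilityTheory Filter
open scoped BigOperators Topology

namespace Vale.Agent.P146.Tail

open Vale.Agent.P157.Parisi (Path)
open Vale.Agent.P146.Div (skVal)
open Vale.Agent.P146.Div.Min (val)

/-- A path whose exponents lie in `[μ, 1]`; repetitions are allowed. -/
structure Above {r : ℕ} (μ : ℝ) (m : Fin r → ℝ) (q : Fin (r + 1) → ℝ) : Prop where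
  mono_m : Monotone m
  lower : ∀ i, μ ≤ m i
  upper : ∀ i, m i ≤ 1
  mono_q : Monotone q
  root : q 0 = 0
  le_one : q (Fin.last r) ≤ 1

/-- Module A: Guerra's bound for the exponential moment of order `μ`, at every finite size. -/
def GuerraStmt : Prop :=
  ∀ (β : ℝ) (n : ℕ), 1 ≤ n → ∀ (μ : ℝ), 0 < μ → μ ≤ 1 →
    ∀ (r : ℕ) (m : Fin r → ℝ) (q : Fin (r + 1) → ℝ), Above μ m q →
      Integrable (fun g => Real.exp (μ * freeEnergy n β g)) (disorder n) ∧
        ∫ g, Real.exp (μ * freeEnergy n β g) ∂disorder n ≤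
          Real.exp ((n : ℝ) * μ * val β m q)

/-- Modules B and C: below every path, up to `C μ ^ 5`, there is one with all exponents at least
`μ`. -/
def RaiseStmt : Prop :=
  ∀ β : ℝ, 1 < β → ∃ C : ℝ, 0 ≤ C ∧ ∀ ξ : Path, ξ.q 0 = 0 → ∀ μ : ℝ, 0 < μ → μ < 1 →
    ∃ (r : ℕ) (m : Fin r → ℝ) (q : Fin (r + 1) → ℝ),
      Above μ m q ∧ val β m q ≤ skVal β ξ + C * μ ^ 5

end Vale.Agent.P146.Tail
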