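import Vale.Agent.P146.Div.Simpson
import Vale.Agent.P146.Div.ShapeStep
import Vale.Agent.P146.Tail.Statements

/-!
One step of the recursion seen as a flow started at an arbitrary point: derivatives of the means of
test functions, of the first square and of its derivative, and the entropy identity.
-/

noncomputable section

open MeasureTheory ProbabilityTheory Filter Set
open scoped Topology

namespace Vale.Agent.P146.Tail

open Vale.Agent.P157.Parisi (layer tilt)
open Vale.Agent.P146.Div (Shape1 shapeStep)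
open Vale.Agent.P146.Div.Simpson

/-- The kernel seen from the point `a`. -/
def shiftK (K : ℕ → ℝ → ℝ) (a : ℝ) (j : ℕ) (z : ℝ) : ℝ := K j (z + a)

lemma Nj_shiftK (K : ℕ → ℝ → ℝ) (a : ℝ) (j : ℕ) (t x : ℝ) :
    Nj (shiftK K a) j t x = Nj K j t (x + a) := by
  simp only [Nj, N, shiftK]
  congr 1
  funext g
  ring_nf

lemma rat_shiftK (K : ℕ → ℝ → ℝ) (a : ℝ) (j : ℕ) (t x : ℝ) :
    rat (shiftK K a) j t x = rat K j t (x + a) := by
  simp [rat, Nj_shiftK]

lemma kern_shiftK {K : ℕ → ℝ → ℝ} {B a c : ℝ} (h : Kern K B a c) (d : ℝ) :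
    Kern (shiftK K d) B (a + c * |d|) c := by
  have hb : ∀ x, a + c * |x + d| ≤ a + c * |d| + c * |x| := fun x => by
    have := mul_le_mul_of_nonneg_left (abs_add_le x d) h.nn.2
    linarith
  exact
    { der := fun j hj x => by
        exact (h.der j hj (x + d)).comp_add_const x d
      cont := fun j hj => by
        have := h.cont j hj
        unfold shiftK
        fun_prop
      pos := fun x => h.pos _
      dom := fun j hj x => h.dom j hj _
      up := fun x => (h.up _).trans (Real.exp_le_exp.2 (hb x))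
      down := fun x => le_trans (Real.exp_le_exp.2 (neg_le_neg (hb x))) (h.down _)
      nn := h.nn }

lemma _root_.Vale.Agent.P146.Div.Simpson.ExpBd.const (c : ℝ) : ExpBd fun _ => c :=
  ⟨continuous_const, |c|, 0, abs_nonneg c, le_rfl, fun x => by simp⟩

lemma _root_.Vale.Agent.P146.Div.Simpson.ExpBd.of_bdd {f : ℝ → ℝ} {C : ℝ} (hf : Continuous f) (hb : ∀ x, |f x| ≤ C) : ExpBd f :=
  ⟨hf, C, 0, (abs_nonneg _).trans (hb 0), le_rfl, fun x => by simpa using hb x⟩

lemma _root_.Vale.Agent.P146.Div.Simpson.FlowBd.mul {Φ Ψ : ℝ → ℝ → ℝ} (h : FlowBd Φ) (h' : FlowBd Ψ) :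
    FlowBd fun t x => Φ t x * Ψ t x := by
  obtain ⟨c1, C1, k1, p1, q1, b1⟩ := h
  obtain ⟨c2, C2, k2, p2, q2, b2⟩ := h'
  refine ⟨c1.mul c2, C1 * C2, k1 + k2, mul_nonneg p1 p2, add_nonneg q1 q2, fun t ht x => ?_⟩
  rw [abs_mul, add_mul, Real.exp_add]
  calc |Φ t x| * |Ψ t x| ≤ C1 * Real.exp (k1 * |x|) * (C2 * Real.exp (k2 * |x|)) :=
        mul_le_mul (b1 t ht x) (b2 t ht x) (abs_nonneg _) (by positivity)
    _ = _ := by ring

lemma _root_.Vale.Agent.P146.Div.Simpson.FlowBd.add {Φ Ψ : ℝ → ℝ → ℝ} (h : FlowBd Φ) (h' : FlowBd Ψ) :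
    FlowBd fun t x => Φ t x + Ψ t x := by
  obtain ⟨c1, C1, k1, p1, q1, b1⟩ := h
  obtain ⟨c2, C2, k2, p2, q2, b2⟩ := h'
  refine ⟨c1.add c2, C1 + C2, k1 + k2, add_nonneg p1 p2, add_nonneg q1 q2, fun t ht x => ?_⟩
  refine (abs_add_le _ _).trans ?_
  rw [add_mul C1]
  refine add_le_add ((b1 t ht x).trans ?_) ((b2 t ht x).trans ?_) <;>
    refine mul_le_mul_of_nonneg_left (Real.exp_le_exp.2
      (mul_le_mul_of_nonneg_right ?_ (abs_nonneg x))) ‹_› <;> linarith

lemma _root_.Vale.Agent.P146.Div.Simpson.FlowBd.const (c : ℝ) : FlowBd fun _ _ => c :=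
  ⟨continuous_const, |c|, 0, abs_nonneg c, le_rfl, fun _ _ x => by simp⟩

lemma _root_.Vale.Agent.P146.Div.Simpson.FlowBd.of_expBd {f : ℝ → ℝ} (hf : ExpBd f) (x b : ℝ) :
    FlowBd fun _ z => f (x + b * z) := by
  obtain ⟨hc, C, c, hC, hc0, hb⟩ := hf
  refine ⟨hc.comp (continuous_const.add (continuous_const.mul continuous_snd)),
    C * Real.exp (c * |x|), c * |b|, by positivity, by positivity, fun t _ z => ?_⟩
  refine (hb _).trans ?_
  rw [mul_assoc]
  exact mul_le_mul_of_nonneg_left (exp_affine_le hc0 le_rfl le_rfl z) hC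

/-! ### One step -/

variable {m s : ℝ} {F : ℝ → ℝ}

/-- The function of the step at time `t`. -/
def phiT (m s : ℝ) (F : ℝ → ℝ) (t : ℝ) : ℝ → ℝ := layer m (s * (1 - t)) F

lemma phiT_one (hm : m ≠ 0) : phiT m s F 1 = F := by
  funext x
  simp [phiT, layer, hm]

lemma phiT_zero : phiT m s F 0 = layer m s F := by simp [phiT]

lemma shape_phiT (hm : 0 < m) (hm1 : m ≤ 1) (hs : 0 ≤ s) (hF : Shape1 F) {t : ℝ}
    (ht : t ∈ Icc (0 : ℝ) 1) : Shape1 (phiT m s F t) :=
  shapeStep m _ F hm hm1 (mul_nonneg hs (sub_nonneg.2 ht.2)) hF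

lemma Nj_eq (hm : 0 < m) (hs : 0 ≤ s) (hF : Shape1 F) (t z : ℝ) :
    Nj (kernel m s F) 0 t z = Real.exp (m * phiT m s F t (Real.sqrt s * z)) := by
  obtain ⟨B, a, c, hK⟩ := exists_kern (m := m) (s := s) hF
  rw [phiT, ← log_N0 hm.ne' hs, Real.exp_log (hK.Nj_pos t z)]

variable (hm : 0 < m) (hm1 : m ≤ 1) (hs : 0 < s) (hF : Shape1 F)

include hm hm1 hs hF

lemma rat_one_eq {t : ℝ} (ht : t ∈ Icc (0 : ℝ) 1) (z : ℝ) :
    rat (kernel m s F) 1 t z = m * Real.sqrt s * deriv (phiT m s F t) (Real.sqrt s * z) := by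
  obtain ⟨B, a, c, hK⟩ := exists_kern (m := m) (s := s) hF
  have hf : HasDerivAt (fun z => Real.log (Nj (kernel m s F) 0 t z))
      (rat (kernel m s F) 1 t z) z := by
    simpa [rat] using (hK.hasDerivAt_Nj (j := 0) (by norm_num) t z).log (hK.Nj_pos t z).ne'
  refine hf.unique ?_
  rw [show (fun z => Real.log (Nj (kernel m s F) 0 t z)) =
      fun z => m * phiT m s F t (Real.sqrt s * z) from funext fun x => log_N0 hm.ne' hs.le t x]
  refine ((((shape_phiT hm hm1 hs.le hF ht).smooth.differentiable (by norm_num))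
    (Real.sqrt s * z)).hasDerivAt.comp z
      ((hasDerivAt_id' z).const_mul _) |>.const_mul m).congr_deriv ?_
  ring

lemma qf_eq {t : ℝ} (ht : t ∈ Icc (0 : ℝ) 1) (z : ℝ) :
    qf (kernel m s F) t z = m * s * deriv (deriv (phiT m s F t)) (Real.sqrt s * z) := by
  obtain ⟨B, a, c, hK⟩ := exists_kern (m := m) (s := s) hF
  have hq : HasDerivAt (rat (kernel m s F) 1 t) (qf (kernel m s F) t z) z :=
    (hK.hasDerivAt_rat (j := 1) (by norm_num) t z).congr_deriv (by simp [qf, sq])
  refine hq.unique ?_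
  rw [show rat (kernel m s F) 1 t = fun z => m * Real.sqrt s * deriv (phiT m s F t) (Real.sqrt s * z)
    from funext (rat_one_eq hm hm1 hs hF ht)]
  have hd := (shape_phiT hm hm1 hs.le hF ht).smooth.differentiable_iteratedDeriv 1 (by norm_num)
  rw [iteratedDeriv_one] at hd
  refine (((hd (Real.sqrt s * z)).hasDerivAt.comp z ((hasDerivAt_id' z).const_mul _)).const_mul
    (m * Real.sqrt s)).congr_deriv ?_
  linear_combination m * deriv (deriv (phiT m s F t)) (Real.sqrt s * z) * Real.mul_self_sqrt hs.le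

lemma differentiable_deriv2 {t : ℝ} (ht : t ∈ Icc (0 : ℝ) 1) :
    Differentiable ℝ (deriv (deriv (phiT m s F t))) := by
  have hd := (shape_phiT hm hm1 hs.le hF ht).smooth.differentiable_iteratedDeriv 2 (by norm_num)
  rw [iteratedDeriv_succ, iteratedDeriv_one] at hd
  exact hd

lemma pf_eq {t : ℝ} (ht : t ∈ Icc (0 : ℝ) 1) (z : ℝ) :
    pf (kernel m s F) t z =
      m * s * Real.sqrt s * deriv (deriv (deriv (phiT m s F t))) (Real.sqrt s * z) := by
  obtain ⟨B, a, c, hK⟩ := exists_kern (m := m) (s := s) hF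
  have hp : HasDerivAt (qf (kernel m s F) t) (pf (kernel m s F) t z) z :=
    ((hK.hasDerivAt_rat (j := 2) (by norm_num) t z).sub
      ((hK.hasDerivAt_rat (j := 1) (by norm_num) t z).pow 2)).congr_deriv (by simp [pf]; ring)
  refine hp.unique ?_
  rw [show qf (kernel m s F) t = fun z => m * s * deriv (deriv (phiT m s F t)) (Real.sqrt s * z)
    from funext (qf_eq hm hm1 hs hF ht)]
  refine (((differentiable_deriv2 hm hm1 hs hF ht (Real.sqrt s * z)).hasDerivAt.comp z
    ((hasDerivAt_id' z).const_mul _)).const_mul (m * s)).congr_deriv ?_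
  ring

omit hm hm1 hs hF

/-- The normalised mean at time `t` of `h`, from the point `x`. -/
def ex (m s : ℝ) (F : ℝ → ℝ) (x : ℝ) (h : ℝ → ℝ) (t : ℝ) : ℝ :=
  av (fun t z => Nj (shiftK (kernel m s F) (x / Real.sqrt s)) 0 t z * h (x + Real.sqrt s * z)) t /
    Nj (kernel m s F) 0 0 (x / Real.sqrt s)

lemma sqrt_mul_shift (hs : 0 < s) (x z : ℝ) :
    Real.sqrt s * (z + x / Real.sqrt s) = x + Real.sqrt s * z := by
  have := (Real.sqrt_pos.2 hs).ne'
  field_simp
  ring

include hm hm1 hs hF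

/-- The derivative of the mean of a test function along the flow. -/
lemma hasDerivAt_test {f f' f'' : ℝ → ℝ} (hf : ExpBd f) (hf' : ExpBd f') (hf'' : ExpBd f'')
    (hd : ∀ y, HasDerivAt f (f' y) y) (hd' : ∀ y, HasDerivAt f' (f'' y) y) (x : ℝ) {t : ℝ}
    (ht : t ∈ Ioo (0 : ℝ) 1) :
    HasDerivAt (ex m s F x f)
      (s * ex m s F x (fun y => f'' y / 2 + m * deriv (phiT m s F t) y * f' y) t) t := by
  obtain ⟨B, a, c, hK0⟩ := exists_kern (m := m) (s := s) hF
  set x₀ := x / Real.sqrt s with hx₀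
  set K := shiftK (kernel m s F) x₀ with hKdef
  have hK := kern_shiftK hK0 x₀
  rw [← hKdef] at hK
  set b := Real.sqrt s
  have fN : ∀ (P : ℝ → ℝ → ℝ → ℝ → ℝ),
      Continuous (fun v : ℝ × ℝ × ℝ × ℝ => P v.1 v.2.1 v.2.2.1 v.2.2.2) →
      FlowBd fun t z => Nj K 0 t z * P (rat K 1 t z) (rat K 2 t z) (rat K 3 t z) (rat K 4 t z) :=
    fun P hP => hK.flowBd' P hP
  have b0 : FlowBd fun t z => Nj K 0 t z := by simpa using fN (fun _ _ _ _ => 1) continuous_const
  have b1 := fN (fun r _ _ _ => r) continuous_fst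
  have b2 := fN (fun _ r _ _ => r) continuous_snd.fst
  have g0 := FlowBd.of_expBd hf x b
  have g1 := FlowBd.of_expBd hf' x b
  have g2 := FlowBd.of_expBd hf'' x b
  have hNx : ∀ {j : ℕ}, j < 4 → ∀ t z, HasDerivAt (Nj K j t) (Nj K (j + 1) t z) z :=
    fun hj t z => hK.hasDerivAt_Nj hj t z
  have haff : ∀ z, HasDerivAt (fun z => x + b * z) b z := fun z => by
    simpa using ((hasDerivAt_id z).const_mul b).const_add x
  have key : HasDerivAt (av fun t z => Nj K 0 t z * f (x + b * z))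
      (av (fun t z => b * (Nj K 0 t z * rat K 1 t z * f' (x + b * z)) +
        s / 2 * (Nj K 0 t z * f'' (x + b * z))) t) t := by
    refine hasDerivAt_av
      (X1 := fun t z => Nj K 0 t z * rat K 1 t z * f (x + b * z) +
        b * (Nj K 0 t z * f' (x + b * z)))
      (X2 := fun t z => (Nj K 0 t z * rat K 2 t z * f (x + b * z) +
        2 * b * (Nj K 0 t z * rat K 1 t z * f' (x + b * z))) +
        s * (Nj K 0 t z * f'' (x + b * z))) (b0.mul g0) ?_ ?_ ?_ ?_ ?_ ht
    · exact (b1.mul g0).add ((FlowBd.const b).mul (b0.mul g1))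
    · exact ((b2.mul g0).add ((FlowBd.const (2 * b)).mul (b1.mul g1))).add
        ((FlowBd.const s).mul (b0.mul g2))
    · exact ((FlowBd.const b).mul (b1.mul g1)).add ((FlowBd.const (s / 2)).mul (b0.mul g2))
    · intro u _ z
      have hne := (hK.Nj_pos u z).ne'
      have e1 : (fun z => Nj K 0 u z * rat K 1 u z) = Nj K 1 u := by
        funext w
        rw [rat, mul_div_cancel₀ _ (hK.Nj_pos u w).ne']
      have h1 : HasDerivAt (fun z => Nj K 0 u z * rat K 1 u z) (Nj K 2 u z) z :=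
        e1 ▸ hNx (j := 1) (by norm_num) u z
      refine ((h1.mul ((hd _).comp z (haff z))).add
        (((hNx (j := 0) (by norm_num) u z).mul ((hd' _).comp z (haff z))).const_mul b)).congr_deriv ?_
      simp only [rat, Function.comp_apply]
      field_simp
      linear_combination f'' (x + b * z) * Nj K 0 u z * Real.mul_self_sqrt hs.le
    · intro u hu z
      have hne := (hK.Nj_pos u (Real.sqrt u * z)).ne'
      have hu0 := (Real.sqrt_pos.2 hu.1).ne'
      have hc : HasDerivAt (fun v => x + b * (Real.sqrt v * z)) (b * (1 / (2 * Real.sqrt u) * z)) u :=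
        (((Real.hasDerivAt_sqrt hu.1.ne').mul_const z).const_mul b).const_add x
      refine ((hK.hasDerivAt_path (j := 0) (by norm_num) hu z).mul
        ((hd _).comp u hc)).congr_deriv ?_
      simp only [rat, vel, Function.comp_apply]
      generalize Nj K 0 u (Real.sqrt u * z) = N₀ at hne ⊢
      field_simp
      ring
  refine (key.div_const (Nj (kernel m s F) 0 0 x₀)).congr_deriv ?_
  simp only [ex, av]
  rw [← mul_div_assoc, ← integral_const_mul]
  congr 1
  refine integral_congr_ae (Eventually.of_forall fun z => ?_)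
  beta_reduce
  have e : rat K 1 t (Real.sqrt t * z) =
      m * b * deriv (phiT m s F t) (x + b * (Real.sqrt t * z)) := by
    rw [hKdef, rat_shiftK, rat_one_eq hm hm1 hs hF (Ioo_subset_Icc_self ht), sqrt_mul_shift hs]
  rw [e]
  linear_combination (Nj K 0 t (Real.sqrt t * z) * m *
    deriv (phiT m s F t) (x + b * (Real.sqrt t * z)) * f' (x + b * (Real.sqrt t * z))) *
      Real.mul_self_sqrt hs.le

omit hm hm1 hs in
lemma continuousOn_test {f : ℝ → ℝ} (hf : ExpBd f) (x : ℝ) :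
    ContinuousOn (ex m s F x f) (Icc 0 1) := by
  obtain ⟨B, a, c, hK0⟩ := exists_kern (m := m) (s := s) hF
  have hK := kern_shiftK hK0 (x / Real.sqrt s)
  have b0 : FlowBd fun t z => Nj (shiftK (kernel m s F) (x / Real.sqrt s)) 0 t z := by
    simpa using hK.flowBd' (fun _ _ _ _ => 1) continuous_const
  exact ((b0.mul (FlowBd.of_expBd hf x (Real.sqrt s))).continuousOn_av).div_const _

omit hm hm1 hs in
lemma ex_zero (x : ℝ) (f : ℝ → ℝ) : ex m s F x f 0 = f x := by
  obtain ⟨B, a, c, hK0⟩ := exists_kern (m := m) (s := s) hF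
  have := (hK0.Nj_pos 0 (x / Real.sqrt s)).ne'
  simp only [ex, av, Real.sqrt_zero, zero_mul, integral_const, probReal_univ, one_smul, Nj_shiftK,
    zero_add, mul_zero, add_zero]
  field_simp

/-- The normalisation is constant along the flow. -/
lemma ex_const (x c : ℝ) {t : ℝ} (ht : t ∈ Icc (0 : ℝ) 1) :
    ex m s F x (fun _ => c) t = c := by
  have h0 := ExpBd.const (0 : ℝ)
  have hd : ∀ u ∈ Ioo (0 : ℝ) 1, HasDerivAt (ex m s F x fun _ => c) 0 u := fun u hu => by
    refine (hasDerivAt_test hm hm1 hs hF (ExpBd.const c) h0 h0 (fun y => hasDerivAt_const y c)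
      (fun y => hasDerivAt_const y 0) x hu).congr_deriv ?_
    simp [ex, av]
  have hc := continuousOn_test (m := m) (s := s) hF (ExpBd.const c) x
  have := constant_of_has_deriv_right_zero (a := 0) (b := t)
    (f := ex m s F x fun _ => c) (hc.mono (Icc_subset_Icc_right ht.2)) (fun u hu => by
      rcases eq_or_lt_of_le hu.1 with rfl | h
      · refine hasDerivWithinAt_Ici_of_tendsto_deriv (s := Ioo (0 : ℝ) 1)
          (fun v hv => (hd v hv).differentiableAt.differentiableWithinAt)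
          ((hc 0 (left_mem_Icc.2 zero_le_one)).mono Ioo_subset_Icc_self)
          (Ioo_mem_nhdsGT zero_lt_one) ?_
        refine Tendsto.congr' ?_ tendsto_const_nhds
        filter_upwards [Ioo_mem_nhdsGT zero_lt_one] with v hv using (hd v hv).deriv.symm
      · exact (hd u ⟨h, hu.2.trans_le ht.2⟩).hasDerivWithinAt) t (right_mem_Icc.2 ht.1)
  rw [this, ex_zero hF]

/-- Along the flow the mean is a tilt. -/
lemma ex_eq_tilt (x : ℝ) (h : ℝ → ℝ) {t : ℝ} (ht : t ∈ Icc (0 : ℝ) 1) :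
    ex m s F x h t = tilt m (s * t) (phiT m s F t) h x := by
  obtain ⟨B, a, c, hK0⟩ := exists_kern (m := m) (s := s) hF
  set Z := Nj (kernel m s F) 0 0 (x / Real.sqrt s)
  have hZ : 0 < Z := hK0.Nj_pos _ _
  have num : ∀ h : ℝ → ℝ,
      av (fun t z => Nj (shiftK (kernel m s F) (x / Real.sqrt s)) 0 t z *
        h (x + Real.sqrt s * z)) t =
      ∫ g, Real.exp (m * phiT m s F t (x + Real.sqrt (s * t) * g)) *
        h (x + Real.sqrt (s * t) * g) ∂gaussianReal 0 1 := fun h => by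
    refine integral_congr_ae (Eventually.of_forall fun z => ?_)
    beta_reduce
    rw [Nj_shiftK, Nj_eq hm hs.le hF, sqrt_mul_shift hs, Real.sqrt_mul hs.le, mul_assoc]
  have h1 := ex_const hm hm1 hs hF x 1 ht
  rw [ex, div_eq_one_iff_eq hZ.ne', num (fun _ => 1)] at h1
  simp only [mul_one] at h1
  rw [ex, num, tilt, h1]

lemma ex_one (x : ℝ) (h : ℝ → ℝ) : ex m s F x h 1 = tilt m s F h x := by
  rw [ex_eq_tilt hm hm1 hs hF x h (right_mem_Icc.2 zero_le_one), phiT_one hm.ne', mul_one]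

/-! ### The first square, its derivatives, and the entropy -/

/-- The mean first square. -/
def g0 (m s : ℝ) (F : ℝ → ℝ) (x : ℝ) (t : ℝ) : ℝ :=
  ex m s F x (fun y => deriv (phiT m s F t) y ^ 2) t

/-- Its derivative. -/
def g1 (m s : ℝ) (F : ℝ → ℝ) (x : ℝ) (t : ℝ) : ℝ :=
  s * ex m s F x (fun y => deriv (deriv (phiT m s F t)) y ^ 2) t

/-- Its second derivative. -/
def g2 (m s : ℝ) (F : ℝ → ℝ) (x : ℝ) (t : ℝ) : ℝ :=
  s ^ 2 * (ex m s F x (fun y => deriv (deriv (deriv (phiT m s F t))) y ^ 2) t -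
    2 * m * ex m s F x (fun y => deriv (deriv (phiT m s F t)) y ^ 3) t)

lemma av_phi_eq (x : ℝ) {t : ℝ} (ht : t ∈ Icc (0 : ℝ) 1) :
    av (phi1 (shiftK (kernel m s F) (x / Real.sqrt s))) t /
        Nj (kernel m s F) 0 0 (x / Real.sqrt s) = m ^ 2 * s * g0 m s F x t ∧
    av (phi2 (shiftK (kernel m s F) (x / Real.sqrt s))) t /
        Nj (kernel m s F) 0 0 (x / Real.sqrt s) = m ^ 2 * s * g1 m s F x t := by
  have e1 : ∀ z, rat (shiftK (kernel m s F) (x / Real.sqrt s)) 1 t z =
      m * Real.sqrt s * deriv (phiT m s F t) (x + Real.sqrt s * z) := fun z => by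
    rw [rat_shiftK, rat_one_eq hm hm1 hs hF ht, sqrt_mul_shift hs]
  have e2 : ∀ z, qf (shiftK (kernel m s F) (x / Real.sqrt s)) t z =
      m * s * deriv (deriv (phiT m s F t)) (x + Real.sqrt s * z) := fun z => by
    rw [← sqrt_mul_shift hs, ← qf_eq hm hm1 hs hF ht]
    simp [qf, rat_shiftK]
  constructor
  · simp only [g0, ex, av, phi1, e1]
    rw [← mul_div_assoc, ← integral_const_mul]
    congr 1
    refine integral_congr_ae (Eventually.of_forall fun z => ?_)
    beta_reduce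
    rw [mul_pow, mul_pow, Real.sq_sqrt hs.le]
    ring
  · simp only [g1, ex, av, phi2, e2]
    rw [← mul_div_assoc, ← mul_div_assoc, ← integral_const_mul, ← integral_const_mul]
    congr 1
    exact integral_congr_ae (Eventually.of_forall fun z => by ring)

lemma av_phi3_eq (x : ℝ) {t : ℝ} (ht : t ∈ Icc (0 : ℝ) 1) :
    av (phi3 (shiftK (kernel m s F) (x / Real.sqrt s))) t /
        Nj (kernel m s F) 0 0 (x / Real.sqrt s) = m ^ 2 * s * g2 m s F x t := by
  obtain ⟨B, a, c, hK0⟩ := exists_kern (m := m) (s := s) hF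
  set K := shiftK (kernel m s F) (x / Real.sqrt s) with hKd
  have hK := kern_shiftK hK0 (x / Real.sqrt s)
  have e2 : ∀ z, qf K t z =
      m * s * deriv (deriv (phiT m s F t)) (x + Real.sqrt s * z) := fun z => by
    rw [← sqrt_mul_shift hs, ← qf_eq hm hm1 hs hF ht]
    simp [qf, hKd, rat_shiftK]
  have e3 : ∀ z, pf K t z =
      m * s * Real.sqrt s * deriv (deriv (deriv (phiT m s F t))) (x + Real.sqrt s * z) := fun z => by
    rw [← sqrt_mul_shift hs, ← pf_eq hm hm1 hs hF ht]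
    simp [pf, hKd, rat_shiftK]
  have i1 := (hK.flowBd' (fun r s u _ => (u - 3 * r * s + 2 * r ^ 3) ^ 2) (by fun_prop)).integrable ht
  have i2 := (hK.flowBd' (fun r s _ _ => (s - r ^ 2) ^ 3) (by fun_prop)).integrable ht
  set Z := Nj (kernel m s F) 0 0 (x / Real.sqrt s)
  simp only [g2, ex, av, phi3]
  rw [show (∫ z, Nj K 0 t (Real.sqrt t * z) * (pf K t (Real.sqrt t * z) ^ 2 -
      2 * qf K t (Real.sqrt t * z) ^ 3) ∂gaussianReal 0 1) =
    (∫ z, Nj K 0 t (Real.sqrt t * z) * pf K t (Real.sqrt t * z) ^ 2 ∂gaussianReal 0 1) -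
      2 * ∫ z, Nj K 0 t (Real.sqrt t * z) * qf K t (Real.sqrt t * z) ^ 3 ∂gaussianReal 0 1 by
    rw [← integral_const_mul, ← integral_sub (by simpa [pf] using i1)
      ((by simpa [qf] using i2 : Integrable _ _).const_mul 2)]
    exact integral_congr_ae (Eventually.of_forall fun z => by ring)]
  simp only [e2, e3]
  have f3 : ∀ z, Nj K 0 t (Real.sqrt t * z) * (m * s * Real.sqrt s *
      deriv (deriv (deriv (phiT m s F t))) (x + Real.sqrt s * (Real.sqrt t * z))) ^ 2 =
      m ^ 2 * s ^ 3 * (Nj K 0 t (Real.sqrt t * z) *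
        deriv (deriv (deriv (phiT m s F t))) (x + Real.sqrt s * (Real.sqrt t * z)) ^ 2) := fun z => by
    linear_combination (m ^ 2 * s ^ 2 * Nj K 0 t (Real.sqrt t * z) *
      deriv (deriv (deriv (phiT m s F t))) (x + Real.sqrt s * (Real.sqrt t * z)) ^ 2) *
        Real.sq_sqrt hs.le
  have f2 : ∀ z, Nj K 0 t (Real.sqrt t * z) * (m * s *
      deriv (deriv (phiT m s F t)) (x + Real.sqrt s * (Real.sqrt t * z))) ^ 3 =
      m ^ 3 * s ^ 3 * (Nj K 0 t (Real.sqrt t * z) *
        deriv (deriv (phiT m s F t)) (x + Real.sqrt s * (Real.sqrt t * z)) ^ 3) := fun z => by ring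
  simp only [f2, f3, integral_const_mul]
  ring

lemma hasDerivAt_g0 (x : ℝ) {t : ℝ} (ht : t ∈ Ioo (0 : ℝ) 1) :
    HasDerivAt (g0 m s F x) (g1 m s F x t) t := by
  obtain ⟨B, a, c, hK0⟩ := exists_kern (m := m) (s := s) hF
  have hne : m ^ 2 * s ≠ 0 := by positivity
  have h := (((kern_shiftK hK0 (x / Real.sqrt s)).hasDerivAt_av1 ht).div_const
    (Nj (kernel m s F) 0 0 (x / Real.sqrt s))).div_const (m ^ 2 * s)
  refine (h.congr_of_eventuallyEq ?_).congr_deriv ?_
  · filter_upwards [Ioo_mem_nhds ht.1 ht.2] with u hu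
    rw [(av_phi_eq hm hm1 hs hF x (Ioo_subset_Icc_self hu)).1, mul_div_cancel_left₀ _ hne]
  · rw [(av_phi_eq hm hm1 hs hF x (Ioo_subset_Icc_self ht)).2, mul_div_cancel_left₀ _ hne]

lemma hasDerivAt_g1 (x : ℝ) {t : ℝ} (ht : t ∈ Ioo (0 : ℝ) 1) :
    HasDerivAt (g1 m s F x) (g2 m s F x t) t := by
  obtain ⟨B, a, c, hK0⟩ := exists_kern (m := m) (s := s) hF
  have hne : m ^ 2 * s ≠ 0 := by positivity
  have h := (((kern_shiftK hK0 (x / Real.sqrt s)).hasDerivAt_av2 ht).div_const
    (Nj (kernel m s F) 0 0 (x / Real.sqrt s))).div_const (m ^ 2 * s)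
  refine (h.congr_of_eventuallyEq ?_).congr_deriv ?_
  · filter_upwards [Ioo_mem_nhds ht.1 ht.2] with u hu
    rw [(av_phi_eq hm hm1 hs hF x (Ioo_subset_Icc_self hu)).2, mul_div_cancel_left₀ _ hne]
  · rw [av_phi3_eq hm hm1 hs hF x (Ioo_subset_Icc_self ht), mul_div_cancel_left₀ _ hne]

lemma continuousOn_g (x : ℝ) :
    ContinuousOn (g0 m s F x) (Icc 0 1) ∧ ContinuousOn (g1 m s F x) (Icc 0 1) ∧
      ContinuousOn (g2 m s F x) (Icc 0 1) := by
  obtain ⟨B, a, c, hK0⟩ := exists_kern (m := m) (s := s) hF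
  have hK := kern_shiftK hK0 (x / Real.sqrt s)
  have hne : m ^ 2 * s ≠ 0 := by positivity
  refine ⟨?_, ?_, ?_⟩
  · refine ((((hK.flowBd' (fun r _ _ _ => r ^ 2) (by fun_prop)).continuousOn_av).div_const
      (Nj (kernel m s F) 0 0 (x / Real.sqrt s))).div_const (m ^ 2 * s)).congr fun u hu => ?_
    show g0 m s F x u = av (phi1 _) u / _ / _
    rw [(av_phi_eq hm hm1 hs hF x hu).1, mul_div_cancel_left₀ _ hne]
  · refine ((((hK.flowBd' (fun r s _ _ => (s - r ^ 2) ^ 2) (by fun_prop)).continuousOn_av).div_const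
      (Nj (kernel m s F) 0 0 (x / Real.sqrt s))).div_const (m ^ 2 * s)).congr fun u hu => ?_
    show g1 m s F x u = av (phi2 _) u / _ / _
    rw [(av_phi_eq hm hm1 hs hF x hu).2, mul_div_cancel_left₀ _ hne]
  · refine ((((hK.flowBd' (fun r s u _ => (u - 3 * r * s + 2 * r ^ 3) ^ 2 - 2 * (s - r ^ 2) ^ 3)
      (by fun_prop)).continuousOn_av).div_const
      (Nj (kernel m s F) 0 0 (x / Real.sqrt s))).div_const (m ^ 2 * s)).congr fun u hu => ?_
    show g2 m s F x u = av (phi3 _) u / _ / _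
    rw [av_phi3_eq hm hm1 hs hF x hu, mul_div_cancel_left₀ _ hne]

/-- The entropy of a step is the integral of the first square. -/
lemma entropy_eq (x : ℝ) :
    tilt m s F F x - layer m s F x = m * s / 2 * ∫ t in (0:ℝ)..1, g0 m s F x t := by
  obtain ⟨B, a, c, hK0⟩ := exists_kern (m := m) (s := s) hF
  set x₀ := x / Real.sqrt s with hx₀
  set K := shiftK (kernel m s F) x₀ with hKd
  have hK := kern_shiftK hK0 x₀
  rw [← hKd] at hK
  set Z := Nj (kernel m s F) 0 0 x₀
  have hZ : 0 < Z := hK0.Nj_pos _ _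
  have f0 : FlowBd (phi0 K) := by
    convert hK.flowBd (fun _ _ _ _ => 1) continuous_const 0 1 using 2
    funext y
    simp [phi0]
  have f1 : FlowBd (phi1 K) := hK.flowBd' (fun r _ _ _ => r ^ 2) (by fun_prop)
  have hft : ∫ t in (0:ℝ)..1, av (phi1 K) t / 2 = av (phi0 K) 1 - av (phi0 K) 0 := by
    refine intervalIntegral.integral_eq_sub_of_hasDerivAt_of_le zero_le_one f0.continuousOn_av
      (fun t ht => (hK.hasDerivAt_av0 ht).congr_deriv ?_)
      ((f1.continuousOn_av.div_const 2).intervalIntegrable_of_Icc zero_le_one)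
    simp only [av]
    exact integral_div 2 _
  have hint : ∫ t in (0:ℝ)..1, av (phi1 K) t / 2 =
      m ^ 2 * s / 2 * Z * ∫ t in (0:ℝ)..1, g0 m s F x t := by
    rw [← intervalIntegral.integral_const_mul]
    refine intervalIntegral.integral_congr fun t ht => ?_
    rw [uIcc_of_le zero_le_one] at ht
    have := (av_phi_eq hm hm1 hs hF x ht).1
    rw [div_eq_iff hZ.ne'] at this
    linear_combination this / 2
  have h0 : av (phi0 K) 0 = Z * (m * layer m s F x) := by
    simp only [av, phi0, Real.sqrt_zero, zero_mul, integral_const, probReal_univ, one_smul, hKd,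
      Nj_shiftK, zero_add]
    rw [log_N0 hm.ne' hs.le, sub_zero, mul_one, hx₀, mul_div_cancel₀ _ (Real.sqrt_pos.2 hs).ne']
  have h1 : av (phi0 K) 1 = Z * (m * tilt m s F F x) := by
    have e := ex_one hm hm1 hs hF x F
    rw [ex, div_eq_iff hZ.ne'] at e
    rw [mul_left_comm, mul_comm Z, ← e]
    simp only [av, ← integral_const_mul]
    refine integral_congr_ae (Eventually.of_forall fun z => ?_)
    simp only [phi0]
    rw [hKd, Nj_shiftK, log_N0 hm.ne' hs.le, sub_self, mul_zero, sqrt_mul_shift hs]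
    simp only [layer, Real.sqrt_zero, zero_mul, add_zero, integral_const, probReal_univ, one_smul,
      Real.log_exp]
    field_simp
  rw [hint, h0, h1] at hft
  have key := mul_left_cancel₀ (mul_pos hm hZ).ne'
    (show m * Z * (m * s / 2 * ∫ t in (0:ℝ)..1, g0 m s F x t) =
        m * Z * (tilt m s F F x - layer m s F x) by linear_combination hft)
  exact key.symm

end Vale.Agent.P146.Tail
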