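import Vale.Agent.P146.Tail.Levels

/-!
One step to second order: its entropy, the first square and the square of the curvature.
-/

noncomputable section

open MeasureTheory ProbabilityTheory Filter Set
open scoped Topology

namespace Vale.Agent.P146.Tail

open Vale.Agent.P157.Parisi (layer tilt)
open Vale.Agent.P146.Div.Simpson (ExpBd)

/-- The derivative of a step in its exponent. -/
def gain (m s : ℝ) (F : ℝ → ℝ) (x : ℝ) : ℝ := (tilt m s F F x - layer m s F x) / m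

/-- The third derivative along the step lies between multiples of `ψ²` and `tanh²`. -/
def D3 (k L m s : ℝ) (F : ℝ → ℝ) : Prop :=
  ∀ t ∈ Icc (0 : ℝ) 1, ∀ y,
    k ^ 2 * psiT y ^ 2 ≤ deriv (deriv (deriv (phiT m s F t))) y ^ 2 ∧
      deriv (deriv (deriv (phiT m s F t))) y ^ 2 ≤ L ^ 2 * Real.tanh y ^ 2

variable {m s κ K k L : ℝ} {F : ℝ → ℝ}

variable (hm : 0 < m) (hm1 : m ≤ 1) (hs : 0 < s) (h : Shape3 κ K F)

include hm hm1 hs h

lemma gain_eq (x : ℝ) : gain m s F x = s / 2 * ∫ t in (0:ℝ)..1, g0 m s F x t := by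
  rw [gain, entropy_eq hm hm1 hs h.shape]
  field_simp

lemma cb_d1sq {t : ℝ} (ht : t ∈ Icc (0 : ℝ) 1) :
    Cb fun z => deriv (phiT m s F t) z ^ 2 :=
  Cb.mk ((continuous_phi hm hm1 hs h ht).1.pow 2) (C := 1) fun z => by
    rw [abs_pow]
    exact pow_le_one₀ (abs_nonneg _) ((good_phiT hm h.good t).b1.bound z)

lemma cb_d2pow (j : ℕ) {t : ℝ} (ht : t ∈ Icc (0 : ℝ) 1) :
    Cb fun z => deriv (deriv (phiT m s F t)) z ^ j :=
  Cb.mk ((continuous_phi hm hm1 hs h ht).2.pow j) (C := 1) fun z => by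
    obtain ⟨a, b⟩ := phi_d2 hm hm1 hs h ht z
    rw [abs_of_nonneg (pow_nonneg a j)]
    exact pow_le_one₀ a b

lemma g0_bounds (x : ℝ) {t : ℝ} (ht : t ∈ Icc (0 : ℝ) 1) :
    0 ≤ g0 m s F x t ∧ g0 m s F x t ≤ 1 := by
  rw [g0, ← ex_const hm hm1 hs h.shape x 0 ht]
  refine ⟨ex_le hm hm1 hs h.shape h.good (ExpBd.const 0) (cb_d1sq hm hm1 hs h ht).expBd
    (fun z => sq_nonneg _) x ht, ?_⟩
  rw [← ex_const hm hm1 hs h.shape x 1 ht]
  refine ex_le hm hm1 hs h.shape h.good (cb_d1sq hm hm1 hs h ht).expBd (ExpBd.const 1)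
    (fun z => ?_) x ht
  rw [← sq_abs]
  exact pow_le_one₀ (abs_nonneg _) ((good_phiT hm h.good t).b1.bound z)

lemma g1_bounds (x : ℝ) {t : ℝ} (ht : t ∈ Icc (0 : ℝ) 1) :
    0 ≤ g1 m s F x t ∧ g1 m s F x t ≤ s := by
  have h0 := ex_le hm hm1 hs h.shape h.good (ExpBd.const 0) (cb_d2pow hm hm1 hs h 2 ht).expBd
    (fun z => sq_nonneg _) x ht
  have h1 := ex_le hm hm1 hs h.shape h.good (cb_d2pow hm hm1 hs h 2 ht).expBd (ExpBd.const 1)
    (fun z => by
      obtain ⟨a, b⟩ := phi_d2 hm hm1 hs h ht z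
      exact pow_le_one₀ a b) x ht
  rw [ex_const hm hm1 hs h.shape x _ ht] at h0 h1
  rw [g1]
  exact ⟨mul_nonneg hs.le h0, mul_le_of_le_one_right hs.le h1⟩

lemma gain_bounds (x : ℝ) : 0 ≤ gain m s F x ∧ gain m s F x ≤ s / 2 := by
  have hi := (continuousOn_g hm hm1 hs h.shape x).1.intervalIntegrable_of_Icc zero_le_one
    (μ := volume)
  have h0 : 0 ≤ ∫ t in (0:ℝ)..1, g0 m s F x t :=
    intervalIntegral.integral_nonneg zero_le_one fun t ht => (g0_bounds hm hm1 hs h x ht).1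
  have h1 : ∫ t in (0:ℝ)..1, g0 m s F x t ≤ ∫ _ in (0:ℝ)..1, (1:ℝ) :=
    intervalIntegral.integral_mono_on zero_le_one hi intervalIntegrable_const
      fun t ht => (g0_bounds hm hm1 hs h x ht).2
  rw [intervalIntegral.integral_const, sub_zero, one_smul] at h1
  rw [gain_eq hm hm1 hs h]
  exact ⟨by positivity, mul_le_of_le_one_right (by positivity) h1⟩

lemma g_ends (x : ℝ) :
    g0 m s F x 0 = deriv (layer m s F) x ^ 2 ∧
      g0 m s F x 1 = tilt m s F (fun z => deriv F z ^ 2) x ∧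
      g1 m s F x 0 = s * deriv (deriv (layer m s F)) x ^ 2 ∧
      g1 m s F x 1 = s * tilt m s F (fun z => deriv (deriv F) z ^ 2) x := by
  simp only [g0, g1, ex_zero h.shape, ex_one hm hm1 hs h.shape, phiT_one hm.ne', phiT_zero,
    and_self]

/-- The curvature after a step against the tilt of the old one. -/
lemma jump_d2 (x : ℝ) :
    |deriv (deriv (layer m s F)) x - tilt m s F (deriv (deriv F)) x| ≤ m * s := by
  obtain ⟨c0, c1, -⟩ := continuousOn_g hm hm1 hs h.shape x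
  obtain ⟨e0, e1, -, -⟩ := g_ends hm hm1 hs h x
  obtain ⟨c, hc, hce⟩ := exists_hasDerivAt_eq_slope (g0 m s F x) (g1 m s F x) zero_lt_one c0
    fun t ht => hasDerivAt_g0 hm hm1 hs h.shape x ht
  obtain ⟨a, b⟩ := g1_bounds hm hm1 hs h x (Ioo_subset_Icc_self hc)
  rw [e0, e1, sub_zero, div_one] at hce
  rw [layer_d2 hm h, add_sub_cancel_left, ← hce, abs_of_nonneg (mul_nonneg hm.le a)]
  exact mul_le_mul_of_nonneg_left b hm.le

variable (hd3 : D3 k L m s F)

include hd3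

lemma cb_d3sq {t : ℝ} (ht : t ∈ Icc (0 : ℝ) 1) :
    Cb fun z => deriv (deriv (deriv (phiT m s F t))) z ^ 2 := by
  have hsm := (shape_phiT hm hm1 hs.le h.shape ht).smooth.continuous_iteratedDeriv 3 (by norm_num)
  rw [iteratedDeriv_succ, iteratedDeriv_succ, iteratedDeriv_one] at hsm
  refine Cb.mk (hsm.pow 2) (C := L ^ 2) fun z => ?_
  rw [abs_of_nonneg (sq_nonneg _)]
  exact (hd3 t ht z).2.trans (mul_le_of_le_one_right (sq_nonneg L)
    (Vale.Agent.P157.Parisi.Full.sq_tanh_le_one z))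

lemma g2_ge (x : ℝ) {t : ℝ} (ht : t ∈ Icc (0 : ℝ) 1) :
    s ^ 2 * (k ^ 2 * (Real.exp (-(13 * s)) * (psiT x ^ 2 + s / 2 * Real.exp (-(6 * s)) * eT x * t))
      - 2 * m) ≤ g2 m s F x t := by
  have h3 := ex_le hm hm1 hs h.shape h.good (cb_psiSq.comb (Cb.const 0) (k ^ 2) 0).expBd
    (cb_d3sq hm hm1 hs h hd3 ht).expBd (fun z => by linarith [(hd3 t ht z).1]) x ht
  rw [ex_comb hm hm1 hs h.shape h.good cb_psiSq.expBd (ExpBd.const 0) _ 0 x ht] at h3
  have h2 := ex_le hm hm1 hs h.shape h.good (cb_d2pow hm hm1 hs h 3 ht).expBd (ExpBd.const 1)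
    (fun z => by
      obtain ⟨a, b⟩ := phi_d2 hm hm1 hs h ht z
      exact pow_le_one₀ a b) x ht
  rw [ex_const hm hm1 hs h.shape x _ ht] at h2
  rw [g2]
  refine mul_le_mul_of_nonneg_left ?_ (sq_nonneg s)
  have h4 := mul_le_mul_of_nonneg_left (psiSq_flow hm hm1 hs h x ht) (sq_nonneg k)
  have h5 := mul_le_mul_of_nonneg_left h2 (mul_nonneg zero_le_two hm.le)
  linarith

lemma g2_abs (x : ℝ) {t : ℝ} (ht : t ∈ Icc (0 : ℝ) 1) :
    |g2 m s F x t| ≤ s ^ 2 * (L ^ 2 * (Real.tanh x ^ 2 + 3 * s) + 2 * m) := by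
  have hu := ex_le hm hm1 hs h.shape h.good (cb_d3sq hm hm1 hs h hd3 ht).expBd
    (cb_tanhSq.comb (Cb.const 0) (L ^ 2) 0).expBd (fun z => by linarith [(hd3 t ht z).2]) x ht
  rw [ex_comb hm hm1 hs h.shape h.good cb_tanhSq.expBd (ExpBd.const 0) _ 0 x ht] at hu
  have h0 := ex_le hm hm1 hs h.shape h.good (ExpBd.const 0) (cb_d3sq hm hm1 hs h hd3 ht).expBd
    (fun z => sq_nonneg _) x ht
  have c0 := ex_le hm hm1 hs h.shape h.good (ExpBd.const 0) (cb_d2pow hm hm1 hs h 3 ht).expBd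
    (fun z => pow_nonneg (phi_d2 hm hm1 hs h ht z).1 3) x ht
  have c1 := ex_le hm hm1 hs h.shape h.good (cb_d2pow hm hm1 hs h 3 ht).expBd (ExpBd.const 1)
    (fun z => by
      obtain ⟨a, b⟩ := phi_d2 hm hm1 hs h ht z
      exact pow_le_one₀ a b) x ht
  rw [ex_const hm hm1 hs h.shape x _ ht] at h0 c0 c1
  have ht' := mul_le_mul_of_nonneg_left
    ((tanhSq_flow hm hm1 hs h x ht).trans
      (add_le_add_right (mul_le_of_le_one_right (by positivity) ht.2) _)) (sq_nonneg L)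
  rw [g2, abs_mul, abs_of_nonneg (sq_nonneg s)]
  refine mul_le_mul_of_nonneg_left (abs_le.2 ⟨?_, ?_⟩) (sq_nonneg s)
  · nlinarith [mul_le_mul_of_nonneg_left c1 hm.le, sq_nonneg (Real.tanh x), sq_nonneg L,
      mul_nonneg (sq_nonneg L) (add_nonneg (sq_nonneg (Real.tanh x)) (by positivity : 0 ≤ 3 * s))]
  · nlinarith [mul_nonneg hm.le c0]

/-- The square of the curvature moves by `O (s (tanh² + s + m))`. -/
lemma jump_H (x : ℝ) :
    |tilt m s F (fun z => deriv (deriv F) z ^ 2) x - deriv (deriv (layer m s F)) x ^ 2| ≤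
      s * (L ^ 2 * (Real.tanh x ^ 2 + 3 * s) + 2 * m) := by
  obtain ⟨-, c1, -⟩ := continuousOn_g hm hm1 hs h.shape x
  obtain ⟨-, -, e0, e1⟩ := g_ends hm hm1 hs h x
  obtain ⟨c, hc, hce⟩ := exists_hasDerivAt_eq_slope (g1 m s F x) (g2 m s F x) zero_lt_one c1
    fun t ht => hasDerivAt_g1 hm hm1 hs h.shape x ht
  have hb := g2_abs hm hm1 hs h hd3 x (Ioo_subset_Icc_self hc)
  rw [e0, e1, sub_zero, div_one, ← mul_sub] at hce
  rw [hce, abs_mul, abs_of_pos hs, show s ^ 2 = s * s from sq s, mul_assoc] at hb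
  exact le_of_mul_le_mul_left hb hs

/-- The first square moves by `s` times the curvature squared, up to `O (s² (tanh² + s + m))`. -/
lemma jump_G (x : ℝ) :
    |tilt m s F (fun z => deriv F z ^ 2) x - deriv (layer m s F) x ^ 2 -
        s * deriv (deriv (layer m s F)) x ^ 2| ≤
      s ^ 2 * (L ^ 2 * (Real.tanh x ^ 2 + 3 * s) + 2 * m) := by
  obtain ⟨c0, c1, -⟩ := continuousOn_g hm hm1 hs h.shape x
  obtain ⟨a0, a1, b0, -⟩ := g_ends hm hm1 hs h x
  obtain ⟨c, hc, hce⟩ := exists_hasDerivAt_eq_slope (g0 m s F x) (g1 m s F x) zero_lt_one c0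
    fun t ht => hasDerivAt_g0 hm hm1 hs h.shape x ht
  obtain ⟨d, hd, hde⟩ := exists_hasDerivAt_eq_slope (g1 m s F x) (g2 m s F x) hc.1
    (c1.mono (Icc_subset_Icc_right hc.2.le))
    fun t ht => hasDerivAt_g1 hm hm1 hs h.shape x ⟨ht.1, ht.2.trans hc.2⟩
  have hb := g2_abs hm hm1 hs h hd3 x
    (t := d) ⟨hd.1.le, (hd.2.trans hc.2).le⟩
  rw [a0, a1, sub_zero, div_one] at hce
  rw [sub_zero, eq_div_iff hc.1.ne'] at hde
  rw [← hce, ← b0, ← hde, abs_mul, abs_of_pos hc.1]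
  exact (mul_le_of_le_one_right (abs_nonneg _) hc.2.le).trans hb

/-- The entropy of a step against the trapezium rule. -/
lemma gain_le (x : ℝ) :
    gain m s F x ≤ s / 4 * (deriv (layer m s F) x ^ 2 + tilt m s F (fun z => deriv F z ^ 2) x) +
      m * s ^ 3 / 12 -
      s ^ 3 * k ^ 2 * Real.exp (-(13 * s)) / 24 *
        (psiT x ^ 2 + s / 4 * Real.exp (-(6 * s)) * eT x) := by
  obtain ⟨c0, c1, c2⟩ := continuousOn_g hm hm1 hs h.shape x
  obtain ⟨a0, a1, -, -⟩ := g_ends hm hm1 hs h x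
  set A := k ^ 2 * Real.exp (-(13 * s)) * psiT x ^ 2 - 2 * m
  set B := k ^ 2 * Real.exp (-(13 * s)) * (s / 2 * Real.exp (-(6 * s)) * eT x)
  set P : ℝ → ℝ := fun t =>
    (t - 1 / 2) * g0 m s F x t - (t ^ 2 - t) / 2 * g1 m s F x t
  have hP : ∀ t ∈ Ioo (0 : ℝ) 1, HasDerivAt P (g0 m s F x t + (t - t ^ 2) / 2 * g2 m s F x t) t :=
    fun t ht => by
      refine ((((hasDerivAt_id' t).sub_const (1 / 2)).mul (hasDerivAt_g0 hm hm1 hs h.shape x ht)).sub
        ((((hasDerivAt_pow 2 t).sub (hasDerivAt_id' t)).div_const 2).mul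
          (hasDerivAt_g1 hm hm1 hs h.shape x ht))).congr_deriv ?_
      simp
      ring
  have i0 : IntervalIntegrable (g0 m s F x) volume 0 1 := c0.intervalIntegrable_of_Icc zero_le_one
  have i2 : IntervalIntegrable (fun t => (t - t ^ 2) / 2 * g2 m s F x t) volume 0 1 :=
    ((by fun_prop : Continuous fun t : ℝ => (t - t ^ 2) / 2).continuousOn.mul
      c2).intervalIntegrable_of_Icc zero_le_one
  have hint := intervalIntegral.integral_eq_sub_of_hasDerivAt_of_le zero_le_one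
    (((by fun_prop : Continuous fun t : ℝ => t - 1 / 2).continuousOn.mul c0).sub
      ((by fun_prop : Continuous fun t : ℝ => (t ^ 2 - t) / 2).continuousOn.mul c1)) hP (i0.add i2)
  rw [intervalIntegral.integral_add i0 i2] at hint
  have hlow : ∫ t in (0:ℝ)..1, s ^ 2 * ((t - t ^ 2) / 2 * (A + B * t)) ≤
      ∫ t in (0:ℝ)..1, (t - t ^ 2) / 2 * g2 m s F x t := by
    refine intervalIntegral.integral_mono_on zero_le_one
      ((by fun_prop : Continuous _).intervalIntegrable 0 1) i2 fun t ht => ?_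
    have hw : 0 ≤ (t - t ^ 2) / 2 := by nlinarith [ht.1, ht.2]
    refine le_trans (le_of_eq ?_) (mul_le_mul_of_nonneg_left (g2_ge hm hm1 hs h hd3 x ht) hw)
    simp only [A, B]
    ring
  have hval : ∫ t in (0:ℝ)..1, s ^ 2 * ((t - t ^ 2) / 2 * (A + B * t)) =
      s ^ 2 * (A / 12 + B / 24) := by
    rw [intervalIntegral.integral_eq_sub_of_hasDerivAt
      (f := fun t => s ^ 2 * (A * (t ^ 2 / 4 - t ^ 3 / 6) + B * (t ^ 3 / 6 - t ^ 4 / 8)))
      (fun t _ => (((((hasDerivAt_pow 2 t).div_const 4).sub ((hasDerivAt_pow 3 t).div_const 6)).const_mul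
        A).add ((((hasDerivAt_pow 3 t).div_const 6).sub ((hasDerivAt_pow 4 t).div_const 8)).const_mul
        B) |>.const_mul (s ^ 2)).congr_deriv (by simp only [Nat.cast_ofNat, Nat.reduceSub, pow_one]; ring))
      ((by fun_prop : Continuous _).intervalIntegrable 0 1)]
    ring
  rw [hval] at hlow
  simp only [Pi.mul_apply, Pi.sub_apply] at hint
  rw [gain_eq hm hm1 hs h, ← a0, ← a1]
  have := mul_le_mul_of_nonneg_left hlow (show 0 ≤ s / 2 by positivity)
  simp only [A, B] at this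
  linear_combination this + (s / 2) * hint

end Vale.Agent.P146.Tail
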