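import Vale.Agent.P146.Tail.Guerra.Ends
import Vale.Agent.P146.Tail.Statements

/-!
Guerra's bound for exponential moments of the free energy at every finite size.
-/

noncomputable section

open MeasureTheory ProbabilityTheory Filter Topology Set
open scoped BigOperators ENNReal

namespace Vale.Agent.P146.Tail

open Guerra
open Vale.Agent.P157.Parisi.Full.Deriv (J)
open Vale.Agent.P146.Div.Min (val jump)

/-- Guerra's bound with the disorder at the exponent `μ`. -/
theorem guerra : GuerraStmt := by
  intro β n hn μ hμ hμ1 r m q h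
  obtain ⟨hm, hlow, hm1, hq, h0, -⟩ := h
  have hn0 : n ≠ 0 := by omega
  obtain ⟨L, P, Q, D, w, hV, -, hb⟩ := st_ch β hn0 hμ hμ1 hm hlow hm1 hq h0
  set K := slopeBound β n μ m q with hK
  have hD : ∀ t ∈ J, D t 0 ≤ K := fun t ht => by simpa using hb t ht 0
  have hanti : AntitoneOn (fun t => ch β n μ m q t 0 - K * t) (Icc (0 : ℝ) 1) := by
    refine antitoneOn_of_hasDerivWithinAt_nonpos (f' := fun t => D t 0 - K) (convex_Icc 0 1) ?_ ?_ ?_
    · exact ((hV.c0.comp (continuous_id.prodMk continuous_const)).sub
        (continuous_const.mul continuous_id)).continuousOn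
    · intro t ht
      rw [interior_Icc] at ht
      exact (((hV.dt t ht 0).sub ((hasDerivAt_id t).const_mul K)).congr_deriv
        (by ring)).hasDerivWithinAt
    · intro t ht
      rw [interior_Icc] at ht
      linarith [hD t ht]
  have h1 : ch β n μ m q 1 0 - K * 1 ≤ ch β n μ m q 0 0 - K * 0 :=
    hanti ⟨le_rfl, zero_le_one⟩ ⟨zero_le_one, le_rfl⟩ zero_le_one
  rw [ch_zero hμ m q fun i => hμ.trans_le (hlow i)] at h1
  have hn' : (0 : ℝ) ≤ n := n.cast_nonneg
  have h2 : ch β n μ m q 1 0 ≤ (n : ℝ) * val β m q := by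
    have e : (n : ℝ) * val β m q = (n : ℝ) * (Real.log 2 +
        Vale.Agent.P157.Parisi.level m (fun p => β ^ 2 * q p) Vale.Agent.P157.Parisi.Full.logCosh 0 0)
          + K + β ^ 2 / 4 * μ := by
      simp only [hK, slopeBound, val, jump, h0]
      ring
    rw [e]
    have : 0 ≤ β ^ 2 / 4 * μ := by positivity
    linarith
  have hl := lintegral_eq (β := β) hn0 hμ hμ1 hm hlow hm1 hq
  have hmeas : AEStronglyMeasurable (fun g => Real.exp (μ * freeEnergy n β g)) (disorder n) := by
    have : Continuous fun g : Pair n → ℝ => Real.exp (μ * freeEnergy n β g) := by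
      unfold freeEnergy hamiltonian
      refine (continuous_const.mul (Continuous.log (by fun_prop) fun g => ?_)).rexp
      exact (Finset.sum_pos (fun _ _ => Real.exp_pos _) Finset.univ_nonempty).ne'
    exact this.aestronglyMeasurable
  have hint : Integrable (fun g => Real.exp (μ * freeEnergy n β g)) (disorder n) := by
    refine ⟨hmeas, ?_⟩
    rw [hasFiniteIntegral_iff_ofReal (Eventually.of_forall fun g => (Real.exp_pos _).le), hl]
    exact ENNReal.ofReal_lt_top
  refine ⟨hint, ?_⟩
  rw [integral_eq_lintegral_of_nonneg_ae (Eventually.of_forall fun g => (Real.exp_pos _).le) hmeas,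
    hl, ENNReal.toReal_ofReal (Real.exp_pos _).le]
  refine Real.exp_le_exp.2 ?_
  rw [mul_comm (n : ℝ), mul_assoc]
  exact mul_le_mul_of_nonneg_left h2 hμ.le

end Vale.Agent.P146.Tail
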