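import Vale.Agent.P146.Tail.Shape3
import Vale.Agent.P157.Parisi.ModA.Slope

/-!
The levels of a path: uniform constants of the shape, means from the root, and the growth of the
means of the test functions.
-/

noncomputable section

open MeasureTheory ProbabilityTheory Filter Set
open scoped Topology

namespace Vale.Agent.P146.Tail

open Vale.Agent.P157.Parisi (layer tilt level down level_cons_zero level_cons_succ down_cons_zero
  down_cons_succ down_succ down_zero level_castSucc)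
open Vale.Agent.P157.Parisi.Up (Lip1)
open Vale.Agent.P157.Parisi.Full (logCosh sq_tanh_le_one hasDerivAt_tanh')
open Vale.Agent.P157.Parisi.Full.Concave renaming Good → CGood
open Vale.Agent.P157.Parisi.Full.Concave (den den_pos exp_lip_le integrable_den good_level
  continuous_tanh)
open Vale.Agent.P146.Div (Shape1)
open Vale.Agent.P146.Div.Simpson (ExpBd)

/-- A bounded continuous function. -/
def Cb (h : ℝ → ℝ) : Prop := Continuous h ∧ ∃ C, ∀ x, |h x| ≤ C

lemma Cb.expBd {h : ℝ → ℝ} (hh : Cb h) : ExpBd h := by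
  obtain ⟨hc, C, hC⟩ := hh
  exact ExpBd.of_bdd hc hC

lemma Cb.const (c : ℝ) : Cb fun _ => c := ⟨continuous_const, |c|, fun _ => le_rfl⟩

lemma Cb.mk {h : ℝ → ℝ} (hc : Continuous h) {C : ℝ} (hb : ∀ x, |h x| ≤ C) : Cb h := ⟨hc, C, hb⟩

lemma Cb.comb {h k : ℝ → ℝ} (hh : Cb h) (hk : Cb k) (a b : ℝ) :
    Cb fun y => a * h y + b * k y := by
  obtain ⟨hc, C, hC⟩ := hh
  obtain ⟨kc, D, hD⟩ := hk
  refine Cb.mk ((continuous_const.mul hc).add (continuous_const.mul kc))
    (C := |a| * C + |b| * D) fun x => (abs_add_le _ _).trans ?_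
  rw [abs_mul, abs_mul]
  exact add_le_add (mul_le_mul_of_nonneg_left (hC x) (abs_nonneg a))
    (mul_le_mul_of_nonneg_left (hD x) (abs_nonneg b))

variable {m δ : ℝ} {F : ℝ → ℝ}

lemma tilt_abs_le (hm : 0 ≤ m) (hF : Lip1 F) {h : ℝ → ℝ} (hh : Cb h) {C : ℝ}
    (hC : ∀ y, |h y| ≤ C) (x : ℝ) : |tilt m δ F h x| ≤ C := by
  rw [abs_le]
  constructor
  · rw [← tilt_const (δ := δ) hm hF (-C) x]
    exact tilt_le hm hF (ExpBd.const _) hh.expBd (fun y => (abs_le.1 (hC y)).1) x
  · rw [← tilt_const (δ := δ) hm hF C x]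
    exact tilt_le hm hF hh.expBd (ExpBd.const _) (fun y => (abs_le.1 (hC y)).2) x

lemma Cb.tilt (hm : 0 ≤ m) (hF : Lip1 F) {h : ℝ → ℝ} (hh : Cb h) :
    Cb (tilt m δ F h) := by
  obtain ⟨hc, C, hC⟩ := hh
  have hFc := hF.continuous
  have hnum : ∀ k : ℝ → ℝ, Continuous k → ∀ D, (∀ y, |k y| ≤ D) → Continuous fun x =>
      ∫ g, Real.exp (m * F (x + Real.sqrt δ * g)) * k (x + Real.sqrt δ * g) ∂gaussianReal 0 1 := by
    intro k kc D hD
    refine continuous_iff_continuousAt.2 fun x₀ => continuousAt_of_dominated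
      (bound := fun g => Real.exp (m * |F 0|) * Real.exp (m * (|x₀| + 1)) * D *
        Real.exp (m * Real.sqrt δ * |g|)) ?_ ?_
      ((Vale.Agent.P157.Parisi.Site.integrable_exp_abs _).const_mul _) (ae_of_all _ fun g => ?_)
    · exact Eventually.of_forall fun x => (by fun_prop : Continuous _).aestronglyMeasurable
    · filter_upwards [Metric.ball_mem_nhds x₀ one_pos] with x hx
      refine ae_of_all _ fun g => ?_
      rw [Metric.mem_ball, Real.dist_eq] at hx
      rw [Real.norm_eq_abs, abs_mul, Real.abs_exp]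
      have hy : |x + Real.sqrt δ * g| ≤ |x₀| + 1 + Real.sqrt δ * |g| := by
        refine (abs_add_le _ _).trans ?_
        rw [abs_mul, abs_of_nonneg (Real.sqrt_nonneg δ)]
        linarith [abs_sub_abs_le_abs_sub x x₀]
      calc Real.exp (m * F (x + Real.sqrt δ * g)) * |k (x + Real.sqrt δ * g)|
          ≤ Real.exp (m * |F 0|) * Real.exp (m * |x + Real.sqrt δ * g|) * D :=
            mul_le_mul (exp_lip_le hm hF _) (hD _) (abs_nonneg _) (by positivity)
        _ ≤ Real.exp (m * |F 0|) * Real.exp (m * (|x₀| + 1) + m * Real.sqrt δ * |g|) * D := by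
            refine mul_le_mul_of_nonneg_right (mul_le_mul_of_nonneg_left (Real.exp_le_exp.2 ?_)
              (Real.exp_pos _).le) ((abs_nonneg _).trans (hD 0))
            linarith [mul_le_mul_of_nonneg_left hy hm]
        _ = _ := by rw [Real.exp_add]; ring
    · fun_prop
  refine ⟨?_, C, fun x => tilt_abs_le hm hF ⟨hc, C, hC⟩ hC x⟩
  have h1 := hnum (fun _ => 1) continuous_const 1 fun _ => by simp
  simp only [mul_one] at h1
  exact (hnum h hc C hC).div h1 fun x => (den_pos hm hF x).ne'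

/-! ### Means from the root -/

variable {r : ℕ} {m : Fin r → ℝ} {ρ : Fin (r + 1) → ℝ}

lemma lip_level (hm : ∀ i, 0 < m i) (ρ : Fin (r + 1) → ℝ) (p : Fin (r + 1)) :
    Lip1 (level m ρ logCosh p) := (good_level hm ρ p).lip

lemma Cb.down : ∀ {r : ℕ} {m : Fin r → ℝ} {ρ : Fin (r + 1) → ℝ}, (∀ i, 0 < m i) →
    ∀ (p : Fin (r + 1)) {h : ℝ → ℝ}, Cb h → Cb (down m ρ logCosh p h) := by
  intro r
  induction r with
  | zero => exact fun _ _ _ hh => hh
  | succ r ih =>
    intro m ρ hm p h hh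
    cases p using Fin.cases with
    | zero => exact hh
    | succ p =>
      exact Cb.tilt (hm 0).le (lip_level (fun i => hm i.succ) _ 0) (ih (fun i => hm i.succ) p hh)

lemma down_le : ∀ {r : ℕ} {m : Fin r → ℝ} {ρ : Fin (r + 1) → ℝ}, (∀ i, 0 < m i) →
    ∀ (p : Fin (r + 1)) {h k : ℝ → ℝ}, Cb h → Cb k → (∀ y, h y ≤ k y) →
      ∀ x, down m ρ logCosh p h x ≤ down m ρ logCosh p k x := by
  intro r
  induction r with
  | zero => exact fun _ _ _ _ _ _ hle => hle
  | succ r ih =>
    intro m ρ hm p h k hh hk hle x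
    cases p using Fin.cases with
    | zero => exact hle x
    | succ p =>
      exact tilt_le (hm 0).le (lip_level (fun i => hm i.succ) _ 0)
        (Cb.down (fun i => hm i.succ) p hh).expBd (Cb.down (fun i => hm i.succ) p hk).expBd
        (ih (fun i => hm i.succ) p hh hk hle) x

lemma down_comb : ∀ {r : ℕ} {m : Fin r → ℝ} {ρ : Fin (r + 1) → ℝ}, (∀ i, 0 < m i) →
    ∀ (p : Fin (r + 1)) {h k : ℝ → ℝ}, Cb h → Cb k → ∀ a b x,
      down m ρ logCosh p (fun y => a * h y + b * k y) x =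
        a * down m ρ logCosh p h x + b * down m ρ logCosh p k x := by
  intro r
  induction r with
  | zero => intros; rfl
  | succ r ih =>
    intro m ρ hm p h k hh hk a b x
    cases p using Fin.cases with
    | zero => rfl
    | succ p =>
      rw [down_cons_succ, funext fun y => ih (m := Fin.tail m) (ρ := Fin.tail ρ) (fun i => hm i.succ) p hh hk a b y,
        tilt_comb (hm 0).le (lip_level (m := Fin.tail m) (fun i => hm i.succ) (Fin.tail ρ) 0)
          (Cb.down (m := Fin.tail m) (ρ := Fin.tail ρ) (fun i => hm i.succ) p hh).expBd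
          (Cb.down (m := Fin.tail m) (ρ := Fin.tail ρ) (fun i => hm i.succ) p hk).expBd]
      rfl

lemma down_const : ∀ {r : ℕ} {m : Fin r → ℝ} {ρ : Fin (r + 1) → ℝ}, (∀ i, 0 < m i) →
    ∀ (p : Fin (r + 1)) (c x : ℝ), down m ρ logCosh p (fun _ => c) x = c := by
  intro r
  induction r with
  | zero => intros; rfl
  | succ r ih =>
    intro m ρ hm p c x
    cases p using Fin.cases with
    | zero => rfl
    | succ p =>
      rw [down_cons_succ, funext fun y => ih (m := Fin.tail m) (ρ := Fin.tail ρ) (fun i => hm i.succ) p c y]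
      exact tilt_const (hm 0).le (lip_level (fun i => hm i.succ) _ 0) c x

lemma down_abs_le (hm : ∀ i, 0 < m i) (p : Fin (r + 1)) {h k : ℝ → ℝ} (hh : Cb h) (hk : Cb k)
    (hle : ∀ y, |h y| ≤ k y) (x : ℝ) :
    |down m ρ logCosh p h x| ≤ down m ρ logCosh p k x := by
  refine abs_le.2 ⟨?_, down_le hm p hh hk (fun y => (le_abs_self _).trans (hle y)) x⟩
  have h1 := down_le (ρ := ρ) hm p (hk.comb (Cb.const 0) (-1) 0) hh
    (fun y => by linarith [neg_abs_le (h y), hle y]) x
  rw [down_comb hm p hk (Cb.const 0)] at h1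
  linarith

/-! ### One step on test functions -/

/-- `e'`. -/
def eT' (x : ℝ) : ℝ := -4 * Real.tanh x * (1 - Real.tanh x ^ 2) ^ 2

/-- `e''`. -/
def eT'' (x : ℝ) : ℝ :=
  -4 * (1 - Real.tanh x ^ 2) ^ 3 + 16 * Real.tanh x ^ 2 * (1 - Real.tanh x ^ 2) ^ 2

lemma hasDerivAt_eT (x : ℝ) : HasDerivAt eT (eT' x) x := by
  refine ((((hasDerivAt_tanh' x).fun_pow 2).const_sub 1).fun_pow 2).congr_deriv ?_
  simp [eT']; ring

lemma hasDerivAt_eT' (x : ℝ) : HasDerivAt eT' (eT'' x) x := by
  refine (((hasDerivAt_tanh' x).const_mul (-4)).mul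
    ((((hasDerivAt_tanh' x).fun_pow 2).const_sub 1).fun_pow 2)).congr_deriv ?_
  simp [eT'']; ring

lemma eT_bounds (x : ℝ) :
    0 ≤ eT x ∧ eT x ≤ 1 ∧ |eT' x| ≤ 4 * eT x ∧ -(4 * eT x) ≤ eT'' x ∧ |eT'' x| ≤ 20 := by
  obtain ⟨s0, s1⟩ := sech_bounds x
  have h2 : (1 - Real.tanh x ^ 2) ^ 2 ≤ 1 := pow_le_one₀ s0 s1
  refine ⟨sq_nonneg _, h2, ?_, ?_, ?_⟩
  · simp only [eT, eT', abs_mul, abs_neg, abs_pow, abs_of_nonneg s0,
      abs_of_nonneg (zero_le_four (α := ℝ))]
    exact mul_le_mul_of_nonneg_right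
      (mul_le_of_le_one_right (by norm_num) (abs_tanh_le_one x)) (sq_nonneg _)
  · rw [eT, eT'']
    nlinarith [mul_le_mul_of_nonneg_left s1 (sq_nonneg (1 - Real.tanh x ^ 2)),
      mul_nonneg (sq_nonneg (Real.tanh x)) (sq_nonneg (1 - Real.tanh x ^ 2))]
  · rw [eT'', abs_le]
    constructor <;> nlinarith [pow_le_one₀ (n := 3) s0 s1, pow_nonneg s0 3,
      mul_le_one₀ (sq_tanh_le_one x) (sq_nonneg (1 - Real.tanh x ^ 2)) h2,
      mul_nonneg (sq_nonneg (Real.tanh x)) (sq_nonneg (1 - Real.tanh x ^ 2))]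

lemma cb_eT : Cb eT := Cb.mk (Differentiable.continuous fun x => (hasDerivAt_eT x).differentiableAt)
  fun x => by rw [abs_of_nonneg (eT_bounds x).1]; exact (eT_bounds x).2.1

lemma cb_psiSq : Cb fun x => psiT x ^ 2 :=
  Cb.mk ((Differentiable.continuous fun x => (hasDerivAt_psiT x).differentiableAt).pow 2)
    (C := 1) fun x => by rw [abs_pow]; exact pow_le_one₀ (abs_nonneg _) (abs_psiT_le x)

lemma cb_tanhSq : Cb fun x => Real.tanh x ^ 2 :=
  Cb.mk (continuous_tanh.pow 2) (C := 1) fun x => by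
    rw [abs_of_nonneg (sq_nonneg _)]; exact sq_tanh_le_one x

variable {m s κ K : ℝ} {F : ℝ → ℝ} {r' : ℕ} {m' : Fin r' → ℝ} {ρ' : Fin (r' + 1) → ℝ}

lemma abs_phi_drift (hm : 0 < m) (hm1 : m ≤ 1) (hG : CGood F) (t z a : ℝ) :
    |m * deriv (phiT m s F t) z * a| ≤ |a| := by
  rw [abs_mul, abs_mul, abs_of_pos hm]
  exact mul_le_of_le_one_left (abs_nonneg a)
    (mul_le_one₀ hm1 (abs_nonneg _) ((good_phiT hm hG t).b1.bound z))

variable (hm : 0 < m) (hm1 : m ≤ 1) (hs : 0 < s) (h : Shape3 κ K F)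

include hm hm1 hs h

lemma expBd_drift {f' f'' : ℝ → ℝ} {A B : ℝ} (hc' : Continuous f') (hc'' : Continuous f'')
    (hA : ∀ z, |f' z| ≤ A) (hB : ∀ z, |f'' z| ≤ B) {t : ℝ} (ht : t ∈ Icc (0 : ℝ) 1) :
    Cb fun z => f'' z / 2 + m * deriv (phiT m s F t) z * f' z :=
  Cb.mk ((hc''.div_const 2).add
    ((continuous_const.mul (continuous_phi hm hm1 hs h ht).1).mul hc')) (C := B / 2 + A) fun z => by
      refine (abs_add_le _ _).trans (add_le_add ?_ ((abs_phi_drift hm hm1 h.good t z _).trans (hA z)))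
      rw [abs_div, abs_two]
      exact div_le_div_of_nonneg_right (hB z) zero_le_two

lemma eT_flow (x : ℝ) {t : ℝ} (ht : t ∈ Icc (0 : ℝ) 1) :
    Real.exp (-(6 * s)) * eT x ≤ ex m s F x eT t := by
  have ce' : Continuous eT' := Differentiable.continuous fun x => (hasDerivAt_eT' x).differentiableAt
  have ce'' : Continuous eT'' := by
    have := continuous_tanh
    unfold eT''
    fun_prop
  have ha' : ∀ z, |eT' z| ≤ 4 := fun z => (eT_bounds z).2.2.1.trans (by linarith [(eT_bounds z).2.1])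
  have key := gronwall_lower (A := 6 * s) (a := 0) (by positivity) le_rfl
    (continuousOn_test h.shape cb_eT.expBd x)
    (fun u hu => hasDerivAt_test hm hm1 hs h.shape cb_eT.expBd (ExpBd.of_bdd ce' ha')
      (ExpBd.of_bdd ce'' fun z => (eT_bounds z).2.2.2.2) hasDerivAt_eT hasDerivAt_eT' x hu)
    (fun u hu => ?_) ht
  · rw [ex_zero h.shape, zero_mul, add_zero] at key
    refine le_trans (mul_le_mul_of_nonneg_right (Real.exp_le_exp.2 ?_) (eT_bounds x).1) key
    exact neg_le_neg (mul_le_of_le_one_right (by positivity) ht.2)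
  have hI := Ioo_subset_Icc_self hu
  have bg := expBd_drift hm hm1 hs h ce' ce'' ha' (fun z => (eT_bounds z).2.2.2.2) hI
  have hle := ex_le hm hm1 hs h.shape h.good (cb_eT.comb (Cb.const 0) (-6) 0).expBd bg.expBd
    (fun z => by
      obtain ⟨-, -, e1, e2, -⟩ := eT_bounds z
      linarith [neg_abs_le (m * deriv (phiT m s F u) z * eT' z),
        abs_phi_drift (s := s) hm hm1 h.good u z (eT' z)]) x hI
  rw [ex_comb hm hm1 hs h.shape h.good cb_eT.expBd (ExpBd.const 0) (-6) 0 x hI] at hle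
  have := mul_le_mul_of_nonneg_left hle hs.le
  linarith

/-- One step on the test functions `ψ²` and `e`. -/
lemma psiSq_flow (x : ℝ) {t : ℝ} (ht : t ∈ Icc (0 : ℝ) 1) :
    Real.exp (-(13 * s)) * (psiT x ^ 2 + s / 2 * Real.exp (-(6 * s)) * eT x * t) ≤
      ex m s F x (fun z => psiT z ^ 2) t := by
  set f' : ℝ → ℝ := fun z => 2 * psiT z * psiT' z with hf'
  set f'' : ℝ → ℝ := fun z => 2 * (psiT' z ^ 2 + psiT z * psiT'' z) with hf''
  have hd : ∀ z, HasDerivAt (fun z => psiT z ^ 2) (f' z) z := fun z =>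
    ((hasDerivAt_psiT z).fun_pow 2).congr_deriv (by simp [hf'])
  have hd' : ∀ z, HasDerivAt f' (f'' z) z := fun z =>
    (((hasDerivAt_psiT z).const_mul 2).mul (hasDerivAt_psiT' z)).congr_deriv (by simp [hf'']; ring)
  have c0 : Continuous psiT := Differentiable.continuous fun z => (hasDerivAt_psiT z).differentiableAt
  have c1 : Continuous psiT' := Differentiable.continuous fun z => (hasDerivAt_psiT' z).differentiableAt
  have c2 : Continuous psiT'' := by
    have := continuous_tanh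
    unfold psiT''
    fun_prop
  have hA : ∀ z, |f' z| ≤ 4 := fun z => by
    rw [hf', abs_mul, abs_mul, abs_two]
    nlinarith [abs_psiT_le z, abs_psiT'_le z, abs_nonneg (psiT' z), abs_nonneg (psiT z)]
  have hB : ∀ z, |f'' z| ≤ 24 := fun z => by
    rw [hf'', abs_mul, abs_two]
    refine le_trans (mul_le_mul_of_nonneg_left (abs_add_le _ _) zero_le_two) ?_
    rw [abs_pow, abs_mul]
    nlinarith [abs_psiT_le z, abs_psiT'_le z, abs_psiT''_le z, abs_nonneg (psiT' z),
      abs_nonneg (psiT'' z), abs_nonneg (psiT z)]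
  have key := gronwall_lower (A := 13 * s) (a := s / 2 * Real.exp (-(6 * s)) * eT x)
    (by positivity) (by have := (eT_bounds x).1; positivity)
    (continuousOn_test h.shape cb_psiSq.expBd x)
    (fun u hu => hasDerivAt_test hm hm1 hs h.shape cb_psiSq.expBd
      (ExpBd.of_bdd ((continuous_const.mul c0).mul c1) hA)
      (ExpBd.of_bdd (continuous_const.mul ((c1.pow 2).add (c0.mul c2))) hB) hd hd' x hu)
    (fun u hu => ?_) ht
  · rw [ex_zero h.shape] at key
    refine le_trans (mul_le_mul_of_nonneg_right (Real.exp_le_exp.2 ?_) ?_) key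
    · exact neg_le_neg (mul_le_of_le_one_right (by positivity) ht.2)
    · have := (eT_bounds x).1
      have := ht.1
      positivity
  have hI := Ioo_subset_Icc_self hu
  have bg := expBd_drift hm hm1 hs h ((continuous_const.mul c0).mul c1)
    (continuous_const.mul ((c1.pow 2).add (c0.mul c2))) hA hB hI
  have hle := ex_le hm hm1 hs h.shape h.good (cb_eT.comb cb_psiSq (1 / 2) (-13)).expBd bg.expBd
    (fun z => by
      have a1 : -(8 * psiT z ^ 2) ≤ psiT z * psiT'' z := by
        rw [psiT'', ← mul_assoc, ← sq]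
        nlinarith [mul_nonneg (sq_nonneg (psiT z)) (sq_nonneg (Real.tanh z))]
      have a2 : 1 / 2 * eT z - 3 * psiT z ^ 2 ≤ psiT' z ^ 2 / 2 := by
        rw [eT, psiT, psiT']
        nlinarith [mul_nonneg (sq_nonneg (1 - Real.tanh z ^ 2))
          (mul_nonneg (sq_nonneg (Real.tanh z)) (sq_nonneg (Real.tanh z)))]
      have a3 : |m * deriv (phiT m s F u) z * f' z| ≤ psiT' z ^ 2 / 2 + 2 * psiT z ^ 2 := by
        refine (abs_phi_drift hm hm1 h.good u z _).trans ?_
        rw [hf', abs_mul, abs_mul, abs_two, ← sq_abs (psiT' z), ← sq_abs (psiT z)]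
        nlinarith [sq_nonneg (|psiT' z| - 2 * |psiT z|)]
      simp only [Pi.mul_apply, Pi.add_apply, Pi.pow_apply, hf'] at a3 ⊢
      linarith [neg_abs_le (m * deriv (phiT m s F u) z * (2 * psiT z * psiT' z))]) x hI
  rw [ex_comb hm hm1 hs h.shape h.good cb_eT.expBd cb_psiSq.expBd (1 / 2) (-13) x hI] at hle
  have h1 := mul_le_mul_of_nonneg_left hle hs.le
  have h2 := mul_le_mul_of_nonneg_left (eT_flow hm hm1 hs h x hI) hs.le
  linarith

lemma tanhSq_flow (x : ℝ) {t : ℝ} (ht : t ∈ Icc (0 : ℝ) 1) :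
    ex m s F x (fun z => Real.tanh z ^ 2) t ≤ Real.tanh x ^ 2 + 3 * s * t := by
  set f' : ℝ → ℝ := fun z => 2 * psiT z with hf'
  set f'' : ℝ → ℝ := fun z => 2 * psiT' z with hf''
  have hd : ∀ z, HasDerivAt (fun z => Real.tanh z ^ 2) (f' z) z := fun z =>
    ((hasDerivAt_tanh' z).fun_pow 2).congr_deriv (by simp [hf', psiT]; ring)
  have hd' : ∀ z, HasDerivAt f' (f'' z) z := fun z => (hasDerivAt_psiT z).const_mul 2
  have c0 : Continuous psiT := Differentiable.continuous fun z => (hasDerivAt_psiT z).differentiableAt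
  have c1 : Continuous psiT' := Differentiable.continuous fun z => (hasDerivAt_psiT' z).differentiableAt
  have hA : ∀ z, |f' z| ≤ 2 := fun z => by
    rw [hf', abs_mul, abs_two]; linarith [abs_psiT_le z]
  have hB : ∀ z, |f'' z| ≤ 2 := fun z => by
    rw [hf'', abs_mul, abs_two, psiT', abs_mul, abs_of_nonneg (sech_bounds z).1]
    obtain ⟨s0, s1⟩ := sech_bounds z
    have : (1 - Real.tanh z ^ 2) * |1 - 3 * Real.tanh z ^ 2| ≤ 1 := by
      rcases abs_cases (1 - 3 * Real.tanh z ^ 2) with ⟨e, -⟩ | ⟨e, -⟩ <;> rw [e] <;>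
        nlinarith [sq_nonneg (Real.tanh z), sq_nonneg (3 * Real.tanh z ^ 2 - 2)]
    linarith
  have key := gronwall_upper (A := 0) (a := 3 * s) le_rfl (by positivity)
    (continuousOn_test h.shape cb_tanhSq.expBd x)
    (fun u hu => hasDerivAt_test hm hm1 hs h.shape cb_tanhSq.expBd
      (ExpBd.of_bdd (continuous_const.mul c0) hA) (ExpBd.of_bdd (continuous_const.mul c1) hB)
      hd hd' x hu) (fun u hu => ?_) ht
  · simpa [ex_zero h.shape] using key
  have hI := Ioo_subset_Icc_self hu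
  have hle := ex_le hm hm1 hs h.shape h.good
    (expBd_drift hm hm1 hs h (continuous_const.mul c0) (continuous_const.mul c1) hA hB hI).expBd
    (ExpBd.const 3) (fun z => by
      have b := hB z
      have a := (abs_phi_drift (s := s) hm hm1 h.good u z (f' z)).trans (hA z)
      simp only [Pi.mul_apply, hf', hf''] at a b ⊢
      linarith [le_abs_self (2 * psiT' z), le_abs_self (m * deriv (phiT m s F u) z * (2 * psiT z))]) x hI
  rw [ex_const hm hm1 hs h.shape x 3 hI] at hle
  have := mul_le_mul_of_nonneg_left hle hs.le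
  linarith

omit hm hm1 hs h

/-! ### Uniform constants -/

/-- The rate of growth of the upper constant of the shape. -/
def rate (B : ℝ) : ℝ := 3 + 16 * Real.exp (3 * B)

/-- The lower constant of the shape on paths of length `B`. -/
def kap (B : ℝ) : ℝ := 2 * Real.exp (-(14 * B))

/-- The upper constant of the shape on paths of length `B`. -/
def Kap (B : ℝ) : ℝ := 3 * Real.exp (2 * rate B * B)

lemma level_shape3 {B : ℝ} : ∀ {r : ℕ} {m : Fin r → ℝ} {ρ : Fin (r + 1) → ℝ}, (∀ i, 0 < m i) →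
    (∀ i, m i ≤ 1) → Monotone ρ → ρ (Fin.last r) - ρ 0 ≤ B → ∀ p,
      ∃ κ K, Shape3 κ K (level m ρ logCosh p) ∧
        2 * Real.exp (-(7 * (ρ (Fin.last r) - ρ p))) ≤ κ ∧
        K + 1 ≤ 3 * Real.exp (rate B * (ρ (Fin.last r) - ρ p)) := by
  intro r
  induction r with
  | zero =>
    intro m ρ _ _ _ _ p
    refine ⟨2, 2, shape3_logCosh, ?_, ?_⟩ <;>
      (rw [show p = Fin.last 0 from Subsingleton.elim (α := Fin 1) _ _, sub_self]; norm_num)
  | succ r ih =>
    intro m ρ hm hm1 hρ hB p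
    have hl : Fin.tail ρ (Fin.last r) = ρ (Fin.last (r + 1)) := by rw [Fin.tail, Fin.succ_last]
    have h01 : ρ 0 ≤ ρ 1 := hρ (Fin.zero_le _)
    have h1l : ρ 1 ≤ ρ (Fin.last (r + 1)) := hρ (Fin.le_last _)
    have IH := ih (m := Fin.tail m) (ρ := Fin.tail ρ) (fun i => hm i.succ) (fun i => hm1 i.succ)
      (hρ.comp Fin.strictMono_succ.monotone)
      (by show _ - ρ (Fin.succ 0) ≤ B; rw [hl, Fin.succ_zero_eq_one]; linarith)
    cases p using Fin.cases with
    | zero =>
      obtain ⟨κ, K, hS, hκ, hK⟩ := IH 0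
      rw [show Fin.tail ρ 0 = ρ 1 from congrArg ρ Fin.succ_zero_eq_one, hl] at hκ hK
      obtain ⟨κ', K', hS', hκ', hK'⟩ := Shape3.step (hm 0) (hm1 0) hS (S := B) (sub_nonneg.2 h01)
        (by linarith)
      refine ⟨κ', K', by rwa [level_cons_zero], le_trans ?_ hκ', hK'.trans ?_⟩
      · refine le_trans (le_of_eq ?_) (mul_le_mul_of_nonneg_right hκ (Real.exp_pos _).le)
        rw [mul_assoc, ← Real.exp_add]
        ring_nf
      · refine le_trans (mul_le_mul_of_nonneg_right hK (Real.exp_pos _).le) (le_of_eq ?_)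
        rw [mul_assoc, ← Real.exp_add, rate]
        ring_nf
    | succ p =>
      have h := IH p
      rw [hl] at h
      exact h

lemma level_phi_d3 {B : ℝ} (hm : ∀ i, 0 < m' i) (hm1 : ∀ i, m' i ≤ 1) (hρ : StrictMono ρ')
    (hB : ρ' (Fin.last r') - ρ' 0 ≤ B) (i : Fin r') {t : ℝ} (ht : t ∈ Icc (0 : ℝ) 1) (y : ℝ) :
    kap B ^ 2 * psiT y ^ 2 ≤ deriv (deriv (deriv (phiT (m' i) (ρ' i.succ - ρ' i.castSucc)
        (level m' ρ' logCosh i.succ) t))) y ^ 2 ∧
      deriv (deriv (deriv (phiT (m' i) (ρ' i.succ - ρ' i.castSucc)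
        (level m' ρ' logCosh i.succ) t))) y ^ 2 ≤ Kap B ^ 2 * Real.tanh y ^ 2 := by
  obtain ⟨κ, K, hS, hκ, hK⟩ := level_shape3 hm hm1 hρ.monotone hB i.succ
  have hs : 0 ≤ ρ' i.succ - ρ' i.castSucc := sub_nonneg.2 (hρ.monotone (Fin.castSucc_le_succ i))
  have hsB : ρ' i.succ - ρ' i.castSucc ≤ B := by
    linarith [hρ.monotone (Fin.le_last i.succ), hρ.monotone (Fin.zero_le i.castSucc)]
  have hrest : ρ' (Fin.last r') - ρ' i.succ ≤ B := by
    linarith [hρ.monotone (Fin.zero_le i.succ)]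
  have hrate : 0 ≤ rate B := by rw [rate]; positivity
  set s := ρ' i.succ - ρ' i.castSucc
  have h1t := sub_nonneg.2 ht.2
  have hst : s * (1 - t) ≤ B :=
    (mul_le_of_le_one_right hs (by linarith [ht.1])).trans hsB
  obtain ⟨κ', K', hS', hκ', hK'⟩ := Shape3.step (hm i) (hm1 i) hS (mul_nonneg hs h1t) hst
  obtain ⟨a, b⟩ := hS'.d3_sq y
  have hκ0 : kap B ≤ κ' := by
    refine le_trans ?_ hκ'
    refine le_trans ?_ (mul_le_mul_of_nonneg_right hκ (Real.exp_pos _).le)
    rw [kap, mul_assoc, ← Real.exp_add]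
    gcongr
    linarith
  have hK0 : K' ≤ Kap B := by
    refine le_trans (by linarith : K' ≤ K' + 1) (hK'.trans ?_)
    refine le_trans (mul_le_mul_of_nonneg_right hK (Real.exp_pos _).le) ?_
    rw [Kap, mul_assoc, ← Real.exp_add]
    gcongr
    nlinarith [mul_le_mul_of_nonneg_left hrest hrate, mul_le_mul_of_nonneg_left hst hrate,
      show 3 + 16 * Real.exp (3 * B) = rate B from rfl]
  exact ⟨le_trans (mul_le_mul_of_nonneg_right (pow_le_pow_left₀ (by rw [kap]; positivity) hκ0 2)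
      (sq_nonneg _)) a, b.trans (mul_le_mul_of_nonneg_right (pow_le_pow_left₀ hS'.nn.2 hK0 2)
      (sq_nonneg _))⟩

/-- The growth of the means of the test functions from the root. -/
lemma down_test {B : ℝ} : ∀ {r : ℕ} {m : Fin r → ℝ} {ρ : Fin (r + 1) → ℝ}, (∀ i, 0 < m i) →
    (∀ i, m i ≤ 1) → StrictMono ρ → ρ (Fin.last r) - ρ 0 ≤ B → ∀ p x,
      Real.exp (-(6 * (ρ p - ρ 0))) * eT x ≤ down m ρ logCosh p eT x ∧
      Real.exp (-(19 * (ρ p - ρ 0))) * (psiT x ^ 2 + (ρ p - ρ 0) / 2 * eT x) ≤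
        down m ρ logCosh p (fun z => psiT z ^ 2) x ∧
      down m ρ logCosh p (fun z => Real.tanh z ^ 2) x ≤ Real.tanh x ^ 2 + 3 * (ρ p - ρ 0) := by
  intro r
  induction r with
  | zero =>
    intro m ρ _ _ _ _ p x
    obtain rfl : p = 0 := Subsingleton.elim (α := Fin 1) _ _
    simp [down]
  | succ r ih =>
    intro m ρ hm hm1 hρ hB p x
    cases p using Fin.cases with
    | zero => simp [down_cons_zero]
    | succ p =>
      have hl : Fin.tail ρ (Fin.last r) = ρ (Fin.last (r + 1)) := by rw [Fin.tail, Fin.succ_last]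
      have hs : 0 < ρ 1 - ρ 0 := sub_pos.2 (hρ (by simp))
      have h1 : Fin.tail ρ 0 = ρ 1 := congrArg ρ Fin.succ_zero_eq_one
      have hB' : Fin.tail ρ (Fin.last r) - Fin.tail ρ 0 ≤ B := by rw [hl, h1]; linarith
      have hρ' : StrictMono (Fin.tail ρ) := hρ.comp Fin.strictMono_succ
      have IH := fun y => ih (m := Fin.tail m) (ρ := Fin.tail ρ) (fun i => hm i.succ)
        (fun i => hm1 i.succ) hρ' hB' p y
      obtain ⟨κ, K, hS, -, -⟩ := level_shape3 (m := Fin.tail m) (ρ := Fin.tail ρ)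
        (fun i => hm i.succ) (fun i => hm1 i.succ) hρ'.monotone hB' 0
      have hd : 0 ≤ Fin.tail ρ p - ρ 1 := by
        rw [← h1]; exact sub_nonneg.2 (hρ'.monotone (Fin.zero_le p))
      simp only [h1] at IH
      set s := ρ 1 - ρ 0 with hsdef
      set d := Fin.tail ρ p - ρ 1 with hddef
      have hpd : ρ p.succ - ρ 0 = s + d := by
        rw [hsdef, hddef]; show _ = _ + (ρ p.succ - ρ 1); ring
      have hT : ∀ {u : ℝ → ℝ}, Cb u → Cb (down (Fin.tail m) (Fin.tail ρ) logCosh p u) :=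
        fun hu => Cb.down (m := Fin.tail m) (fun i => hm i.succ) p hu
      have one := fun {u : ℝ → ℝ} => ex_one (hm 0) (hm1 0) hs hS.shape x u
      have te := eT_flow (hm 0) (hm1 0) hs hS x (right_mem_Icc.2 zero_le_one)
      have tp := psiSq_flow (hm 0) (hm1 0) hs hS x (right_mem_Icc.2 zero_le_one)
      have tt := tanhSq_flow (hm 0) (hm1 0) hs hS x (right_mem_Icc.2 zero_le_one)
      rw [one] at te tp tt
      rw [hpd]
      simp only [down_cons_succ]
      refine ⟨?_, ?_, ?_⟩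
      · refine le_trans ?_ (tilt_le (hm 0).le hS.good.lip (cb_eT.comb (Cb.const 0)
          (Real.exp (-(6 * d))) 0).expBd (hT cb_eT).expBd
          (fun y => by linarith [(IH y).1]) x)
        rw [tilt_comb (hm 0).le hS.good.lip cb_eT.expBd (ExpBd.const 0), zero_mul, add_zero]
        refine le_trans (le_of_eq ?_) (mul_le_mul_of_nonneg_left te (Real.exp_pos _).le)
        rw [← mul_assoc, ← Real.exp_add]; ring_nf
      · refine le_trans ?_ (tilt_le (hm 0).le hS.good.lip (cb_psiSq.comb cb_eT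
          (Real.exp (-(19 * d))) (Real.exp (-(19 * d)) * (d / 2))).expBd (hT cb_psiSq).expBd
          (fun y => by linarith [(IH y).2.1]) x)
        rw [tilt_comb (hm 0).le hS.good.lip cb_psiSq.expBd cb_eT.expBd, mul_assoc _ (d / 2),
          ← mul_add]
        rw [show -(19 * (s + d)) = -(19 * d) + -(19 * s) by ring, Real.exp_add, mul_assoc]
        refine mul_le_mul_of_nonneg_left ?_ (Real.exp_pos _).le
        have e19 : Real.exp (-(19 * s)) = Real.exp (-(13 * s)) * Real.exp (-(6 * s)) := by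
          rw [← Real.exp_add]; ring_nf
        have e13 : Real.exp (-(19 * s)) ≤ Real.exp (-(13 * s)) := Real.exp_le_exp.2 (by linarith)
        have e6 : Real.exp (-(19 * s)) ≤ Real.exp (-(6 * s)) := Real.exp_le_exp.2 (by linarith)
        have he := (eT_bounds x).1
        linear_combination tp + (d / 2) * te +
          psiT x ^ 2 * e13 + (d / 2) * eT x * e6 + (s / 2) * eT x * e19
      · refine le_trans (tilt_le (hm 0).le hS.good.lip (hT cb_tanhSq).expBd
          (cb_tanhSq.comb (Cb.const (3 * d)) 1 1).expBd (fun y => by linarith [(IH y).2.2]) x) ?_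
        rw [tilt_comb (hm 0).le hS.good.lip cb_tanhSq.expBd (ExpBd.const _),
          tilt_const (hm 0).le hS.good.lip]
        linarith

end Vale.Agent.P146.Tail
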