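import Vale.Agent.P146.Tail.Exponent
import Vale.Agent.P146.Div.Min

/-!
At a minimiser every exponent is at least a fixed multiple of the path above it.
-/

noncomputable section

open MeasureTheory ProbabilityTheory Filter Set
open scoped Topology BigOperators

namespace Vale.Agent.P146.Tail

open Vale.Agent.P157.Parisi (layer tilt level down down_zero down_succ level_castSucc)
open Vale.Agent.P157.Parisi.Full (logCosh)
open Vale.Agent.P157.Parisi.Full.Concave (good_level)
open Vale.Agent.P146.Div.Simpson (ExpBd)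
open Vale.Agent.P146.Div.Min (val box)

/-- The mean square slope at depth `p`. -/
def slopeAt {r : ℕ} (m : Fin r → ℝ) (ρ : Fin (r + 1) → ℝ) (p : Fin (r + 1)) : ℝ :=
  down m ρ logCosh p (fun y => deriv (level m ρ logCosh p) y ^ 2) 0

variable {r : ℕ} {m : Fin r → ℝ} {ρ : Fin (r + 1) → ℝ}

lemma slopeAt_zero (hm : ∀ i, 0 < m i) : slopeAt m ρ 0 = 0 := by
  have h := (good_level hm ρ 0).odd 0
  rw [neg_zero] at h
  have h0 : deriv (level m ρ logCosh 0) 0 = 0 := by linarith
  rw [slopeAt, down_zero, h0]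
  ring

lemma cb_levelSq (hm : ∀ i, 0 < m i) (hm1 : ∀ i, m i ≤ 1) (hρ : Monotone ρ) (p : Fin (r + 1)) :
    Cb fun y => deriv (level m ρ logCosh p) y ^ 2 := by
  obtain ⟨κ, K, hS, -, -⟩ := level_shape3 hm hm1 hρ le_rfl p
  exact Cb.mk ((differentiable_d1 hS.shape).continuous.pow 2) (C := 1) fun y => by
    rw [abs_pow]; exact pow_le_one₀ (abs_nonneg _) (hS.abs_d1 y)

lemma d3_level {B : ℝ} (hm : ∀ i, 0 < m i) (hm1 : ∀ i, m i ≤ 1) (hρ : StrictMono ρ)
    (hB : ρ (Fin.last r) - ρ 0 ≤ B) (i : Fin r) :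
    D3 (kap B) (Kap B) (m i) (ρ i.succ - ρ i.castSucc) (level m ρ logCosh i.succ) :=
  fun _ ht y => level_phi_d3 hm hm1 hρ hB i ht y

/-- The derivative in an exponent against the trapezium rule. -/
lemma expSlope_le {B : ℝ} (hm : ∀ i, 0 < m i) (hm1 : ∀ i, m i ≤ 1) (hρ : StrictMono ρ)
    (h0 : ρ 0 = 0) (hB : ρ (Fin.last r) ≤ B) (i : Fin r) :
    expSlope m ρ i 0 ≤ (ρ i.succ - ρ i.castSucc) / 4 * (slopeAt m ρ i.castSucc + slopeAt m ρ i.succ)
      + m i * (ρ i.succ - ρ i.castSucc) ^ 3 / 12 -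
      (ρ i.succ - ρ i.castSucc) ^ 3 * kap B ^ 2 * Real.exp (-(38 * B)) / 96 * ρ i.succ := by
  obtain ⟨κ, K, hS, -, -⟩ := level_shape3 hm hm1 hρ.monotone le_rfl i.succ
  set s := ρ i.succ - ρ i.castSucc with hsd
  set F := level m ρ logCosh i.succ with hF
  have hs : 0 < s := sub_pos.2 (hρ (Fin.castSucc_lt_succ (i := i)))
  have hgap := gain_le (hm i) (hm1 i) hs hS (d3_level (B := B) hm hm1 hρ (by rw [h0, sub_zero]; exact hB) i)
  set a := s ^ 3 * kap B ^ 2 * Real.exp (-(13 * s)) / 24 with had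
  set b := s / 4 * Real.exp (-(6 * s)) with hbd
  have hA := cb_levelSq hm hm1 hρ.monotone i.castSucc
  have hT : Cb (tilt (m i) s F fun z => deriv F z ^ 2) :=
    Cb.tilt (hm i).le hS.good.lip (cb_levelSq hm hm1 hρ.monotone i.succ)
  have c1 := (hA.comb hT (s / 4) (s / 4)).comb (Cb.const (m i * s ^ 3 / 12)) 1 1
  have c2 := cb_psiSq.comb cb_eT a (a * b)
  have hle := down_le hm i.castSucc (ρ := ρ) (gainAt_bounds hm hm1 hρ i).1 (c1.comb c2 1 (-1))
    (fun y => by
      rw [level_castSucc]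
      have := hgap y
      simp only [gainAt, ← hF, ← hsd]
      linarith) 0
  rw [down_comb hm _ c1 c2, down_comb hm _ (hA.comb hT _ _) (Cb.const _), down_comb hm _ hA hT,
    down_comb hm _ cb_psiSq cb_eT, down_const hm] at hle
  have hsucc : down m ρ logCosh i.castSucc (tilt (m i) s F fun z => deriv F z ^ 2) 0 =
      slopeAt m ρ i.succ := (congrFun (down_succ m ρ i _) 0).symm
  rw [hsucc] at hle
  obtain ⟨e1, e2, -⟩ := down_test (B := B) hm hm1 hρ (by rw [h0, sub_zero]; exact hB) i.castSucc 0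
  simp only [h0, sub_zero, show psiT 0 = 0 by simp [psiT], show eT 0 = 1 by simp [eT], ne_eq,
    OfNat.ofNat_ne_zero, not_false_eq_true, zero_pow, zero_add, mul_one] at e1 e2
  set ρ' := ρ i.castSucc with hρ'
  have hr0 : 0 ≤ ρ' := h0 ▸ hρ.monotone (Fin.zero_le i.castSucc)
  have hsum : ρ' + s = ρ i.succ := by rw [hsd]; ring
  have hB' : ρ' + s ≤ B := hsum ▸ (hρ.monotone (Fin.le_last i.succ)).trans hB
  have a0 : 0 ≤ a := by positivity
  have b0 : 0 ≤ b := by positivity
  have key : s ^ 3 * kap B ^ 2 * Real.exp (-(38 * B)) / 96 * ρ i.succ ≤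
      a * (Real.exp (-(19 * ρ')) * (ρ' / 2)) + a * b * Real.exp (-(6 * ρ')) := by
    rw [← hsum, had, hbd]
    have i1 : Real.exp (-(38 * B)) ≤ Real.exp (-(13 * s)) * Real.exp (-(19 * ρ')) := by
      rw [← Real.exp_add]; exact Real.exp_le_exp.2 (by linarith)
    have i2 : Real.exp (-(38 * B)) ≤
        Real.exp (-(13 * s)) * (Real.exp (-(6 * s)) * Real.exp (-(6 * ρ'))) := by
      rw [← Real.exp_add, ← Real.exp_add]; exact Real.exp_le_exp.2 (by linarith)
    have w : 0 ≤ s ^ 3 * kap B ^ 2 := by positivity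
    have j1 := mul_le_mul_of_nonneg_left i1 (mul_nonneg w hr0)
    have j2 := mul_le_mul_of_nonneg_left i2 (mul_nonneg w hs.le)
    have j3 : 0 ≤ s ^ 3 * kap B ^ 2 * ρ' *
        (Real.exp (-(13 * s)) * Real.exp (-(19 * ρ'))) := by positivity
    linarith
  have p1 := mul_le_mul_of_nonneg_left e1 (mul_nonneg a0 b0)
  have p2 := mul_le_mul_of_nonneg_left e2 a0
  show down m ρ logCosh i.castSucc (gainAt m ρ i) 0 ≤ _
  unfold slopeAt at hle ⊢
  linarith

/-- The functional along a segment of exponents. -/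
lemma hasDerivAt_val {β : ℝ} (hβ : β ≠ 0) {q : Fin (r + 1) → ℝ} (hq : StrictMono q)
    (δ : Fin r → ℝ) {θ : ℝ} (hθ : ∀ i, m i + θ * δ i ∈ Ioo (0 : ℝ) 1) :
    HasDerivAt (fun t => val β (fun i => m i + t * δ i) q)
      (∑ i, δ i * (expSlope (fun i => m i + θ * δ i) (fun p => β ^ 2 * q p) i 0 -
        β ^ 2 / 4 * (q i.succ ^ 2 - q i.castSucc ^ 2))) θ := by
  have hρ : StrictMono fun p => β ^ 2 * q p :=
    fun a b h => mul_lt_mul_of_pos_left (hq h) (by positivity)
  have h1 := hasDerivAt_level m δ hρ hθ 0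
  have h2 : HasDerivAt (fun t => ∑ i, (m i + t * δ i) * (q i.succ ^ 2 - q i.castSucc ^ 2))
      (∑ i, δ i * (q i.succ ^ 2 - q i.castSucc ^ 2)) θ :=
    HasDerivAt.fun_sum fun i _ => by
      simpa using ((((hasDerivAt_id' θ).mul_const (δ i)).const_add (m i)).mul_const _)
  refine (((h1.const_add (Real.log 2)).sub_const (β ^ 2 * q (Fin.last r) / 2)).add
    (((h2.const_sub (1 + q (Fin.last r) ^ 2))).const_mul (β ^ 2 / 4))).congr_deriv ?_
  rw [mul_neg, Finset.mul_sum, ← sub_eq_add_neg, ← Finset.sum_sub_distrib]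
  exact Finset.sum_congr rfl fun i _ => by ring

/-- The multiple of the path below every exponent of a minimiser. -/
def lowC (β : ℝ) : ℝ :=
  min (3 / 4) (β ^ 2 * kap (β ^ 2) ^ 2 * Real.exp (-(38 * β ^ 2)) / 8)

lemma lowC_pos {β : ℝ} (hβ : β ≠ 0) : 0 < lowC β := by
  refine lt_min (by norm_num) ?_
  rw [kap]
  positivity

variable {β η : ℝ} {q : Fin (r + 1) → ℝ}

/-- The mean square slope of a minimiser. -/
lemma slope_min (hβ : β ≠ 0) (hη : 0 < η) (hy : (m, q) ∈ box η r) (hsm : StrictMono m)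
    (hq : StrictMono q) (hmin : ∀ z ∈ box η r, val β m q ≤ val β z.1 z.2) (p : Fin (r + 1)) :
    slopeAt m (fun i => β ^ 2 * q i) p = q p := by
  obtain ⟨-, -, h0, hmb, -⟩ := id hy
  rcases eq_or_ne p 0 with rfl | hp
  · rw [slopeAt_zero fun i => hη.trans_le (hmb i).1]; exact h0.symm
  · have h := Vale.Agent.P146.Div.Min.slope_eq hβ hη hy hsm hq hmin hp
    rw [Vale.Agent.P146.Div.Min.siteSlope_root m (by simp only at h0; simp [h0]) p] at h
    exact h

/-- Every exponent of a minimiser is at least a multiple of the path above it. -/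
theorem exponent_low (hβ : β ≠ 0) (hη : 0 < η) (hη4 : η ≤ 1 / 4) (hy : (m, q) ∈ box η r)
    (hsm : StrictMono m) (hq : StrictMono q)
    (hmin : ∀ z ∈ box η r, val β m q ≤ val β z.1 z.2) (i : Fin r) :
    lowC β * q i.succ ≤ m i := by
  obtain ⟨n, rfl⟩ : ∃ n, r = n + 1 := ⟨r - 1, by have := i.pos; omega⟩
  obtain ⟨-, hqm, h0, hmb, hqb⟩ := id hy
  simp only at hqm h0 hmb hqb
  have hqi := hqb i.succ
  rcases eq_or_lt_of_le (hmb i).2 with he | hlt
  · calc lowC β * q i.succ ≤ 3 / 4 * 1 :=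
          mul_le_mul (min_le_left _ _) hqi.2 hqi.1 (by norm_num)
      _ ≤ m i := by linarith
  have hpos : ∀ i, 0 < m i := fun i => hη.trans_le (hmb i).1
  have hm1 : ∀ i, m i ≤ 1 := fun i => by linarith [(hmb i).2]
  set ρ := fun p => β ^ 2 * q p with hρd
  have hρ : StrictMono ρ := fun a b h => mul_lt_mul_of_pos_left (hq h) (by positivity)
  set δ : Fin (n + 1) → ℝ := Pi.single i 1 with hδ
  have hd := hasDerivAt_val (β := β) hβ hq δ (m := m) (θ := 0) fun j => by
    rw [zero_mul, add_zero]; exact ⟨hpos j, by linarith [(hmb j).2]⟩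
  simp only [zero_mul, add_zero] at hd
  rw [Finset.sum_eq_single i (fun j _ hj => by simp [hδ, hj])
    (fun h => absurd (Finset.mem_univ i) h), hδ, Pi.single_eq_same, one_mul] at hd
  have hge : 0 ≤ expSlope m ρ i 0 - β ^ 2 / 4 * (q i.succ ^ 2 - q i.castSucc ^ 2) := by
    refine ge_of_tendsto hd.tendsto_slope_zero_right ?_
    filter_upwards [(Vale.Agent.P146.Div.Min.update_strictMono hsm i).filter_mono
        nhdsWithin_le_nhds, (eventually_le_nhds (sub_pos.2 hlt)).filter_mono nhdsWithin_le_nhds,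
      self_mem_nhdsWithin] with h hmono hle hpos'
    have hh : 0 < h := hpos'
    have e : (fun j => m j + (0 + h) * (Pi.single i 1 : Fin (n + 1) → ℝ) j) =
        Function.update m i (m i + h) := funext fun j => by
      rcases eq_or_ne j i with rfl | hj <;> simp [*]
    have hbox : (Function.update m i (m i + h), q) ∈ box η (n + 1) := by
      refine ⟨hmono.monotone, hqm, h0, fun j => ?_, hqb⟩
      rcases eq_or_ne j i with rfl | hj
      · simp only [Function.update_self]
        exact ⟨by linarith [(hmb j).1], by linarith⟩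
      · simp only [Function.update_of_ne hj]
        exact hmb j
    simp only [smul_eq_mul, e, zero_mul, add_zero]
    exact mul_nonneg (inv_nonneg.2 hh.le) (sub_nonneg.2 (hmin _ hbox))
  have hup := expSlope_le hpos hm1 hρ (B := β ^ 2) (by simp [hρd, h0])
    (mul_le_of_le_one_right (sq_nonneg β) (hqb _).2) i
  rw [slope_min hβ hη hy hsm hq hmin, slope_min hβ hη hy hsm hq hmin] at hup
  simp only [hρd] at hup hge
  set s := β ^ 2 * q i.succ - β ^ 2 * q i.castSucc with hs
  have hs0 : 0 < s := sub_pos.2 (hρ (Fin.castSucc_lt_succ (i := i)))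
  have h3 : kap (β ^ 2) ^ 2 * Real.exp (-(38 * β ^ 2)) / 96 * (β ^ 2 * q i.succ) ≤ m i / 12 := by
    refine le_of_mul_le_mul_left ?_ (pow_pos hs0 3)
    have e : s / 4 * (q i.castSucc + q i.succ) =
        β ^ 2 / 4 * (q i.succ ^ 2 - q i.castSucc ^ 2) := by rw [hs]; ring
    linarith
  calc lowC β * q i.succ
      ≤ β ^ 2 * kap (β ^ 2) ^ 2 * Real.exp (-(38 * β ^ 2)) / 8 * q i.succ :=
        mul_le_mul_of_nonneg_right (min_le_right _ _) hqi.1
    _ ≤ m i := by linarith

end Vale.Agent.P146.Tail
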