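import Vale.Agent.P146.Tail.Tilt

/-!
Quantitative concavity of the slope of the recursion: `-F'''` lies between `κ tanh sech²` and
`K tanh` on the half line, and one step changes the constants by factors `exp (O(s))`.
-/

noncomputable section

open MeasureTheory ProbabilityTheory Filter Set
open scoped Topology

namespace Vale.Agent.P146.Tail

open Vale.Agent.P157.Parisi (layer tilt)
open Vale.Agent.P157.Parisi.Full (logCosh hasDerivAt_logCosh hasDerivAt_tanh' sq_tanh_le_one)
open Vale.Agent.P157.Parisi.Full.Concave renaming Good → CGood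
open Vale.Agent.P157.Parisi.Full.Concave (tanh_nonneg good_layer good_logCosh continuous_tanh)
open Vale.Agent.P146.Div (Shape1 shapeStep shapeBase)
open Vale.Agent.P146.Div.Simpson (ExpBd)

/-- The shape of the functions of the recursion, with its quantitative part. -/
structure Shape3 (κ K : ℝ) (F : ℝ → ℝ) : Prop where
  shape : Shape1 F
  good : CGood F
  sum : ∀ y, deriv (deriv F) y + deriv F y ^ 2 ≤ 1
  lo : AntitoneOn (fun y => deriv (deriv F) y + κ * Theta y) (Ici 0)
  hi : MonotoneOn (fun y => deriv (deriv F) y + K * logCosh y) (Ici 0)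
  nn : 0 ≤ κ ∧ 0 ≤ K

section Facts

variable {κ K : ℝ} {F : ℝ → ℝ}

lemma Shape3.le_one (h : Shape3 κ K F) (y : ℝ) : deriv (deriv F) y ≤ 1 := by
  linarith [h.sum y, sq_nonneg (deriv F y)]

lemma Shape3.abs_d2 (h : Shape3 κ K F) (y : ℝ) : |deriv (deriv F) y| ≤ 1 := by
  rw [abs_of_nonneg (h.shape.nonneg y)]
  exact h.le_one y

lemma Shape3.abs_d1 (h : Shape3 κ K F) (y : ℝ) : |deriv F y| ≤ 1 := h.good.b1.bound y

lemma deriv_nonneg_le {F : ℝ → ℝ} (hG : CGood F) (hd1 : Differentiable ℝ (deriv F))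
    (h1 : ∀ y, deriv (deriv F) y ≤ 1) {y : ℝ} (hy : 0 ≤ y) :
    0 ≤ deriv F y ∧ deriv F y ≤ min y 1 := by
  refine ⟨hG.nonneg y hy, le_min ?_ ((le_abs_self _).trans (hG.b1.bound y))⟩
  have h0 : deriv F 0 = 0 := by
    have := hG.odd 0
    rw [neg_zero] at this
    linarith
  have := (Convex.image_sub_le_mul_sub_of_deriv_le (convex_Ici (0 : ℝ)) hd1.continuous.continuousOn
    hd1.differentiableOn (C := 1) (fun z _ => h1 z)) 0 self_mem_Ici y hy hy
  rw [h0] at this
  linarith

lemma differentiable_d1 {F : ℝ → ℝ} (h : Shape1 F) : Differentiable ℝ (deriv F) := by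
  have := h.smooth.differentiable_iteratedDeriv 1 (by norm_num)
  rwa [iteratedDeriv_one] at this

lemma differentiable_d2 {F : ℝ → ℝ} (h : Shape1 F) : Differentiable ℝ (deriv (deriv F)) := by
  have := h.smooth.differentiable_iteratedDeriv 2 (by norm_num)
  rwa [iteratedDeriv_succ, iteratedDeriv_one] at this

lemma Shape3.expBd_d2 (h : Shape3 κ K F) : ExpBd (deriv (deriv F)) :=
  ExpBd.of_bdd (differentiable_d2 h.shape).continuous h.abs_d2

lemma d2_even {F : ℝ → ℝ} (h : Shape1 F) (y : ℝ) :
    deriv (deriv F) (-y) = deriv (deriv F) y :=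
  Vale.Agent.P146.Div.ShapeStep.deriv2_even h.even y

lemma expBd_Theta : ExpBd Theta :=
  ExpBd.of_bdd (C := 1) (Differentiable.continuous fun x => (hasDerivAt_Theta x).differentiableAt)
    fun x => by
      rw [Theta, abs_of_nonneg (by positivity)]
      linarith [sq_tanh_le_one x]

lemma Theta_even (y : ℝ) : Theta (-y) = Theta y := by simp [Theta, Real.tanh_neg]

lemma logCosh_even (y : ℝ) : logCosh (-y) = logCosh y := by simp [logCosh]

lemma monotoneOn_of_hasDeriv {f f' : ℝ → ℝ} (hd : ∀ x, HasDerivAt f (f' x) x)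
    (hf : ∀ x, 0 < x → 0 ≤ f' x) : MonotoneOn f (Ici 0) := by
  refine monotoneOn_of_deriv_nonneg (convex_Ici 0) (fun x _ => (hd x).continuousAt.continuousWithinAt)
    (fun x _ => (hd x).differentiableAt.differentiableWithinAt) fun x hx => ?_
  rw [interior_Ici] at hx
  rw [(hd x).deriv]
  exact hf x hx

/-- The third derivative on the half line. -/
lemma Shape3.d3_bounds (h : Shape3 κ K F) {y : ℝ} (hy : 0 ≤ y) :
    κ * psiT y ≤ -deriv (deriv (deriv F)) y ∧ -deriv (deriv (deriv F)) y ≤ K * Real.tanh y := by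
  have hd := (differentiable_d2 h.shape y).hasDerivAt
  have h1 := hd.add ((hasDerivAt_Theta y).const_mul κ)
  have h2 := hd.add ((hasDerivAt_logCosh y).const_mul K)
  have a1 : deriv (deriv (deriv F)) y + κ * psiT y ≤ 0 := by
    refine le_of_tendsto ((hasDerivWithinAt_iff_tendsto_slope' self_notMem_Ioi).1
      (h1.hasDerivWithinAt (s := Ioi y))) (eventually_nhdsWithin_of_forall fun z (hz : y < z) => ?_)
    rw [slope_def_field]
    exact div_nonpos_of_nonpos_of_nonneg (sub_nonpos.2 (h.lo (mem_Ici.2 hy)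
      (mem_Ici.2 (hy.trans hz.le)) hz.le)) (sub_nonneg.2 hz.le)
  have a2 : 0 ≤ deriv (deriv (deriv F)) y + K * Real.tanh y := by
    refine ge_of_tendsto ((hasDerivWithinAt_iff_tendsto_slope' self_notMem_Ioi).1
      (h2.hasDerivWithinAt (s := Ioi y))) (eventually_nhdsWithin_of_forall fun z (hz : y < z) => ?_)
    rw [slope_def_field]
    exact div_nonneg (sub_nonneg.2 (h.hi (mem_Ici.2 hy) (mem_Ici.2 (hy.trans hz.le)) hz.le))
      (sub_nonneg.2 hz.le)
  constructor <;> linarith

/-- The third derivative squared, everywhere. -/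
lemma Shape3.d3_sq (h : Shape3 κ K F) (y : ℝ) :
    κ ^ 2 * psiT y ^ 2 ≤ deriv (deriv (deriv F)) y ^ 2 ∧
      deriv (deriv (deriv F)) y ^ 2 ≤ K ^ 2 * Real.tanh y ^ 2 := by
  have hodd : deriv (deriv (deriv F)) (-y) = -deriv (deriv (deriv F)) y := by
    have := deriv_comp_neg (deriv (deriv F)) y
    rw [show (fun z => deriv (deriv F) (-z)) = deriv (deriv F) from
      funext (d2_even h.shape)] at this
    linarith
  have key : ∀ z, 0 ≤ z → κ ^ 2 * psiT z ^ 2 ≤ deriv (deriv (deriv F)) z ^ 2 ∧
      deriv (deriv (deriv F)) z ^ 2 ≤ K ^ 2 * Real.tanh z ^ 2 := fun z hz => by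
    obtain ⟨a, b⟩ := h.d3_bounds hz
    have hp := mul_nonneg h.nn.1 (psiT_nonneg hz)
    constructor
    · rw [← mul_pow, ← neg_sq (deriv (deriv (deriv F)) z)]
      exact pow_le_pow_left₀ hp a 2
    · rw [← mul_pow, ← neg_sq (deriv (deriv (deriv F)) z)]
      exact pow_le_pow_left₀ (hp.trans a) b 2
  rcases le_total 0 y with hy | hy
  · exact key y hy
  · have := key (-y) (neg_nonneg.2 hy)
    rw [hodd, neg_sq] at this
    simpa [psiT, Real.tanh_neg] using this

end Facts

/-- The terminal function. -/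
theorem shape3_logCosh : Shape3 2 2 logCosh := by
  have hd : deriv logCosh = Real.tanh := funext fun x => (hasDerivAt_logCosh x).deriv
  have h2 : deriv (deriv logCosh) = fun x => 1 - Real.tanh x ^ 2 := by
    rw [hd]; exact funext fun x => (hasDerivAt_tanh' x).deriv
  refine ⟨shapeBase, good_logCosh, fun y => by rw [h2, hd]; simp, ?_, ?_,
    zero_le_two, zero_le_two⟩
  · rw [h2, show (fun y => 1 - Real.tanh y ^ 2 + 2 * Theta y) = fun _ => 1 from
      funext fun y => by simp [Theta]; ring]
    exact antitoneOn_const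
  · rw [h2]
    refine monotoneOn_of_hasDeriv (fun x => (((hasDerivAt_tanh' x).fun_pow 2).const_sub 1).add
      ((hasDerivAt_logCosh x).const_mul 2)) fun x hx => ?_
    simp only [Nat.cast_ofNat, Nat.add_one_sub_one, pow_one]
    nlinarith [tanh_nonneg hx.le, sech_bounds x]

/-! ### One step -/

variable {m s κ K : ℝ} {F : ℝ → ℝ}

variable (hm : 0 < m) (hm1 : m ≤ 1) (hs : 0 < s) (h : Shape3 κ K F)

include hm hm1 hs h

omit hs in
lemma sum_phi {t : ℝ} (y : ℝ) :
    deriv (deriv (phiT m s F t)) y + deriv (phiT m s F t) y ^ 2 ≤ 1 :=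
  sum_phiT hm hm1 h.shape h.sum y

lemma phi_d2 {t : ℝ} (ht : t ∈ Icc (0 : ℝ) 1) (y : ℝ) :
    0 ≤ deriv (deriv (phiT m s F t)) y ∧ deriv (deriv (phiT m s F t)) y ≤ 1 :=
  ⟨(shape_phiT hm hm1 hs.le h.shape ht).nonneg y,
    by linarith [sum_phi hm hm1 h (s := s) (t := t) y, sq_nonneg (deriv (phiT m s F t) y)]⟩

lemma phi_d1 {t : ℝ} (ht : t ∈ Icc (0 : ℝ) 1) {y : ℝ} (hy : 0 ≤ y) :
    0 ≤ deriv (phiT m s F t) y ∧ deriv (phiT m s F t) y ≤ min y 1 :=
  deriv_nonneg_le (good_phiT hm h.good t) (differentiable_d1 (shape_phiT hm hm1 hs.le h.shape ht))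
    (fun z => (phi_d2 hm hm1 hs h ht z).2) hy

lemma continuous_phi {t : ℝ} (ht : t ∈ Icc (0 : ℝ) 1) :
    Continuous (deriv (phiT m s F t)) ∧ Continuous (deriv (deriv (phiT m s F t))) :=
  ⟨(differentiable_d1 (shape_phiT hm hm1 hs.le h.shape ht)).continuous,
    (differentiable_d2 (shape_phiT hm hm1 hs.le h.shape ht)).continuous⟩

/-- The spread of the mean of `Θ` between two points decays at most exponentially. -/
lemma spread_Theta {x y : ℝ} (hx : 0 ≤ x) (hxy : x ≤ y) :
    Real.exp (-(7 * s)) * (Theta y - Theta x) ≤ tilt m s F Theta y - tilt m s F Theta x := by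
  have bψ : ExpBd psiT :=
    ExpBd.of_bdd (Differentiable.continuous fun z => (hasDerivAt_psiT z).differentiableAt) abs_psiT_le
  have bψ' : ExpBd psiT' :=
    ExpBd.of_bdd (Differentiable.continuous fun z => (hasDerivAt_psiT' z).differentiableAt)
      abs_psiT'_le
  set g : ℝ → ℝ → ℝ := fun t z => psiT' z / 2 + m * deriv (phiT m s F t) z * psiT z with hg
  have hdu := fun (z : ℝ) (t : ℝ) (ht : t ∈ Ioo (0 : ℝ) 1) => hasDerivAt_test hm hm1 hs h.shape
    expBd_Theta bψ bψ' hasDerivAt_Theta hasDerivAt_psiT z ht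
  have key := gronwall_lower (A := 7 * s) (a := 0) (by positivity) le_rfl
    (u := fun t => ex m s F y Theta t - ex m s F x Theta t)
    (u' := fun t => s * ex m s F y (g t) t - s * ex m s F x (g t) t)
    ((continuousOn_test h.shape expBd_Theta y).sub (continuousOn_test h.shape expBd_Theta x))
    (fun t ht => (hdu y t ht).sub (hdu x t ht)) (fun t ht => ?_) (right_mem_Icc.2 zero_le_one)
  · simp only [ex_zero h.shape, ex_one hm hm1 hs h.shape, mul_one, add_zero] at key
    exact key
  have hI := Ioo_subset_Icc_self ht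
  obtain ⟨c1, c2⟩ := continuous_phi hm hm1 hs h hI
  have hb : ∀ z, |g t z| ≤ 2 := fun z => by
    refine (abs_add_le _ _).trans ?_
    rw [abs_div, abs_mul, abs_mul, abs_of_pos hm, abs_two]
    have hd : |deriv (phiT m s F t) z| ≤ 1 := (good_phiT hm h.good t).b1.bound z
    nlinarith [abs_psiT'_le z, abs_psiT_le z, abs_nonneg (psiT z),
      abs_nonneg (deriv (phiT m s F t) z), mul_le_one₀ hd (abs_nonneg _) (abs_psiT_le z),
      mul_nonneg (abs_nonneg (deriv (phiT m s F t) z)) (abs_nonneg (psiT z))]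
  have bg : ExpBd (g t) := ExpBd.of_bdd ((bψ'.1.div_const 2).add
    ((continuous_const.mul c1).mul bψ.1)) hb
  have bG : ExpBd fun z => 1 * g t z + 7 * Theta z := by
    refine ExpBd.of_bdd (C := 2 + 7) ((continuous_const.mul bg.1).add
      (continuous_const.mul expBd_Theta.1)) fun z => ?_
    refine (abs_add_le _ _).trans (add_le_add (by simpa using hb z) ?_)
    rw [abs_mul, Theta, abs_of_pos (by norm_num : (0 : ℝ) < 7), abs_of_nonneg (by positivity)]
    linarith [sq_tanh_le_one z]
  have hev : ∀ z, (1 * g t (-z) + 7 * Theta (-z)) = 1 * g t z + 7 * Theta z := fun z => by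
    simp only [hg, Theta_even, psiT, psiT', Real.tanh_neg, (good_phiT hm h.good t).odd]
    ring
  have hmo : MonotoneOn (fun z => 1 * g t z + 7 * Theta z) (Ici 0) := by
    refine monotoneOn_of_hasDeriv (fun z => ((((hasDerivAt_psiT' z).div_const 2).add
      ((((differentiable_d1 (shape_phiT hm hm1 hs.le h.shape hI)) z).hasDerivAt.const_mul m).mul
        (hasDerivAt_psiT z))).const_mul 1).add ((hasDerivAt_Theta z).const_mul 7)) fun z hz => ?_
    obtain ⟨p0, p1⟩ := phi_d1 hm hm1 hs h hI hz.le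
    obtain ⟨q0, -⟩ := phi_d2 hm hm1 hs h hI z
    have hp := psiT_nonneg hz.le
    have hψ' : -(3 * psiT z) ≤ psiT' z := by
      rw [psiT, psiT']
      obtain ⟨s0, -⟩ := sech_bounds z
      have ht0 := tanh_nonneg hz.le
      have ht1 : Real.tanh z ≤ 1 := (Real.tanh_lt_one z).le
      nlinarith [mul_nonneg s0 (mul_nonneg ht0 (sub_nonneg.2 ht1))]
    have e1 : -(4 * psiT z) ≤ psiT'' z / 2 := by
      rw [psiT'']
      nlinarith [mul_nonneg hp (sq_nonneg (Real.tanh z))]
    have e2 : 0 ≤ m * deriv (deriv (phiT m s F t)) z * psiT z := by positivity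
    have e3 : -(3 * psiT z) ≤ m * deriv (phiT m s F t) z * psiT' z := by
      have hc : 0 ≤ m * deriv (phiT m s F t) z := by positivity
      have hc1 : m * deriv (phiT m s F t) z ≤ 1 :=
        mul_le_one₀ hm1 p0 (p1.trans (min_le_right _ _))
      nlinarith [mul_le_mul_of_nonneg_left hψ' hc, mul_le_mul_of_nonneg_right hc1 hp]
    linarith
  have hG := good_phiT (s := s) hm h.good t
  have hmono := tilt_mono (δ := s * t) hm.le hG bG hev hmo hx hxy
  rw [← ex_eq_tilt hm hm1 hs h.shape x _ hI, ← ex_eq_tilt hm hm1 hs h.shape y _ hI,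
    ex_comb hm hm1 hs h.shape h.good bg expBd_Theta 1 7 x hI,
    ex_comb hm hm1 hs h.shape h.good bg expBd_Theta 1 7 y hI] at hmono
  have := mul_le_mul_of_nonneg_left hmono hs.le
  linarith

/-- The spread of the mean of `log cosh` between two points grows at most exponentially. -/
lemma spread_logCosh {x y : ℝ} (hx : 0 ≤ x) (hxy : x ≤ y) {t : ℝ} (ht : t ∈ Icc (0 : ℝ) 1) :
    ex m s F y logCosh t - ex m s F x logCosh t ≤
      Real.exp (3 * s * t) * (logCosh y - logCosh x) := by
  have bt : ExpBd Real.tanh := ExpBd.of_bdd continuous_tanh abs_tanh_le_one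
  have bs : ExpBd fun z => 1 - Real.tanh z ^ 2 :=
    ExpBd.of_bdd (C := 1) (continuous_const.sub (continuous_tanh.pow 2)) fun z => by
      rw [abs_of_nonneg (sech_bounds z).1]; exact (sech_bounds z).2
  set g : ℝ → ℝ → ℝ := fun t z =>
    (1 - Real.tanh z ^ 2) / 2 + m * deriv (phiT m s F t) z * Real.tanh z with hg
  have hdu := fun (z : ℝ) (u : ℝ) (hu : u ∈ Ioo (0 : ℝ) 1) => hasDerivAt_test hm hm1 hs h.shape
    expBd_logCosh bt bs hasDerivAt_logCosh hasDerivAt_tanh' z hu
  have key := gronwall_upper (A := 3 * s) (a := 0) (by positivity) le_rfl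
    (u := fun t => ex m s F y logCosh t - ex m s F x logCosh t)
    (u' := fun t => s * ex m s F y (g t) t - s * ex m s F x (g t) t)
    ((continuousOn_test h.shape expBd_logCosh y).sub (continuousOn_test h.shape expBd_logCosh x))
    (fun u hu => (hdu y u hu).sub (hdu x u hu)) (fun u hu => ?_) ht
  · simp only [ex_zero h.shape, zero_mul, add_zero] at key
    exact key
  have hI := Ioo_subset_Icc_self hu
  obtain ⟨c1, c2⟩ := continuous_phi hm hm1 hs h hI
  have hb : ∀ z, |g u z| ≤ 2 := fun z => by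
    refine (abs_add_le _ _).trans ?_
    rw [abs_div, abs_mul, abs_mul, abs_of_pos hm, abs_two,
      abs_of_nonneg (sech_bounds z).1, mul_assoc]
    have hd : |deriv (phiT m s F u) z| ≤ 1 := (good_phiT hm h.good u).b1.bound z
    have := mul_le_one₀ hm1 (by positivity) (mul_le_one₀ hd (abs_nonneg _) (abs_tanh_le_one z))
    linarith [(sech_bounds z).2]
  have bg : ExpBd (g u) := ExpBd.of_bdd ((bs.1.div_const 2).add
    ((continuous_const.mul c1).mul bt.1)) hb
  have bG : ExpBd fun z => (-1) * g u z + 3 * logCosh z := by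
    obtain ⟨-, C, c, hC, hc, hb'⟩ := expBd_logCosh
    refine ⟨(continuous_const.mul bg.1).add (continuous_const.mul expBd_logCosh.1), 2 + 3 * C, c,
      by positivity, hc, fun z => ?_⟩
    refine (abs_add_le _ _).trans ?_
    rw [abs_mul, abs_mul, abs_neg, abs_one, one_mul, abs_of_pos (by norm_num : (0 : ℝ) < 3),
      add_mul]
    refine add_le_add ((hb z).trans (le_mul_of_one_le_right zero_le_two
      (Real.one_le_exp (by positivity)))) ?_
    rw [mul_assoc]
    exact mul_le_mul_of_nonneg_left (hb' z) (by norm_num)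
  have hev : ∀ z, ((-1) * g u (-z) + 3 * logCosh (-z)) = (-1) * g u z + 3 * logCosh z := fun z => by
    simp only [hg, logCosh_even, Real.tanh_neg, (good_phiT hm h.good u).odd]
    ring
  have hmo : MonotoneOn (fun z => (-1) * g u z + 3 * logCosh z) (Ici 0) := by
    refine monotoneOn_of_hasDeriv (fun z => ((((((hasDerivAt_tanh' z).fun_pow 2).const_sub 1)).div_const 2).add
      ((((differentiable_d1 (shape_phiT hm hm1 hs.le h.shape hI)) z).hasDerivAt.const_mul m).mul
        (hasDerivAt_tanh' z))).const_mul (-1) |>.add ((hasDerivAt_logCosh z).const_mul 3))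
      fun z hz => ?_
    obtain ⟨p0, p1⟩ := phi_d1 hm hm1 hs h hI hz.le
    obtain ⟨q0, q1⟩ := phi_d2 hm hm1 hs h hI z
    obtain ⟨s0, s1⟩ := sech_bounds z
    have ht0 := tanh_nonneg hz.le
    simp only [Nat.cast_ofNat, Nat.add_one_sub_one, pow_one]
    have e1 : deriv (phiT m s F u) z * (1 - Real.tanh z ^ 2) ≤ Real.tanh z :=
      (mul_le_mul_of_nonneg_right (p1.trans (min_le_left _ _)) s0).trans (mul_sech_le_tanh hz.le)
    have e2 : deriv (deriv (phiT m s F u)) z * Real.tanh z ≤ Real.tanh z :=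
      mul_le_of_le_one_left ht0 q1
    have e3 := mul_le_mul_of_nonneg_left (add_le_add e2 e1) hm.le
    have e4 : m * (Real.tanh z + Real.tanh z) ≤ Real.tanh z + Real.tanh z :=
      mul_le_of_le_one_left (by positivity) hm1
    nlinarith [mul_nonneg ht0 s0]
  have hmono := tilt_mono (δ := s * u) hm.le (good_phiT (s := s) hm h.good u) bG hev hmo hx hxy
  rw [← ex_eq_tilt hm hm1 hs h.shape x _ hI, ← ex_eq_tilt hm hm1 hs h.shape y _ hI,
    ex_comb hm hm1 hs h.shape h.good bg expBd_logCosh (-1) 3 x hI,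
    ex_comb hm hm1 hs h.shape h.good bg expBd_logCosh (-1) 3 y hI] at hmono
  have := mul_le_mul_of_nonneg_left hmono hs.le
  linarith

omit hm1 hs in
/-- The second derivative after a step. -/
lemma layer_d2 (x : ℝ) : deriv (deriv (layer m s F)) x =
    tilt m s F (deriv (deriv F)) x +
      m * (tilt m s F (fun y => deriv F y ^ 2) x - deriv (layer m s F) x ^ 2) := by
  obtain ⟨hd, hb⟩ := Vale.Agent.P146.Div.ShapeStep.bd_of_shape h.shape
  have hL : deriv (layer m s F) = tilt m s F (deriv F) := funext fun z =>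
    (Vale.Agent.P146.Div.ShapeStep.hasDerivAt_layer (δ := s) hm hd hb.pred.pred.pred z).deriv
  have e2 : ExpBd fun y => deriv F y ^ 2 := ExpBd.of_bdd (C := 1)
    ((differentiable_d1 h.shape).continuous.pow 2) fun y => by
      rw [abs_pow]; exact pow_le_one₀ (abs_nonneg _) (h.abs_d1 y)
  rw [hL, (Vale.Agent.P146.Div.ShapeStep.hasDerivAt_tilt hm.le hd hb.pred.pred.pred hb.pred.pred x).deriv,
    show (fun y => deriv (deriv F) y + m * (deriv F y * deriv F y)) =
      fun y => 1 * deriv (deriv F) y + m * (deriv F y ^ 2) from funext fun y => by ring,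
    tilt_comb hm.le h.good.lip h.expBd_d2 e2]
  ring

/-- The excess of the second derivative after a step over the tilt of the old one. -/
lemma layer_d2_eq (x : ℝ) : deriv (deriv (layer m s F)) x =
    tilt m s F (deriv (deriv F)) x + m * ∫ t in (0:ℝ)..1, g1 m s F x t := by
  obtain ⟨c0, c1, -⟩ := continuousOn_g hm hm1 hs h.shape x
  rw [layer_d2 hm h x, intervalIntegral.integral_eq_sub_of_hasDerivAt_of_le zero_le_one c0
    (fun t ht => hasDerivAt_g0 hm hm1 hs h.shape x ht) (c1.intervalIntegrable_of_Icc zero_le_one)]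
  simp only [g0, ex_zero h.shape, ex_one hm hm1 hs h.shape, phiT_one hm.ne', phiT_zero]

/-- One step keeps the lower invariant. -/
lemma step_lo : AntitoneOn
    (fun y => deriv (deriv (layer m s F)) y + κ * Real.exp (-(7 * s)) * Theta y) (Ici 0) := by
  intro x hx y hy hxy
  have hG := h.good
  have bH : ExpBd fun z => (-1) * deriv (deriv F) z + (-κ) * Theta z := by
    refine ExpBd.of_bdd (C := 1 + κ) ((continuous_const.mul h.expBd_d2.1).add
      (continuous_const.mul expBd_Theta.1)) fun z => ?_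
    refine (abs_add_le _ _).trans (add_le_add (by simpa using h.abs_d2 z) ?_)
    rw [abs_mul, abs_neg, abs_of_nonneg h.nn.1, Theta, abs_of_nonneg (by positivity)]
    exact mul_le_of_le_one_right h.nn.1 (by linarith [sq_tanh_le_one z])
  have hmono := tilt_mono (δ := s) hm.le hG bH
    (fun z => by rw [d2_even h.shape, Theta_even])
    (fun a ha b hb hab => by
      have := h.lo ha hb hab
      simp only at this ⊢
      linarith) hx hxy
  rw [tilt_comb hm.le hG.lip h.expBd_d2 expBd_Theta,
    tilt_comb hm.le hG.lip h.expBd_d2 expBd_Theta] at hmono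
  have hsp := mul_le_mul_of_nonneg_left (spread_Theta hm hm1 hs h hx hxy) h.nn.1
  have hvar : ∫ t in (0:ℝ)..1, g1 m s F y t ≤ ∫ t in (0:ℝ)..1, g1 m s F x t := by
    refine intervalIntegral.integral_mono_on zero_le_one
      ((continuousOn_g hm hm1 hs h.shape y).2.1.intervalIntegrable_of_Icc zero_le_one)
      ((continuousOn_g hm hm1 hs h.shape x).2.1.intervalIntegrable_of_Icc zero_le_one) fun t ht => ?_
    refine mul_le_mul_of_nonneg_left ?_ hs.le
    have hS := shape_phiT hm hm1 hs.le h.shape ht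
    obtain ⟨-, c2⟩ := continuous_phi hm hm1 hs h ht
    have b2 : ExpBd fun z => deriv (deriv (phiT m s F t)) z ^ 2 := ExpBd.of_bdd (C := 1) (c2.pow 2)
      fun z => by
        rw [abs_pow]
        exact pow_le_one₀ (abs_nonneg _) (abs_le.2
          ⟨by linarith [(phi_d2 hm hm1 hs h ht z).1], (phi_d2 hm hm1 hs h ht z).2⟩)
    have bn : ExpBd fun z => (-1) * deriv (deriv (phiT m s F t)) z ^ 2 + 0 * (1 : ℝ) := by
      obtain ⟨c, C, k, p, q, hb⟩ := b2
      exact ⟨(continuous_const.mul c).add continuous_const, C, k, p, q, fun z => by simpa using hb z⟩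
    have hm' := tilt_mono (δ := s * t) hm.le (good_phiT (s := s) hm h.good t) bn
      (fun z => by rw [d2_even hS])
      (fun a ha b hb hab => by
        have := pow_le_pow_left₀ (hS.nonneg b) (hS.anti ha hb hab) 2
        simp only
        linarith) hx hxy
    rw [← ex_eq_tilt hm hm1 hs h.shape x _ ht, ← ex_eq_tilt hm hm1 hs h.shape y _ ht,
      ex_comb hm hm1 hs h.shape hG b2 (ExpBd.const 1) (-1) 0 x ht,
      ex_comb hm hm1 hs h.shape hG b2 (ExpBd.const 1) (-1) 0 y ht] at hm'
    linarith
  have := mul_le_mul_of_nonneg_left hvar hm.le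
  simp only [layer_d2_eq hm hm1 hs h]
  linarith

/-- A crude bound on the decrease of the second derivative along the step. -/
lemma crude_hi {t : ℝ} (ht : t ∈ Ico (0 : ℝ) 1) :
    MonotoneOn (fun z => deriv (deriv (phiT m s F t)) z + (K * Real.exp (3 * s) + 4) * logCosh z)
      (Ici 0) := by
  intro x hx y hy hxy
  have hI := Ico_subset_Icc_self ht
  set s' := s * (1 - t) with hs'
  have hs'0 : 0 < s' := mul_pos hs (sub_pos.2 ht.2)
  have hle : s' ≤ s := mul_le_of_le_one_right hs.le (by linarith [ht.1])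
  have bH : ExpBd fun z => 1 * deriv (deriv F) z + K * logCosh z := by
    obtain ⟨-, C, c, hC, hc, hb'⟩ := expBd_logCosh
    refine ⟨(continuous_const.mul h.expBd_d2.1).add (continuous_const.mul expBd_logCosh.1),
      1 + K * C, c, add_nonneg zero_le_one (mul_nonneg h.nn.2 hC), hc, fun z => ?_⟩
    refine (abs_add_le _ _).trans ?_
    rw [add_mul]
    refine add_le_add ?_ ?_
    · rw [one_mul, one_mul]
      exact (h.abs_d2 z).trans (Real.one_le_exp (by positivity))
    · rw [abs_mul, abs_of_nonneg h.nn.2, mul_assoc]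
      exact mul_le_mul_of_nonneg_left (hb' z) h.nn.2
  have hmono := tilt_mono (δ := s') hm.le h.good bH
    (fun z => by rw [d2_even h.shape, logCosh_even])
    (fun a ha b hb hab => by simpa using h.hi ha hb hab) hx hxy
  rw [tilt_comb hm.le h.good.lip h.expBd_d2 expBd_logCosh,
    tilt_comb hm.le h.good.lip h.expBd_d2 expBd_logCosh] at hmono
  have hsp := spread_logCosh hm hm1 hs'0 h hx hxy (right_mem_Icc.2 zero_le_one)
  rw [ex_one hm hm1 hs'0 h.shape, ex_one hm hm1 hs'0 h.shape, mul_one] at hsp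
  have hL : 0 ≤ logCosh y - logCosh x := sub_nonneg.2 <|
    monotoneOn_of_hasDeriv hasDerivAt_logCosh (fun z hz => tanh_nonneg hz.le) hx hy hxy
  have hsp' : K * (tilt m s' F logCosh y - tilt m s' F logCosh x) ≤
      K * Real.exp (3 * s) * (logCosh y - logCosh x) := by
    rw [mul_assoc]
    refine mul_le_mul_of_nonneg_left (hsp.trans ?_) h.nn.2
    exact mul_le_mul_of_nonneg_right (Real.exp_le_exp.2 (by linarith)) hL
  -- the excess
  have hup : tilt m s' F (fun z => deriv F z ^ 2) x ≤ tilt m s' F (fun z => deriv F z ^ 2) y :=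
    tilt_mono (h := fun z => deriv F z ^ 2) hm.le h.good
      (ExpBd.of_bdd (C := 1) ((differentiable_d1 h.shape).continuous.pow 2)
      fun z => by rw [abs_pow]; exact pow_le_one₀ (abs_nonneg _) (h.abs_d1 z))
      (fun z => by rw [h.good.odd, neg_sq])
      (fun a ha b hb hab => pow_le_pow_left₀ (h.good.nonneg a ha) (h.good.mono ha hb hab) 2) hx hxy
  have hsq : MonotoneOn (fun z => 4 * logCosh z - deriv (phiT m s F t) z ^ 2) (Ici 0) := by
    refine monotoneOn_of_hasDeriv (fun z => ((hasDerivAt_logCosh z).const_mul 4).sub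
      ((differentiable_d1 (shape_phiT hm hm1 hs.le h.shape hI) z).hasDerivAt.fun_pow 2)) fun z hz => ?_
    obtain ⟨p0, p1⟩ := phi_d1 hm hm1 hs h hI hz.le
    obtain ⟨q0, q1⟩ := phi_d2 hm hm1 hs h hI z
    simp only [Nat.cast_ofNat, Nat.add_one_sub_one, pow_one]
    nlinarith [half_le_tanh hz.le, mul_le_mul_of_nonneg_left q1 p0]
  have h4 := hsq hx hy hxy
  simp only [phiT, ← hs'] at h4 ⊢
  rw [layer_d2 hm h, layer_d2 hm h]
  have hm2 := mul_le_mul_of_nonneg_left hup hm.le
  have hm3 := mul_le_mul_of_nonneg_left h4 hm.le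
  have hm4 := mul_le_of_le_one_left (mul_nonneg (show (0:ℝ) ≤ 4 by norm_num) hL) hm1
  linarith

/-- One step keeps the upper invariant. -/
lemma step_hi : MonotoneOn (fun y => deriv (deriv (layer m s F)) y +
    (Real.exp (3 * s) * (K + 2 * s * (K * Real.exp (3 * s) + 4))) * logCosh y) (Ici 0) := by
  intro x hx y hy hxy
  set A := K * Real.exp (3 * s) + 4 with hA
  have hA0 : 0 ≤ A := add_nonneg (mul_nonneg h.nn.2 (Real.exp_pos _).le) (by norm_num)
  have bH : ExpBd fun z => 1 * deriv (deriv F) z + K * logCosh z := by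
    obtain ⟨-, C, c, hC, hc, hb'⟩ := expBd_logCosh
    refine ⟨(continuous_const.mul h.expBd_d2.1).add (continuous_const.mul expBd_logCosh.1),
      1 + K * C, c, add_nonneg zero_le_one (mul_nonneg h.nn.2 hC), hc, fun z => ?_⟩
    refine (abs_add_le _ _).trans ?_
    rw [add_mul]
    refine add_le_add ?_ ?_
    · rw [one_mul, one_mul]
      exact (h.abs_d2 z).trans (Real.one_le_exp (by positivity))
    · rw [abs_mul, abs_of_nonneg h.nn.2, mul_assoc]
      exact mul_le_mul_of_nonneg_left (hb' z) h.nn.2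
  have hmono := tilt_mono (δ := s) hm.le h.good bH
    (fun z => by rw [d2_even h.shape, logCosh_even])
    (fun a ha b hb hab => by simpa using h.hi ha hb hab) hx hxy
  rw [tilt_comb hm.le h.good.lip h.expBd_d2 expBd_logCosh,
    tilt_comb hm.le h.good.lip h.expBd_d2 expBd_logCosh] at hmono
  have hL : 0 ≤ logCosh y - logCosh x := sub_nonneg.2 <|
    monotoneOn_of_hasDeriv hasDerivAt_logCosh (fun z hz => tanh_nonneg hz.le) hx hy hxy
  have hsp := spread_logCosh hm hm1 hs h hx hxy (right_mem_Icc.2 zero_le_one)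
  rw [ex_one hm hm1 hs h.shape, ex_one hm hm1 hs h.shape, mul_one] at hsp
  have hK := mul_le_mul_of_nonneg_left hsp h.nn.2
  have hvar : ∫ t in (0:ℝ)..1, g1 m s F x t ≤
      ∫ t in (0:ℝ)..1, (g1 m s F y t + 2 * s * A * Real.exp (3 * s) * (logCosh y - logCosh x)) := by
    refine intervalIntegral.integral_mono_on_of_le_Ioo zero_le_one
      ((continuousOn_g hm hm1 hs h.shape x).2.1.intervalIntegrable_of_Icc zero_le_one)
      (((continuousOn_g hm hm1 hs h.shape y).2.1.intervalIntegrable_of_Icc zero_le_one).add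
        intervalIntegrable_const) fun t ht => ?_
    have hI := Ioo_subset_Icc_self ht
    obtain ⟨-, c2⟩ := continuous_phi hm hm1 hs h hI
    have b2 : ExpBd fun z => deriv (deriv (phiT m s F t)) z ^ 2 := ExpBd.of_bdd (C := 1) (c2.pow 2)
      fun z => by
        rw [abs_pow]
        exact pow_le_one₀ (abs_nonneg _) (abs_le.2
          ⟨by linarith [(phi_d2 hm hm1 hs h hI z).1], (phi_d2 hm hm1 hs h hI z).2⟩)
    have bT : ExpBd fun z => 1 * deriv (deriv (phiT m s F t)) z ^ 2 + 2 * A * logCosh z := by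
      obtain ⟨-, C, c, hC, hc, hb'⟩ := expBd_logCosh
      refine ⟨(continuous_const.mul b2.1).add (continuous_const.mul expBd_logCosh.1),
        1 + 2 * A * C, c, by positivity, hc, fun z => ?_⟩
      refine (abs_add_le _ _).trans ?_
      rw [add_mul]
      refine add_le_add ?_ ?_
      · rw [one_mul, one_mul, abs_pow]
        exact (pow_le_one₀ (abs_nonneg _) (abs_le.2
          ⟨by linarith [(phi_d2 hm hm1 hs h hI z).1], (phi_d2 hm hm1 hs h hI z).2⟩)).trans
            (Real.one_le_exp (by positivity))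
      · rw [abs_mul, abs_of_nonneg (by positivity : 0 ≤ 2 * A), mul_assoc (2 * A) C]
        exact mul_le_mul_of_nonneg_left (hb' z) (by positivity)
    have hm' := tilt_mono (δ := s * t) hm.le (good_phiT (s := s) hm h.good t) bT
      (fun z => by rw [d2_even (shape_phiT hm hm1 hs.le h.shape hI), logCosh_even])
      (fun a ha b hb hab => by
        have h1 := crude_hi hm hm1 hs h (Ioo_subset_Ico_self ht) ha hb hab
        obtain ⟨a0, a1⟩ := phi_d2 hm hm1 hs h hI a
        obtain ⟨b0, b1⟩ := phi_d2 hm hm1 hs h hI b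
        have hS := (shape_phiT hm hm1 hs.le h.shape hI).anti ha hb hab
        simp only [← hA] at h1 ⊢
        nlinarith [mul_le_mul_of_nonneg_left (show deriv (deriv (phiT m s F t)) a +
            deriv (deriv (phiT m s F t)) b ≤ 2 by linarith) (sub_nonneg.2 hS)]) hx hxy
    rw [← ex_eq_tilt hm hm1 hs h.shape x _ hI, ← ex_eq_tilt hm hm1 hs h.shape y _ hI,
      ex_comb hm hm1 hs h.shape h.good b2 expBd_logCosh 1 (2 * A) x hI,
      ex_comb hm hm1 hs h.shape h.good b2 expBd_logCosh 1 (2 * A) y hI] at hm'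
    have hs1 := spread_logCosh hm hm1 hs h hx hxy hI
    have hs2 : Real.exp (3 * s * t) ≤ Real.exp (3 * s) :=
      Real.exp_le_exp.2 (mul_le_of_le_one_right (by positivity) ht.2.le)
    have hs3 := mul_le_mul_of_nonneg_left (hs1.trans (mul_le_mul_of_nonneg_right hs2 hL))
      (show 0 ≤ 2 * A by positivity)
    simp only [g1]
    have := mul_le_mul_of_nonneg_left (show ex m s F x (fun z => deriv (deriv (phiT m s F t)) z ^ 2) t ≤
      ex m s F y (fun z => deriv (deriv (phiT m s F t)) z ^ 2) t +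
        2 * A * Real.exp (3 * s) * (logCosh y - logCosh x) by linarith) hs.le
    linarith
  rw [intervalIntegral.integral_add
    ((continuousOn_g hm hm1 hs h.shape y).2.1.intervalIntegrable_of_Icc zero_le_one)
    intervalIntegrable_const, intervalIntegral.integral_const, sub_zero, one_smul] at hvar
  have hv := mul_le_mul_of_nonneg_left hvar hm.le
  have h5 := mul_le_of_le_one_left
    (show 0 ≤ 2 * s * A * Real.exp (3 * s) * (logCosh y - logCosh x) by positivity) hm1
  simp only [layer_d2_eq hm hm1 hs h]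
  linarith

omit hs in
/-- One step keeps the shape; the constants change by `exp (O (s))`. -/
theorem Shape3.step {S : ℝ} (hs : 0 ≤ s) (hsS : s ≤ S) :
    ∃ κ' K', Shape3 κ' K' (layer m s F) ∧ κ * Real.exp (-(7 * s)) ≤ κ' ∧
      K' + 1 ≤ (K + 1) * Real.exp ((3 + 16 * Real.exp (3 * S)) * s) := by
  rcases hs.eq_or_lt with rfl | hs0
  · refine ⟨κ, K, ?_, by simp, by simp⟩
    rw [show layer m 0 F = F from funext fun x => by simp [layer, hm.ne']]
    exact h
  refine ⟨κ * Real.exp (-(7 * s)), Real.exp (3 * s) * (K + 2 * s * (K * Real.exp (3 * s) + 4)),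
    ⟨shapeStep m s F hm hm1 hs h.shape, good_layer hm h.good, sum_phiT hm hm1 h.shape h.sum,
      step_lo hm hm1 hs0 h, step_hi hm hm1 hs0 h, mul_nonneg h.nn.1 (Real.exp_pos _).le, ?_⟩,
    le_rfl, ?_⟩
  · have := h.nn.2
    positivity
  · set e := Real.exp (3 * s)
    set E := Real.exp (3 * S)
    have he : e ≤ E := Real.exp_le_exp.2 (by linarith)
    have he1 : 1 ≤ e := Real.one_le_exp (by positivity)
    have hK := h.nn.2
    rw [add_mul 3, Real.exp_add]
    calc e * (K + 2 * s * (K * e + 4)) + 1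
        ≤ e * ((K + 1) * (1 + 16 * E * s)) := by
          have i1 := mul_le_mul_of_nonneg_left he (mul_nonneg hs hK)
          have i2 : (1 : ℝ) ≤ E := he1.trans he
          have i3 : 2 * s * (K * e + 4) ≤ 16 * E * s * (K + 1) := by
            nlinarith [mul_nonneg (mul_nonneg hs hK) (zero_le_one.trans i2),
              mul_le_mul_of_nonneg_left i2 hs]
          nlinarith [mul_le_mul_of_nonneg_left i3 (zero_le_one.trans he1)]
      _ ≤ (K + 1) * (e * Real.exp (16 * E * s)) := by
          have := Real.add_one_le_exp (16 * E * s)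
          nlinarith [mul_le_mul_of_nonneg_left this
            (mul_nonneg (zero_le_one.trans he1) (add_nonneg hK zero_le_one))]

end Vale.Agent.P146.Tail
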