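import Vale.Agent.P146.Tail.Flow
import Vale.Agent.P157.Full.Concave.Main

/-!
Tilts of functions of exponential growth: linearity, monotonicity, and means of test functions
along the flow of a step.
-/

noncomputable section

open MeasureTheory ProbabilityTheory Filter Set
open scoped Topology

namespace Vale.Agent.P146.Tail

open Vale.Agent.P157.Parisi (layer tilt)
open Vale.Agent.P157.Parisi.Up (Lip1)
open Vale.Agent.P157.Parisi.Full.Concave renaming Good → CGood
open Vale.Agent.P157.Parisi.Full.Concave (EvInc B1 exp_lip_le den_pos den tilt_le_even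
  ratioLe_self tilt_even_neg good_layer tilt_eq_div integrable_den tanh_le_tanh tanh_nonneg)
open Vale.Agent.P146.Div (Shape1)
open Vale.Agent.P146.Div.Simpson (ExpBd)

variable {m δ : ℝ} {F : ℝ → ℝ}

lemma integrable_weight (hm : 0 ≤ m) (hF : Lip1 F) {h : ℝ → ℝ} (hh : ExpBd h) (x : ℝ) :
    Integrable (fun g => Real.exp (m * F (x + Real.sqrt δ * g)) * h (x + Real.sqrt δ * g))
      (gaussianReal 0 1) := by
  obtain ⟨hc, C, c, hC, hc0, hb⟩ := hh
  have hFc := hF.continuous
  refine ((Vale.Agent.P157.Parisi.Site.integrable_exp_abs ((m + c) * Real.sqrt δ)).const_mul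
    (Real.exp (m * |F 0|) * C * Real.exp ((m + c) * |x|))).mono'
    (by fun_prop) (ae_of_all _ fun g => ?_)
  rw [Real.norm_eq_abs, abs_mul, Real.abs_exp]
  refine (mul_le_mul (exp_lip_le hm hF _) (hb _) (abs_nonneg _) (by positivity)).trans ?_
  calc Real.exp (m * |F 0|) * Real.exp (m * |x + Real.sqrt δ * g|) *
        (C * Real.exp (c * |x + Real.sqrt δ * g|))
      = Real.exp (m * |F 0|) * C * Real.exp ((m + c) * |x + Real.sqrt δ * g|) := by
        rw [add_mul m c, Real.exp_add]; ring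
    _ ≤ Real.exp (m * |F 0|) * C *
          (Real.exp ((m + c) * |x|) * Real.exp ((m + c) * Real.sqrt δ * |g|)) :=
        mul_le_mul_of_nonneg_left (Vale.Agent.P146.Div.Simpson.exp_affine_le (add_nonneg hm hc0)
          le_rfl (abs_of_nonneg (Real.sqrt_nonneg δ)).le g) (mul_nonneg (Real.exp_pos _).le hC)
    _ = _ := by ring

lemma tilt_comb (hm : 0 ≤ m) (hF : Lip1 F) {h k : ℝ → ℝ} (hh : ExpBd h) (hk : ExpBd k)
    (a b x : ℝ) :
    tilt m δ F (fun y => a * h y + b * k y) x = a * tilt m δ F h x + b * tilt m δ F k x := by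
  simp only [tilt]
  rw [← mul_div_assoc, ← mul_div_assoc, ← add_div, ← integral_const_mul, ← integral_const_mul,
    ← integral_add ((integrable_weight hm hF hh x).const_mul a)
      ((integrable_weight hm hF hk x).const_mul b)]
  congr 1
  exact integral_congr_ae (ae_of_all _ fun g => by ring)

lemma tilt_const (hm : 0 ≤ m) (hF : Lip1 F) (c x : ℝ) : tilt m δ F (fun _ => c) x = c := by
  rw [tilt, integral_mul_const]
  exact mul_div_cancel_left₀ _ (den_pos hm hF x).ne'

lemma tilt_le (hm : 0 ≤ m) (hF : Lip1 F) {h k : ℝ → ℝ} (hh : ExpBd h) (hk : ExpBd k)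
    (hle : ∀ y, h y ≤ k y) (x : ℝ) : tilt m δ F h x ≤ tilt m δ F k x :=
  div_le_div_of_nonneg_right (integral_mono (integrable_weight hm hF hh x)
    (integrable_weight hm hF hk x) fun _ =>
      mul_le_mul_of_nonneg_left (hle _) (Real.exp_pos _).le) (den_pos hm hF x).le

/-- The tilt of an even function increasing in the modulus is increasing on the half line. -/
lemma tilt_mono (hm : 0 ≤ m) (hG : CGood F) {h : ℝ → ℝ} (hh : ExpBd h)
    (he : ∀ y, h (-y) = h y) (hmo : MonotoneOn h (Ici 0)) {x y : ℝ} (hx : 0 ≤ x) (hxy : x ≤ y) :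
    tilt m δ F h x ≤ tilt m δ F h y := by
  have h0 : ∀ y, h 0 ≤ h y := fun y => by
    rcases le_total 0 y with hy | hy
    · exact hmo self_mem_Ici hy hy
    · rw [← he y]
      exact hmo self_mem_Ici (mem_Ici.2 (neg_nonneg.2 hy)) (neg_nonneg.2 hy)
  have key : ∀ R : ℕ, tilt m δ F (fun y => min (h y) (h 0 + (R + 1))) x ≤
      tilt m δ F (fun y => min (h y) (h 0 + (R + 1))) y := by
    intro R
    have hR : (0 : ℝ) < R + 1 := by positivity
    set k := fun y => (min (h y) (h 0 + (R + 1)) - h 0) / (R + 1) with hk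
    have hkE : EvInc k := by
      refine ⟨⟨(((hh.1.min continuous_const).sub continuous_const).div_const _).measurable,
        fun y => ?_⟩, fun y => by simp [hk, he], fun a ha b hb hab => ?_⟩
      · have h1 := h0 y
        rw [abs_le, hk]
        constructor
        · rw [le_div_iff₀ hR]
          linarith [le_min h1 (show h 0 ≤ h 0 + (R + 1) by linarith)]
        · rw [div_le_one hR]
          linarith [min_le_right (h y) (h 0 + (R + 1))]
      · exact div_le_div_of_nonneg_right (sub_le_sub_right (min_le_min (hmo ha hb hab) le_rfl) _)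
          hR.le
    have hkb : ExpBd k := ExpBd.of_bdd ((((hh.1.min continuous_const).sub continuous_const)).div_const _)
      hkE.b1.bound
    have hxy' := tilt_le_even (δ := δ) hm hm hG hG (ratioLe_self m F) hkE (x := x) (y := y)
      (by rw [abs_of_nonneg hx, abs_of_nonneg (hx.trans hxy)]; exact hxy)
    have e : ∀ z, tilt m δ F (fun y => min (h y) (h 0 + (R + 1))) z =
        ((R : ℝ) + 1) * tilt m δ F k z + h 0 * tilt m δ F (fun _ => (1 : ℝ)) z := fun z => by
      rw [← tilt_comb hm hG.lip hkb (ExpBd.const 1)]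
      congr 1
      funext y
      simp only [hk]
      field_simp
      ring
    rw [e, e, tilt_const hm hG.lip, tilt_const hm hG.lip]
    have := mul_le_mul_of_nonneg_left hxy' hR.le
    linarith
  have lim : ∀ z, Tendsto (fun R : ℕ => tilt m δ F (fun y => min (h y) (h 0 + (R + 1))) z) atTop
      (𝓝 (tilt m δ F h z)) := fun z => by
    refine (tendsto_integral_of_dominated_convergence
      (fun g => Real.exp (m * F (z + Real.sqrt δ * g)) * (|h (z + Real.sqrt δ * g)| + |h 0|))
      (fun R => ?_) ?_ (fun R => ae_of_all _ fun g => ?_) (ae_of_all _ fun g => ?_)).div_const _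
    · have := hG.lip.continuous
      have := hh.1
      exact (by fun_prop : Continuous _).aestronglyMeasurable
    · simp only [mul_add]
      refine Integrable.add ?_ (((integrable_den (δ := δ) hm hG.lip z).mul_const _))
      exact ((integrable_weight (δ := δ) hm hG.lip hh z).norm).congr (ae_of_all _ fun g => by simp)
    · rw [Real.norm_eq_abs, abs_mul, Real.abs_exp]
      refine mul_le_mul_of_nonneg_left ?_ (Real.exp_pos _).le
      beta_reduce
      rcases min_choice (h (z + Real.sqrt δ * g)) (h 0 + (R + 1)) with e | e <;> rw [e]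
      · linarith [abs_nonneg (h 0)]
      · have h1 := h0 (z + Real.sqrt δ * g)
        have h2 := min_eq_right_iff.1 e
        rw [abs_le]
        constructor <;>
          linarith [neg_abs_le (h 0), le_abs_self (h 0), abs_nonneg (h (z + Real.sqrt δ * g)),
            le_abs_self (h (z + Real.sqrt δ * g)), (Nat.cast_nonneg R : (0 : ℝ) ≤ R)]
    · refine tendsto_const_nhds.mul (tendsto_const_nhds.congr' ?_)
      obtain ⟨N, hN⟩ := exists_nat_ge (h (z + Real.sqrt δ * g) - h 0)
      filter_upwards [eventually_ge_atTop N] with R hR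
      have : (N : ℝ) ≤ R := by exact_mod_cast hR
      rw [min_eq_left (by linarith)]
  exact le_of_tendsto_of_tendsto' (lim x) (lim y) key

/-! ### Test functions along the flow -/

variable {s : ℝ}

lemma good_phiT (hm : 0 < m) (hG : CGood F) (t : ℝ) : CGood (phiT m s F t) :=
  good_layer hm hG

lemma sum_phiT (hm : 0 < m) (hm1 : m ≤ 1) (hF : Shape1 F)
    (hsum : ∀ y, deriv (deriv F) y + deriv F y ^ 2 ≤ 1) :
    ∀ y, deriv (deriv (layer m s F)) y + deriv (layer m s F) y ^ 2 ≤ 1 := by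
  intro y
  obtain ⟨hd, hb⟩ := Vale.Agent.P146.Div.ShapeStep.bd_of_shape hF
  have hb0 : Vale.Agent.P146.Div.ShapeStep.Bd 0 (deriv F) := hb.pred.pred.pred
  have hb1 : Vale.Agent.P146.Div.ShapeStep.Bd 1 (deriv F) := hb.pred.pred
  have hL : deriv (layer m s F) = tilt m s F (deriv F) := funext fun x =>
    (Vale.Agent.P146.Div.ShapeStep.hasDerivAt_layer (δ := s) hm hd hb0 x).deriv
  rw [hL, (Vale.Agent.P146.Div.ShapeStep.hasDerivAt_tilt hm.le hd hb0 hb1 y).deriv]
  obtain ⟨C, hC⟩ := hb.bound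
  have hsq := Vale.Agent.P146.Div.ShapeStep.tilt_sq_le (δ := s) hm.le hd hC hb0 y
  have hd2 : Continuous (deriv (deriv F)) := hb1.2.2.continuous
  obtain ⟨A, hA⟩ := hb1.2.2.bound
  have e1 : ExpBd (deriv (deriv F)) := ExpBd.of_bdd hd2 hA
  have e2 : ExpBd fun z => deriv F z * deriv F z :=
    ExpBd.of_bdd ((hb0.mul hb0).continuous) (Classical.choose_spec (hb0.mul hb0).bound)
  have hLip : Lip1 F := by
    refine Vale.Agent.P157.Parisi.Full.Concave.lip1_of_deriv hd fun z => ?_
    have h1 := hsum z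
    have h2 := hF.nonneg z
    rw [abs_le]
    constructor <;> nlinarith
  have e : tilt m s F (fun z => deriv (deriv F) z + m * (deriv F z * deriv F z)) y ≤
      1 - (1 - m) * tilt m s F (fun z => deriv F z * deriv F z) y := by
    have h1 := tilt_le (δ := s) hm.le hLip
      (h := fun z => 1 * deriv (deriv F) z + 1 * (deriv F z * deriv F z)) (k := fun _ => 1)
      ?_ (ExpBd.const 1) (fun z => by linarith [hsum z, sq (deriv F z)]) y
    · rw [tilt_comb hm.le hLip e1 e2, tilt_const hm.le hLip] at h1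
      have h2 := tilt_comb (δ := s) hm.le hLip e1 e2 1 m y
      simp only [one_mul] at h1 h2 ⊢
      rw [h2]
      linarith
    · exact ExpBd.of_bdd (C := A + Classical.choose (hb0.mul hb0).bound)
        ((continuous_const.mul hd2).add (continuous_const.mul (hb0.mul hb0).continuous)) fun z => by
          simp only [one_mul]
          exact (abs_add_le _ _).trans
            (add_le_add (hA z) (Classical.choose_spec (hb0.mul hb0).bound z))
  have := mul_le_mul_of_nonneg_left hsq (sub_nonneg.2 hm1)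
  linarith

variable (hm : 0 < m) (hm1 : m ≤ 1) (hs : 0 < s) (hF : Shape1 F)

include hm hm1 hs hF

lemma ex_comb (hG : CGood F) {h k : ℝ → ℝ} (hh : ExpBd h) (hk : ExpBd k) (a b x : ℝ) {t : ℝ}
    (ht : t ∈ Icc (0 : ℝ) 1) :
    ex m s F x (fun y => a * h y + b * k y) t = a * ex m s F x h t + b * ex m s F x k t := by
  rw [ex_eq_tilt hm hm1 hs hF x _ ht, ex_eq_tilt hm hm1 hs hF x _ ht,
    ex_eq_tilt hm hm1 hs hF x _ ht, tilt_comb hm.le (good_phiT hm hG t).lip hh hk]

lemma ex_le (hG : CGood F) {h k : ℝ → ℝ} (hh : ExpBd h) (hk : ExpBd k) (hle : ∀ y, h y ≤ k y)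
    (x : ℝ) {t : ℝ} (ht : t ∈ Icc (0 : ℝ) 1) : ex m s F x h t ≤ ex m s F x k t := by
  rw [ex_eq_tilt hm hm1 hs hF x _ ht, ex_eq_tilt hm hm1 hs hF x _ ht]
  exact tilt_le hm.le (good_phiT hm hG t).lip hh hk hle x

omit hm hm1 hs hF

/-- A differential inequality `u' ≥ a - A u` integrated. -/
lemma gronwall_lower {u u' : ℝ → ℝ} {A a : ℝ} (hA : 0 ≤ A) (ha : 0 ≤ a)
    (hc : ContinuousOn u (Icc 0 1)) (hd : ∀ t ∈ Ioo (0 : ℝ) 1, HasDerivAt u (u' t) t)
    (hb : ∀ t ∈ Ioo (0 : ℝ) 1, a - A * u t ≤ u' t) {t : ℝ} (ht : t ∈ Icc (0 : ℝ) 1) :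
    Real.exp (-(A * t)) * (u 0 + a * t) ≤ u t := by
  have hmono : MonotoneOn (fun t => Real.exp (A * t) * u t - a * t) (Icc 0 1) := by
    refine monotoneOn_of_deriv_nonneg (convex_Icc 0 1)
      (((by fun_prop : Continuous fun t => Real.exp (A * t)).continuousOn.mul hc).sub
        (continuous_const.mul continuous_id).continuousOn) ?_ ?_ <;> rw [interior_Icc]
    · exact fun v hv => ((((hasDerivAt_id' v).const_mul A).exp.fun_mul (hd v hv)).fun_sub
        ((hasDerivAt_id' v).const_mul a)).differentiableAt.differentiableWithinAt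
    · intro v hv
      rw [HasDerivAt.deriv ((((hasDerivAt_id' v).const_mul A).exp.fun_mul (hd v hv)).fun_sub
        ((hasDerivAt_id' v).const_mul a))]
      have e1 : (1 : ℝ) ≤ Real.exp (A * v) := Real.one_le_exp (mul_nonneg hA hv.1.le)
      nlinarith [hb v hv]
  have h := hmono (left_mem_Icc.2 zero_le_one) ht ht.1
  simp only [mul_zero, Real.exp_zero, one_mul, sub_zero] at h
  rw [Real.exp_neg, inv_mul_le_iff₀ (Real.exp_pos _)]
  linarith

/-- A differential inequality `u' ≤ a + A u` integrated. -/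
lemma gronwall_upper {u u' : ℝ → ℝ} {A a : ℝ} (hA : 0 ≤ A) (ha : 0 ≤ a)
    (hc : ContinuousOn u (Icc 0 1)) (hd : ∀ t ∈ Ioo (0 : ℝ) 1, HasDerivAt u (u' t) t)
    (hb : ∀ t ∈ Ioo (0 : ℝ) 1, u' t ≤ a + A * u t) {t : ℝ} (ht : t ∈ Icc (0 : ℝ) 1) :
    u t ≤ Real.exp (A * t) * (u 0 + a * t) := by
  have hmono : AntitoneOn (fun t => Real.exp (-(A * t)) * u t - a * t) (Icc 0 1) := by
    refine antitoneOn_of_deriv_nonpos (convex_Icc 0 1)
      (((by fun_prop : Continuous fun t => Real.exp (-(A * t))).continuousOn.mul hc).sub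
        (continuous_const.mul continuous_id).continuousOn) ?_ ?_ <;> rw [interior_Icc]
    · exact fun v hv => ((((hasDerivAt_id' v).const_mul A).neg.exp.fun_mul (hd v hv)).fun_sub
        ((hasDerivAt_id' v).const_mul a)).differentiableAt.differentiableWithinAt
    · intro v hv
      rw [HasDerivAt.deriv ((((hasDerivAt_id' v).const_mul A).fun_neg.exp.fun_mul (hd v hv)).fun_sub
        ((hasDerivAt_id' v).const_mul a))]
      have e1 : Real.exp (-(A * v)) ≤ 1 := Real.exp_le_one_iff.2 (by nlinarith [hv.1])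
      have e0 := Real.exp_pos (-(A * v))
      nlinarith [hb v hv]
  have h := hmono (left_mem_Icc.2 zero_le_one) ht ht.1
  simp only [mul_zero, neg_zero, Real.exp_zero, one_mul, sub_zero] at h
  rw [Real.exp_neg, sub_le_iff_le_add, inv_mul_le_iff₀ (Real.exp_pos _)] at h
  linarith

/-! ### The test functions -/

/-- `Θ = tanh² / 2`, whose derivative is `ψ = tanh sech²`. -/
def Theta (x : ℝ) : ℝ := Real.tanh x ^ 2 / 2

/-- `ψ = tanh sech²`. -/
def psiT (x : ℝ) : ℝ := Real.tanh x * (1 - Real.tanh x ^ 2)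

/-- `e = sech⁴`. -/
def eT (x : ℝ) : ℝ := (1 - Real.tanh x ^ 2) ^ 2

/-- `ψ'`. -/
def psiT' (x : ℝ) : ℝ := (1 - Real.tanh x ^ 2) * (1 - 3 * Real.tanh x ^ 2)

/-- `ψ''`. -/
def psiT'' (x : ℝ) : ℝ := psiT x * (12 * Real.tanh x ^ 2 - 8)

open Vale.Agent.P157.Parisi.Full (hasDerivAt_tanh' sq_tanh_le_one hasDerivAt_logCosh logCosh)
open Vale.Agent.P157.Parisi.Full.Concave (continuous_tanh)

lemma hasDerivAt_Theta (x : ℝ) : HasDerivAt Theta (psiT x) x := by
  refine (((hasDerivAt_tanh' x).fun_pow 2).div_const 2).congr_deriv ?_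
  simp [psiT]; ring

lemma hasDerivAt_psiT (x : ℝ) : HasDerivAt psiT (psiT' x) x := by
  refine ((hasDerivAt_tanh' x).mul (((hasDerivAt_tanh' x).fun_pow 2).const_sub 1)).congr_deriv ?_
  simp [psiT']; ring

lemma hasDerivAt_psiT' (x : ℝ) : HasDerivAt psiT' (psiT'' x) x := by
  refine ((((hasDerivAt_tanh' x).fun_pow 2).const_sub 1).mul
    ((((hasDerivAt_tanh' x).fun_pow 2).const_mul 3).const_sub 1)).congr_deriv ?_
  simp [psiT'', psiT]; ring

lemma abs_tanh_le_one (x : ℝ) : |Real.tanh x| ≤ 1 := (Real.abs_tanh_lt_one x).le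

lemma sech_bounds (x : ℝ) : 0 ≤ 1 - Real.tanh x ^ 2 ∧ 1 - Real.tanh x ^ 2 ≤ 1 :=
  ⟨by linarith [sq_tanh_le_one x], by linarith [sq_nonneg (Real.tanh x)]⟩

lemma abs_psiT_le (x : ℝ) : |psiT x| ≤ 1 := by
  rw [psiT, abs_mul, abs_of_nonneg (sech_bounds x).1]
  exact mul_le_one₀ (abs_tanh_le_one x) (sech_bounds x).1 (sech_bounds x).2

lemma psiT_nonneg {x : ℝ} (hx : 0 ≤ x) : 0 ≤ psiT x :=
  mul_nonneg (tanh_nonneg hx) (sech_bounds x).1

lemma abs_psiT'_le (x : ℝ) : |psiT' x| ≤ 2 := by
  rw [psiT', abs_mul, abs_of_nonneg (sech_bounds x).1]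
  refine (mul_le_of_le_one_left (abs_nonneg _) (sech_bounds x).2).trans ?_
  rw [abs_le]
  constructor <;> nlinarith [sq_tanh_le_one x, sq_nonneg (Real.tanh x)]

lemma abs_psiT''_le (x : ℝ) : |psiT'' x| ≤ 8 := by
  rw [psiT'', abs_mul]
  refine (mul_le_of_le_one_left (abs_nonneg _) (abs_psiT_le x)).trans ?_
  rw [abs_le]
  constructor <;> nlinarith [sq_tanh_le_one x, sq_nonneg (Real.tanh x)]

lemma half_le_tanh {x : ℝ} (hx : 0 ≤ x) : min x 1 ≤ 2 * Real.tanh x := by
  have h : ∀ u : ℝ, 0 ≤ u → u ≤ 1 → u ≤ 2 * Real.tanh u := fun u h0 h1 => by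
    rw [Real.tanh_eq_sinh_div_cosh, ← mul_div_assoc, le_div_iff₀ (Real.cosh_pos u)]
    have hc : Real.cosh u ≤ 2 := by
      have h2 : Real.cosh u ≤ Real.cosh 1 := by
        rw [Real.cosh_le_cosh, abs_of_nonneg h0, abs_one]; exact h1
      refine h2.trans ?_
      rw [Real.cosh_eq]
      have e1 := Real.exp_one_lt_d9
      have e2 : Real.exp (-1 : ℝ) ≤ 1 := Real.exp_le_one_iff.2 (by norm_num)
      linarith
    calc u * Real.cosh u ≤ u * 2 := mul_le_mul_of_nonneg_left hc h0
      _ ≤ _ := by linarith [Real.self_le_sinh_iff.2 h0]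
  refine (h _ (le_min hx zero_le_one) (min_le_right _ _)).trans ?_
  exact mul_le_mul_of_nonneg_left (tanh_le_tanh (min_le_left _ _)) zero_le_two

lemma mul_sech_le_tanh {x : ℝ} (hx : 0 ≤ x) : x * (1 - Real.tanh x ^ 2) ≤ Real.tanh x := by
  have hc := Real.cosh_pos x
  have e : 1 - Real.tanh x ^ 2 = 1 / Real.cosh x ^ 2 := by
    rw [Real.tanh_eq_sinh_div_cosh, div_pow, one_sub_div (pow_ne_zero 2 hc.ne'), Real.cosh_sq]
    ring
  rw [e, Real.tanh_eq_sinh_div_cosh, mul_one_div, div_le_div_iff₀ (pow_pos hc 2) hc]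
  have h1 := Real.self_le_sinh_iff.2 hx
  have h2 := Real.one_le_cosh x
  have : Real.sinh x ≤ Real.sinh x * Real.cosh x := le_mul_of_one_le_right (hx.trans h1) h2
  nlinarith

lemma expBd_logCosh : ExpBd logCosh := by
  refine ⟨(Differentiable.continuous fun x => (hasDerivAt_logCosh x).differentiableAt), 1, 1,
    zero_le_one, zero_le_one, fun x => ?_⟩
  rw [one_mul, one_mul]
  have h := Vale.Agent.P157.Parisi.Full.Concave.good_logCosh.lip
  have h1 := h x 0
  have h2 := h 0 x
  simp only [sub_zero, zero_sub, abs_neg] at h1 h2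
  have h0 : logCosh 0 = 0 := by simp [logCosh]
  rw [h0] at h1 h2
  refine le_trans ?_ (Vale.Agent.P157.Parisi.Full.Deriv.abs_le_exp_abs x)
  rw [abs_le]
  constructor <;> linarith

end Vale.Agent.P146.Tail
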